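import Vale.Agent.P092.H41.Re.Comp
import Mathlib.Analysis.Calculus.MeanValue

/-!
P092, project RE, row [RE-EX] (helper41), part 3: automorphism groups of finite dimensional real
algebras; their Lie algebras are the derivations.
-/

set_option linter.all false

open Matrix Filter Topology

namespace Vale.Agent.P092.H41.Re

open Vale.Agent.P092.H793.Re

attribute [local instance] Matrix.linftyOpNormedRing Matrix.linftyOpNormedAlgebra

variable {n : ℕ} (Lm : (Fin n → ℝ) →ₗ[ℝ] Mat n)

/-- a linear map of `ℝⁿ` as a continuous linear map on matrices: `M ↦ Lm (M x)` -/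
noncomputable def lam (x : Fin n → ℝ) : Mat n →L[ℝ] Mat n :=
  LinearMap.toContinuousLinearMap
    (Lm.comp ((LinearMap.applyₗ x).comp (Matrix.toLin'.toLinearMap : Mat n →ₗ[ℝ] _)))

theorem lam_apply (x : Fin n → ℝ) (M : Mat n) : lam Lm x M = Lm (M *ᵥ x) := rfl

/-- the automorphisms of the algebra `ℝⁿ` with left multiplications `Lm` -/
def autL : Subgroup (SLn n) where
  carrier := {g | ∀ x, g.1 * Lm x = Lm (g.1 *ᵥ x) * g.1}
  one_mem' := by
    intro x
    show (1 : Mat n) * Lm x = Lm ((1 : Mat n) *ᵥ x) * (1 : Mat n)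
    rw [Matrix.one_mulVec, one_mul, mul_one]
  mul_mem' := by
    intro g h hg hh x
    show (g * h).1 * Lm x = Lm ((g * h).1 *ᵥ x) * (g * h).1
    rw [Matrix.SpecialLinearGroup.coe_mul, Matrix.mul_assoc, hh x, ← Matrix.mul_assoc, hg,
      Matrix.mulVec_mulVec, Matrix.mul_assoc]
  inv_mem' := by
    intro g hg x
    have h1 : (g⁻¹).1 * g.1 = 1 := by
      have : (g⁻¹ * g).1 = (1 : SLn n).1 := by rw [inv_mul_cancel]
      rwa [Matrix.SpecialLinearGroup.coe_mul] at this
    have h2 : g.1 * (g⁻¹).1 = 1 := mul_eq_one_comm.1 h1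
    have h3 := hg ((g⁻¹).1 *ᵥ x)
    rw [Matrix.mulVec_mulVec, h2, Matrix.one_mulVec] at h3
    calc (g⁻¹).1 * Lm x = (g⁻¹).1 * (Lm x * g.1) * (g⁻¹).1 := by
          rw [Matrix.mul_assoc, Matrix.mul_assoc, h2, mul_one]
      _ = (g⁻¹).1 * (g.1 * Lm ((g⁻¹).1 *ᵥ x)) * (g⁻¹).1 := by rw [h3]
      _ = ((g⁻¹).1 * g.1) * Lm ((g⁻¹).1 *ᵥ x) * (g⁻¹).1 := by simp only [Matrix.mul_assoc]
      _ = Lm ((g⁻¹).1 *ᵥ x) * (g⁻¹).1 := by rw [h1, one_mul]

theorem mem_autL {g : SLn n} : g ∈ autL Lm ↔ ∀ x, g.1 * Lm x = Lm (g.1 *ᵥ x) * g.1 := Iff.rfl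

theorem isClosed_autL : IsClosed (autL Lm : Set (SLn n)) := by
  have h1 : (autL Lm : Set (SLn n)) = ⋂ x, {g : SLn n | g.1 * Lm x = lam Lm x g.1 * g.1} := by
    ext g
    simp only [Set.mem_iInter, Set.mem_setOf_eq]
    rfl
  rw [h1]
  refine isClosed_iInter fun x => isClosed_eq ?_ ?_
  · exact (continuous_subtype_val).matrix_mul continuous_const
  · exact ((lam Lm x).continuous.comp continuous_subtype_val).matrix_mul continuous_subtype_val

variable {Lm}

/-- derivations exponentiate to automorphisms -/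
theorem exp_aut {X : Mat n} (h : ∀ x, X * Lm x - Lm x * X = Lm (X *ᵥ x)) (t : ℝ) (x : Fin n → ℝ) :
    NormedSpace.exp (t • X) * Lm x =
      Lm (NormedSpace.exp (t • X) *ᵥ x) * NormedSpace.exp (t • X) := by
  have hd : ∀ s : ℝ, HasDerivAt (fun s : ℝ => NormedSpace.exp (s • -X) *
      (lam Lm x (NormedSpace.exp (s • X)) * NormedSpace.exp (s • X))) 0 s := by
    intro s
    have d1 := hasDerivAt_exp_smul_const (𝕂 := ℝ) (-X) s
    have d2 := hasDerivAt_exp_smul_const' (𝕂 := ℝ) X s
    have d3 : HasDerivAt (fun s : ℝ => lam Lm x (NormedSpace.exp (s • X)))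
        (lam Lm x (X * NormedSpace.exp (s • X))) s :=
      ((lam Lm x).hasFDerivAt (x := NormedSpace.exp (s • X))).comp_hasDerivAt s d2
    have d4 := d1.mul (d3.mul d2)
    have e1 := h (NormedSpace.exp (s • X) *ᵥ x)
    rw [Matrix.mulVec_mulVec, ← lam_apply Lm x (X * NormedSpace.exp (s • X)),
      ← lam_apply Lm x (NormedSpace.exp (s • X))] at e1
    have e2 : (fun s : ℝ => NormedSpace.exp (s • -X) *
      (lam Lm x (NormedSpace.exp (s • X)) * NormedSpace.exp (s • X))) =
      ((fun s : ℝ => NormedSpace.exp (s • -X)) *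
        ((fun s : ℝ => lam Lm x (NormedSpace.exp (s • X))) *
          fun s : ℝ => NormedSpace.exp (s • X))) := by
      funext s
      rfl
    rw [e2]
    refine d4.congr_deriv ?_
    show NormedSpace.exp (s • -X) * -X *
        (lam Lm x (NormedSpace.exp (s • X)) * NormedSpace.exp (s • X)) +
      NormedSpace.exp (s • -X) * (lam Lm x (X * NormedSpace.exp (s • X)) *
        NormedSpace.exp (s • X) + lam Lm x (NormedSpace.exp (s • X)) *
          (X * NormedSpace.exp (s • X))) = 0
    rw [← e1]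
    noncomm_ring
  have hdiff : Differentiable ℝ (fun s : ℝ => NormedSpace.exp (s • -X) *
      (lam Lm x (NormedSpace.exp (s • X)) * NormedSpace.exp (s • X))) :=
    fun s => (hd s).differentiableAt
  have hc := is_const_of_deriv_eq_zero hdiff (fun s => (hd s).deriv) t 0
  simp only [zero_smul, NormedSpace.exp_zero, one_mul, mul_one] at hc
  have h0 : lam Lm x 1 = Lm x := by rw [lam_apply, Matrix.one_mulVec]
  rw [h0, smul_neg] at hc
  have h1 : NormedSpace.exp (t • X) * NormedSpace.exp (-(t • X)) = 1 :=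
    H736.ExpLoc.exp_mul_neg (𝔸 := Mat n) (t • X)
  rw [← hc, ← mul_assoc, h1, one_mul]
  rfl

/-- the velocity of automorphisms is a derivation -/
theorem der_aut {X : Mat n} (h : ∀ (t : ℝ) (x : Fin n → ℝ), NormedSpace.exp (t • X) * Lm x =
      Lm (NormedSpace.exp (t • X) *ᵥ x) * NormedSpace.exp (t • X)) (x : Fin n → ℝ) :
    X * Lm x - Lm x * X = Lm (X *ᵥ x) := by
  have d2 := hasDerivAt_exp_smul_const' (𝕂 := ℝ) X (0 : ℝ)
  have d3 : HasDerivAt (fun s : ℝ => lam Lm x (NormedSpace.exp (s • X)))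
      (lam Lm x (X * NormedSpace.exp ((0 : ℝ) • X))) 0 :=
    ((lam Lm x).hasFDerivAt (x := NormedSpace.exp ((0 : ℝ) • X))).comp_hasDerivAt (0 : ℝ) d2
  have d4 := d3.mul d2
  have d5 := d2.mul_const (Lm x)
  have d6 := d4.congr_of_eventuallyEq (f₁ := fun s : ℝ => NormedSpace.exp (s • X) * Lm x)
    (Eventually.of_forall fun s => h s x)
  have h1 := d5.unique d6
  simp only [zero_smul, NormedSpace.exp_zero, mul_one] at h1
  rw [lam_apply, lam_apply, Matrix.one_mulVec] at h1
  rw [h1]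
  abel

/-- the Lie algebra of the automorphism group -/
theorem la_autL {X : Mat n} : LA (autL Lm) X ↔
    (∀ t : ℝ, (NormedSpace.exp (t • X)).det = 1) ∧ ∀ x, X * Lm x - Lm x * X = Lm (X *ᵥ x) := by
  constructor
  · intro h
    refine ⟨fun t => ?_, fun x => der_aut (fun t x => ?_) x⟩
    · obtain ⟨a, -, ha⟩ := h t
      rw [← ha]; exact a.2
    · obtain ⟨a, ha, hae⟩ := h t
      rw [← hae]; exact ha x
  · rintro ⟨h1, h2⟩ t
    exact ⟨⟨NormedSpace.exp (t • X), h1 t⟩, fun x => exp_aut h2 t x, rfl⟩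

/-- an infinitesimal isometry of a nondegenerate form has `det (exp X) = 1` -/
theorem det_exp_of_skew {X B B' : Mat n} (hB : B * B' = 1) (h : Xᵀ * B + B * X = 0) (t : ℝ) :
    (NormedSpace.exp (t • X)).det = 1 ∧
      (NormedSpace.exp (t • X))ᵀ * B * NormedSpace.exp (t • X) = B := by
  have hB' : B' * B = 1 := mul_eq_one_comm.1 hB
  have hu : IsUnit B := ⟨⟨B, B', hB, hB'⟩, rfl⟩
  have hi : B⁻¹ = B' := Matrix.inv_eq_right_inv hB
  have key : ∀ t : ℝ, (NormedSpace.exp (t • X))ᵀ * B * NormedSpace.exp (t • X) = B := by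
    intro t
    have h1 : (t • X)ᵀ = B * (-(t • X)) * B⁻¹ := by
      have h2 : Xᵀ * B = -(B * X) := eq_neg_of_add_eq_zero_left h
      have h3 : Xᵀ = -(B * X) * B' := by
        rw [← h2, Matrix.mul_assoc, hB, mul_one]
      rw [Matrix.transpose_smul, h3, hi]
      simp only [Matrix.neg_mul, Matrix.mul_neg, Matrix.mul_smul, Matrix.smul_mul, smul_neg]
    rw [← Matrix.exp_transpose, h1, Matrix.exp_conj _ _ hu, hi]
    calc B * NormedSpace.exp (-(t • X)) * B' * B * NormedSpace.exp (t • X)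
        = B * NormedSpace.exp (-(t • X)) * (B' * B) * NormedSpace.exp (t • X) := by
          simp only [Matrix.mul_assoc]
      _ = B * (NormedSpace.exp (-(t • X)) * NormedSpace.exp (t • X)) := by
          rw [hB', mul_one, Matrix.mul_assoc]
      _ = B := by
          have h5 : NormedSpace.exp (-(t • X)) * NormedSpace.exp (t • X) = 1 :=
            H736.ExpLoc.exp_neg_mul (𝔸 := Mat n) (t • X)
          rw [h5, mul_one]
  refine ⟨?_, key t⟩
  have hdB : B.det ≠ 0 := by
    have h1 := congrArg Matrix.det hB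
    rw [Matrix.det_mul, Matrix.det_one] at h1
    exact left_ne_zero_of_mul_eq_one h1
  have hsq : (NormedSpace.exp (t • X)).det ^ 2 = 1 := by
    have h1 := congrArg Matrix.det (key t)
    rw [Matrix.det_mul, Matrix.det_mul, Matrix.det_transpose] at h1
    have h2 : ((NormedSpace.exp (t • X)).det ^ 2 - 1) * B.det = 0 := by
      linear_combination h1
    rcases mul_eq_zero.1 h2 with h3 | h3
    · linarith
    · exact absurd h3 hdB
  have hpos : 0 ≤ (NormedSpace.exp (t • X)).det := by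
    have h1 : NormedSpace.exp (t • X) =
        NormedSpace.exp ((t / 2) • X) * NormedSpace.exp ((t / 2) • X) := by
      rw [← H35.RePol.exp_smul_add]; ring_nf
    rw [h1, Matrix.det_mul]
    exact mul_self_nonneg _
  nlinarith

end Vale.Agent.P092.H41.Re
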