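import Vale.Agent.P092.H41.Re.Simp
import Mathlib.Topology.Algebra.Group.Basic

/-!
P092, project RE, row [RE-EX] (helper41), part 2: `RS0` from the Lie algebra; identity components
of closed subgroups of `SL_n(ℝ)` stable under transposition.
-/

set_option linter.all false

open Matrix Filter Topology

namespace Vale.Agent.P092.H41.Re

open Vale.Agent.P092.H793.Re

attribute [local instance] Matrix.linftyOpNormedRing Matrix.linftyOpNormedAlgebra

section gen

variable {n : ℕ} {G : Type} [Group G] [TopologicalSpace G] {ρ : G →* SLn n}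

theorem nc_of (he : IsClosedEmbedding ρ) {X : Mat n} (hX : Lie ρ X) (hs : Xᵀ = X) (h0 : X ≠ 0) :
    ¬ CompactSpace G := by
  intro hG
  apply h0
  have hc : Continuous fun g : G => vv (ρ g).1 := vv_cont.comp (emb_mat he).continuous
  obtain ⟨C, hC⟩ := (isCompact_range hc).isBounded.subset_closedBall (0 : ℝ)
  ext a b
  by_contra hab
  have hpos : 0 < X a b ^ 2 := by
    have : X a b ≠ 0 := hab
    positivity
  have key : ∀ t : ℝ, (t * X a b) ^ 2 ≤ 2 * C := by
    intro t
    obtain ⟨g, hg⟩ := hX t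
    have hd : (NormedSpace.exp (t • X)).det = 1 := by rw [← hg]; exact (ρ g).2
    have h1 := bound_exp (X := t • X) (by rw [Matrix.transpose_smul, hs]) a b
    rw [← vv_exp hd, ← hg] at h1
    have h2 : vv (ρ g).1 ∈ Metric.closedBall (0 : ℝ) C := hC ⟨g, rfl⟩
    rw [Metric.mem_closedBall, dist_zero_right, Real.norm_eq_abs] at h2
    have h3 := (le_abs_self _).trans h2
    have h4 : (t • X) a b = t * X a b := by simp
    rw [h4] at h1
    linarith
  have hC0 : 0 ≤ |2 * C| := abs_nonneg _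
  have h7 := key ((|2 * C| + 1) / X a b)
  have hab' : X a b ≠ 0 := hab
  rw [div_mul_cancel₀ _ hab'] at h7
  have h8 := le_abs_self (2 * C)
  nlinarith

theorem nab_of (he : IsClosedEmbedding ρ) {X Y : Mat n} (hX : Lie ρ X) (hY : Lie ρ Y)
    (h : X * Y ≠ Y * X) : ∃ g h : G, g * h ≠ h * g := by
  by_contra hne
  push Not at hne
  apply h
  refine comm_of_exp fun t => ?_
  symm
  refine comm_of_exp fun s => ?_
  obtain ⟨g, hg⟩ := hX t
  obtain ⟨g', hg'⟩ := hY s
  have h1 := congrArg (fun z => (ρ z).1) (hne g' g)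
  simp only [map_mul, Matrix.SpecialLinearGroup.coe_mul] at h1
  rw [hg, hg'] at h1
  exact h1

/-- **(T3)** the conditions of `RS0` from the Lie algebra -/
theorem rs0_of (he : IsClosedEmbedding ρ) (hc : PreconnectedSpace G)
    (ha : ∀ g, ∃ g', (ρ g').1 = (ρ g).1ᵀ) (hs : IrrLie ρ)
    (hX : ∃ X, Lie ρ X ∧ Xᵀ = X ∧ X ≠ 0) (hn : ∃ X Y, Lie ρ X ∧ Lie ρ Y ∧ X * Y ≠ Y * X) :
    RS0 ρ where
  emb := he
  conn := hc
  adj := ha
  nc := by
    obtain ⟨X, hX, hs, h0⟩ := hX
    exact nc_of he hX hs h0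
  nab := by
    obtain ⟨X, Y, hX, hY, h⟩ := hn
    exact nab_of he hX hY h
  simple := fun N hN => simple_of he hc hs N hN

end gen

section comp

variable {n : ℕ}

/-- the Lie algebra of a subgroup of `SL_n(ℝ)` -/
def LA (A : Subgroup (SLn n)) (X : Mat n) : Prop :=
  ∀ t : ℝ, ∃ a ∈ A, a.1 = NormedSpace.exp (t • X)

/-- the identity component of a subgroup of `SL_n(ℝ)` -/
abbrev Cmp (A : Subgroup (SLn n)) : Type := ↥(Subgroup.connectedComponentOfOne ↥A)

/-- its inclusion -/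
def inc (A : Subgroup (SLn n)) : Cmp A →* SLn n := A.subtype.comp (Subgroup.subtype _)

theorem inc_apply (A : Subgroup (SLn n)) (g : Cmp A) : inc A g = g.1.1 := rfl

theorem inc_emb {A : Subgroup (SLn n)} (hA : IsClosed (A : Set (SLn n))) :
    IsClosedEmbedding (inc A) := by
  have h1 : IsClosedEmbedding (Subtype.val : ↥A → SLn n) := hA.isClosedEmbedding_subtypeVal
  have h2 : IsClosedEmbedding (Subtype.val : Cmp A → ↥A) :=
    (isClosed_connectedComponent (α := ↥A) (x := 1)).isClosedEmbedding_subtypeVal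
  exact h1.comp h2

theorem inc_conn (A : Subgroup (SLn n)) : PreconnectedSpace (Cmp A) :=
  isPreconnected_iff_preconnectedSpace.1 (isPreconnected_connectedComponent (α := ↥A) (x := 1))

/-- transposition on a subgroup stable under it -/
def trA {A : Subgroup (SLn n)} (hT : ∀ a ∈ A, ∃ b ∈ A, b.1 = a.1ᵀ) (a : ↥A) : ↥A :=
  ⟨⟨a.1.1ᵀ, by rw [Matrix.det_transpose]; exact a.1.2⟩, by
    obtain ⟨b, hb, h⟩ := hT a.1 a.2
    have : b = ⟨a.1.1ᵀ, by rw [Matrix.det_transpose]; exact a.1.2⟩ := Subtype.ext h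
    rw [← this]; exact hb⟩

theorem trA_cont {A : Subgroup (SLn n)} (hT : ∀ a ∈ A, ∃ b ∈ A, b.1 = a.1ᵀ) :
    Continuous (trA hT) := by
  refine Continuous.subtype_mk (Continuous.subtype_mk ?_ _) _
  have h1 : Continuous fun a : ↥A => a.1.1 := continuous_subtype_val.comp continuous_subtype_val
  exact h1.matrix_transpose

theorem inc_adj {A : Subgroup (SLn n)} (hT : ∀ a ∈ A, ∃ b ∈ A, b.1 = a.1ᵀ) (g : Cmp A) :
    ∃ g' : Cmp A, (inc A g').1 = (inc A g).1ᵀ := by
  have h1 : trA hT 1 = 1 := by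
    apply Subtype.ext
    apply Subtype.ext
    show (1 : Mat n)ᵀ = 1
    exact Matrix.transpose_one
  have h2 := (trA_cont hT).mapsTo_connectedComponent 1 g.2
  rw [h1] at h2
  exact ⟨⟨trA hT g.1, h2⟩, rfl⟩

theorem lie_inc {A : Subgroup (SLn n)} {X : Mat n} : Lie (inc A) X ↔ LA A X := by
  constructor
  · intro h t
    obtain ⟨g, hg⟩ := h t
    exact ⟨g.1.1, g.1.2, hg⟩
  · intro h
    choose a ha hae using h
    have hc : Continuous fun t : ℝ => (⟨a t, ha t⟩ : ↥A) := by
      refine Continuous.subtype_mk ?_ _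
      refine continuous_induced_rng.2 ?_
      have : (Subtype.val ∘ a : ℝ → Mat n) = fun t => NormedSpace.exp (t • X) := funext hae
      show Continuous (Subtype.val ∘ a)
      rw [this]
      exact continuous_exp.comp (continuous_id.smul continuous_const)
    have h0 : (⟨a 0, ha 0⟩ : ↥A) = 1 := by
      apply Subtype.ext
      apply Subtype.ext
      show (a 0).1 = 1
      rw [hae, zero_smul, NormedSpace.exp_zero]
    intro t
    refine ⟨⟨⟨a t, ha t⟩, ?_⟩, hae t⟩
    have h1 : IsPreconnected (Set.range fun t : ℝ => (⟨a t, ha t⟩ : ↥A)) := isPreconnected_range hc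
    have h2 := h1.subset_connectedComponent (x := (1 : ↥A)) ⟨0, h0⟩
    exact h2 ⟨t, rfl⟩

/-- the Lie algebra of `A` is simple -/
def IrrLA (A : Subgroup (SLn n)) : Prop :=
  ∀ S : Submodule ℝ (Mat n), (∀ X ∈ S, LA A X) →
    (∀ X ∈ S, ∀ Y, LA A Y → Y * X - X * Y ∈ S) → S = ⊥ ∨ ∀ X, LA A X → X ∈ S

/-- **(T3)** the identity component of a closed subgroup of `SL_n(ℝ)`, stable under transposition,
with simple Lie algebra of noncompact type. -/
theorem rs_comp (A : Subgroup (SLn n)) (hA : IsClosed (A : Set (SLn n)))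
    (hT : ∀ a ∈ A, ∃ b ∈ A, b.1 = a.1ᵀ) (hs : IrrLA A)
    (hX : ∃ X, LA A X ∧ Xᵀ = X ∧ X ≠ 0) (hn : ∃ X Y, LA A X ∧ LA A Y ∧ X * Y ≠ Y * X) :
    RS0 (inc A) := by
  refine rs0_of (inc_emb hA) (inc_conn A) (inc_adj hT) ?_ ?_ ?_
  · intro S h1 h2
    rcases hs S (fun X hX => lie_inc.1 (h1 X hX)) (fun X hX Y hY => h2 X hX Y (lie_inc.2 hY))
      with h3 | h3
    · exact Or.inl h3
    · exact Or.inr fun X hX => h3 X (lie_inc.1 hX)
  · obtain ⟨X, hX, hs, h0⟩ := hX
    exact ⟨X, lie_inc.2 hX, hs, h0⟩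
  · obtain ⟨X, Y, hX, hY, h⟩ := hn
    exact ⟨X, Y, lie_inc.2 hX, lie_inc.2 hY, h⟩

end comp

end Vale.Agent.P092.H41.Re
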