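import Vale.Agent.P092.H41.Re.Aut

/-!
P092, project RE, row [RE-ALL] (helper41), part 1: brackets on `ℝⁿ`, the action of `GL_n`, the
Euclidean norm, the Killing form, the infinitesimal action.
-/

set_option linter.all false

open Matrix Filter Topology

namespace Vale.Agent.P092.H41.Re.Ct

open Vale.Agent.P092.H793.Re

variable {n : ℕ}

/-- a bilinear product on `ℝⁿ`, given by the left multiplications with the unit vectors -/
abbrev Br (n : ℕ) := Fin n → Mat n

/-- left multiplication -/
def adL (c : Br n) : (Fin n → ℝ) →ₗ[ℝ] Mat n where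
  toFun x := ∑ i, x i • c i
  map_add' := by
    intro x y
    simp only [Pi.add_apply, add_smul, Finset.sum_add_distrib]
  map_smul' := by
    intro a x
    simp only [Pi.smul_apply, smul_eq_mul, mul_smul, Finset.smul_sum, RingHom.id_apply]

theorem adL_apply (c : Br n) (x : Fin n → ℝ) : adL c x = ∑ i, x i • c i := rfl

theorem adL_single (c : Br n) (i : Fin n) : adL c (Pi.single i 1) = c i := by
  rw [adL_apply, Finset.sum_eq_single i]
  · simp
  · intro j _ hj
    simp [hj]
  · simp

/-- the action of the pair `(g, h)`, `h = g⁻¹` -/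
def act (g h : Mat n) (c : Br n) : Br n := fun i => g * adL c (fun m => h m i) * h

theorem mulVec_eq_sum_col (h : Mat n) (x : Fin n → ℝ) : h *ᵥ x = ∑ i, x i • fun m => h m i := by
  funext m
  rw [Matrix.mulVec, dotProduct, Finset.sum_apply]
  refine Finset.sum_congr rfl fun i _ => ?_
  simp [mul_comm]

theorem adL_act (g h : Mat n) (c : Br n) (x : Fin n → ℝ) :
    adL (act g h c) x = g * adL c (h *ᵥ x) * h := by
  rw [mulVec_eq_sum_col, map_sum, adL_apply, Finset.mul_sum, Finset.sum_mul]
  refine Finset.sum_congr rfl fun i _ => ?_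
  rw [map_smul, act, mul_smul_comm, smul_mul_assoc]

theorem act_act (g h g' h' : Mat n) (c : Br n) :
    act g h (act g' h' c) = act (g * g') (h' * h) c := by
  funext i
  show g * adL (act g' h' c) (fun m => h m i) * h = g * g' * adL c (fun m => (h' * h) m i) * (h' * h)
  rw [adL_act]
  have h1 : h' *ᵥ (fun m => h m i) = fun m => (h' * h) m i := by
    funext m
    rw [Matrix.mulVec, dotProduct, Matrix.mul_apply]
  rw [h1]
  noncomm_ring

theorem act_one (c : Br n) : act 1 1 c = c := by
  funext i
  show (1 : Mat n) * adL c (fun m => (1 : Mat n) m i) * (1 : Mat n) = c i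
  have : (fun m => (1 : Mat n) m i) = Pi.single i 1 := by
    funext m
    simp [Matrix.one_apply, Pi.single_apply]
  rw [this, adL_single, one_mul, mul_one]

/-- the Euclidean inner product of brackets -/
def ip (c d : Br n) : ℝ := ∑ i, (c i * (d i)ᵀ).trace

/-- the square of the Euclidean norm -/
def nm (c : Br n) : ℝ := ip c c

theorem nm_eq (c : Br n) : nm c = ∑ i, ∑ k, ∑ j, c i k j ^ 2 := by
  rw [nm, ip]
  refine Finset.sum_congr rfl fun i _ => ?_
  rw [Matrix.trace]
  refine Finset.sum_congr rfl fun k _ => ?_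
  rw [Matrix.diag_apply, Matrix.mul_apply]
  refine Finset.sum_congr rfl fun j _ => ?_
  rw [Matrix.transpose_apply, sq]

theorem nm_nonneg (c : Br n) : 0 ≤ nm c := by
  rw [nm_eq]
  exact Finset.sum_nonneg fun _ _ => Finset.sum_nonneg fun _ _ => Finset.sum_nonneg fun _ _ =>
    sq_nonneg _

theorem entry_le_nm (c : Br n) (i k j : Fin n) : c i k j ^ 2 ≤ nm c := by
  rw [nm_eq]
  calc c i k j ^ 2 ≤ ∑ j, c i k j ^ 2 :=
        Finset.single_le_sum (f := fun j => c i k j ^ 2) (fun _ _ => sq_nonneg _)
          (Finset.mem_univ j)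
    _ ≤ ∑ k, ∑ j, c i k j ^ 2 :=
        Finset.single_le_sum (f := fun k => ∑ j, c i k j ^ 2)
          (fun _ _ => Finset.sum_nonneg fun _ _ => sq_nonneg _) (Finset.mem_univ k)
    _ ≤ _ :=
        Finset.single_le_sum (f := fun i => ∑ k, ∑ j, c i k j ^ 2)
          (fun _ _ => Finset.sum_nonneg fun _ _ => Finset.sum_nonneg fun _ _ => sq_nonneg _)
          (Finset.mem_univ i)

theorem eq_zero_of_nm {c : Br n} (h : nm c = 0) : c = 0 := by
  funext i
  ext k j
  have h1 := entry_le_nm c i k j
  rw [h] at h1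
  have h2 : c i k j ^ 2 = 0 := le_antisymm h1 (sq_nonneg _)
  exact pow_eq_zero_iff (two_ne_zero) |>.1 h2

/-- the Gram matrix of `(x, y) ↦ tr(ad x (ad y)ᵀ)` -/
def gram (c : Br n) : Mat n := Matrix.of fun i j => (c i * (c j)ᵀ).trace

theorem nm_gram (c : Br n) : nm c = (gram c).trace := rfl

theorem trace_adL (c : Br n) (x y : Fin n → ℝ) :
    (adL c x * (adL c y)ᵀ).trace = ∑ i, ∑ j, x i * gram c i j * y j := by
  rw [adL_apply, adL_apply, Matrix.transpose_sum, Finset.sum_mul, Matrix.trace_sum]
  refine Finset.sum_congr rfl fun i _ => ?_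
  rw [Finset.mul_sum, Matrix.trace_sum]
  refine Finset.sum_congr rfl fun j _ => ?_
  rw [Matrix.transpose_smul, smul_mul_assoc, mul_smul_comm, Matrix.trace_smul, Matrix.trace_smul,
    smul_eq_mul, smul_eq_mul]
  show x i * (y j * gram c i j) = _
  ring

/-- orthogonal invariance of the norm -/
theorem nm_orth {k : Mat n} (hk : kᵀ * k = 1) (c : Br n) : nm (act k kᵀ c) = nm c := by
  have h1 : ∀ i, (act k kᵀ c i * (act k kᵀ c i)ᵀ).trace =
      (k * gram c * kᵀ) i i := by
    intro i
    have e : (act k kᵀ c i * (act k kᵀ c i)ᵀ).trace =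
        (adL c (fun m => kᵀ m i) * (adL c (fun m => kᵀ m i))ᵀ).trace := by
      show (k * adL c (fun m => kᵀ m i) * kᵀ * (k * adL c (fun m => kᵀ m i) * kᵀ)ᵀ).trace = _
      rw [Matrix.transpose_mul, Matrix.transpose_mul, Matrix.transpose_transpose]
      calc (k * adL c (fun m => kᵀ m i) * kᵀ * (k * ((adL c fun m => kᵀ m i)ᵀ * kᵀ))).trace
          = (k * (adL c (fun m => kᵀ m i) * (kᵀ * k) * (adL c fun m => kᵀ m i)ᵀ * kᵀ)).trace := by
            congr 1; noncomm_ring
        _ = (adL c (fun m => kᵀ m i) * (adL c (fun m => kᵀ m i))ᵀ * (kᵀ * k)).trace := by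
            rw [hk, Matrix.trace_mul_comm]
            congr 1
            rw [mul_one, mul_one, Matrix.mul_assoc, hk, mul_one]
        _ = _ := by rw [hk, mul_one]
    rw [e, trace_adL, Matrix.mul_assoc, Matrix.mul_apply]
    refine Finset.sum_congr rfl fun a _ => ?_
    rw [Matrix.mul_apply, Finset.mul_sum]
    refine Finset.sum_congr rfl fun b _ => ?_
    simp only [Matrix.transpose_apply]
    ring
  have h2 : nm (act k kᵀ c) = (k * gram c * kᵀ).trace := by
    rw [nm, ip, Matrix.trace]
    exact Finset.sum_congr rfl fun i _ => h1 i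
  rw [h2, Matrix.trace_mul_comm, ← Matrix.mul_assoc, hk, one_mul, nm_gram]

/-- the Gram matrix of the Killing form -/
def kil (c : Br n) : Mat n := Matrix.of fun i j => (c i * c j).trace

theorem trace_kil (c : Br n) (x y : Fin n → ℝ) :
    (adL c x * adL c y).trace = ∑ i, ∑ j, x i * kil c i j * y j := by
  rw [adL_apply, adL_apply, Finset.sum_mul, Matrix.trace_sum]
  refine Finset.sum_congr rfl fun i _ => ?_
  rw [Finset.mul_sum, Matrix.trace_sum]
  refine Finset.sum_congr rfl fun j _ => ?_
  rw [smul_mul_assoc, mul_smul_comm, Matrix.trace_smul, Matrix.trace_smul,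
    smul_eq_mul, smul_eq_mul]
  show x i * (y j * kil c i j) = _
  ring

theorem kil_act {g h : Mat n} (hg : h * g = 1) (c : Br n) :
    kil (act g h c) = hᵀ * kil c * h := by
  ext i j
  have e : (act g h c i * act g h c j).trace =
      (adL c (fun m => h m i) * adL c (fun m => h m j)).trace := by
    show (g * adL c (fun m => h m i) * h * (g * adL c (fun m => h m j) * h)).trace = _
    calc (g * adL c (fun m => h m i) * h * (g * adL c (fun m => h m j) * h)).trace
        = (g * (adL c (fun m => h m i) * (h * g) * adL c (fun m => h m j) * h)).trace := by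
          congr 1; noncomm_ring
      _ = (adL c (fun m => h m i) * adL c (fun m => h m j) * (h * g)).trace := by
          rw [hg, Matrix.trace_mul_comm]
          congr 1
          rw [mul_one, mul_one, Matrix.mul_assoc, hg, mul_one]
      _ = _ := by rw [hg, mul_one]
  show (act g h c i * act g h c j).trace = _
  rw [e, trace_kil, Matrix.mul_assoc, Matrix.mul_apply]
  refine Finset.sum_congr rfl fun a _ => ?_
  rw [Matrix.mul_apply, Finset.mul_sum]
  refine Finset.sum_congr rfl fun b _ => ?_
  simp only [Matrix.transpose_apply]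
  ring

/-- the Jacobi identity -/
def Jac (c : Br n) : Prop := ∀ x y, adL c x * adL c y - adL c y * adL c x = adL c (adL c x *ᵥ y)

theorem Jac.act {c : Br n} (hc : Jac c) {g h : Mat n} (hg : h * g = 1) : Jac (act g h c) := by
  intro x y
  rw [adL_act, adL_act, adL_act]
  have h1 := hc (h *ᵥ x) (h *ᵥ y)
  have h2 : h *ᵥ ((g * adL c (h *ᵥ x) * h) *ᵥ y) = adL c (h *ᵥ x) *ᵥ (h *ᵥ y) := by
    rw [Matrix.mulVec_mulVec, Matrix.mulVec_mulVec]
    congr 1
    calc h * (g * adL c (h *ᵥ x) * h) = (h * g) * adL c (h *ᵥ x) * h := by noncomm_ring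
      _ = _ := by rw [hg, one_mul]
  rw [h2, ← h1]
  calc g * adL c (h *ᵥ x) * h * (g * adL c (h *ᵥ y) * h) -
        g * adL c (h *ᵥ y) * h * (g * adL c (h *ᵥ x) * h)
      = g * (adL c (h *ᵥ x) * (h * g) * adL c (h *ᵥ y) -
          adL c (h *ᵥ y) * (h * g) * adL c (h *ᵥ x)) * h := by noncomm_ring
    _ = _ := by rw [hg, mul_one, mul_one]

/-- derivations -/
def Der (c : Br n) (X : Mat n) : Prop := ∀ x, X * adL c x - adL c x * X = adL c (X *ᵥ x)

theorem Jac.der {c : Br n} (hc : Jac c) (z : Fin n → ℝ) : Der c (adL c z) := fun x => hc z x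

/-- derivations are inner if the Killing form is nondegenerate -/
theorem inner {c : Br n} (hc : Jac c) (hk : (kil c).det ≠ 0) {X : Mat n} (hX : Der c X) :
    ∃ z, X = adL c z := by
  -- the representing vector
  have hu : IsUnit (kil c) := (Matrix.isUnit_iff_isUnit_det _).2 (isUnit_iff_ne_zero.2 hk)
  obtain ⟨v, hv⟩ : ∃ v : Fin n → ℝ, v = fun j => (X * c j).trace := ⟨_, rfl⟩
  obtain ⟨z, hz⟩ : ∃ z : Fin n → ℝ, z ᵥ* kil c = v := by
    refine ⟨v ᵥ* (kil c)⁻¹, ?_⟩
    rw [Matrix.vecMul_vecMul, Matrix.nonsing_inv_mul _ (isUnit_iff_ne_zero.2 hk),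
      Matrix.vecMul_one]
  have h1 : ∀ x, (X * adL c x).trace = (adL c z * adL c x).trace := by
    intro x
    rw [trace_kil, Finset.sum_comm, adL_apply, Finset.mul_sum, Matrix.trace_sum]
    refine Finset.sum_congr rfl fun j _ => ?_
    rw [mul_smul_comm, Matrix.trace_smul, smul_eq_mul, ← Finset.sum_mul]
    have h2 : (X * c j).trace = ∑ i, z i * kil c i j := by
      have := congrFun hz j
      rw [hv] at this
      exact this.symm
    rw [h2]
    ring
  obtain ⟨E, hE⟩ : ∃ E, E = X - adL c z := ⟨_, rfl⟩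
  have hEd : Der c E := by
    intro x
    rw [hE, Matrix.sub_mulVec, map_sub, ← hX x, ← hc z x]
    noncomm_ring
  have hEt : ∀ x, (E * adL c x).trace = 0 := by
    intro x
    rw [hE, sub_mul, Matrix.trace_sub, h1, sub_self]
  have hE0 : ∀ x, E *ᵥ x = 0 := by
    intro x
    have h3 : ∀ y, (adL c (E *ᵥ x) * adL c y).trace = 0 := by
      intro y
      rw [← hEd x, sub_mul, Matrix.trace_sub]
      have h4 : (E * adL c x * adL c y).trace - (adL c x * E * adL c y).trace =
          (E * (adL c x * adL c y - adL c y * adL c x)).trace := by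
        rw [mul_sub, Matrix.trace_sub]
        have h5 : (adL c x * E * adL c y).trace = (E * (adL c y * adL c x)).trace := by
          rw [Matrix.mul_assoc, Matrix.trace_mul_comm, Matrix.mul_assoc]
        rw [h5, Matrix.mul_assoc]
      rw [h4, hc x y, hEt]
    have h6 : (E *ᵥ x) ᵥ* kil c = 0 := by
      funext j
      have h7 := h3 (Pi.single j 1)
      rw [trace_kil, Finset.sum_comm, Finset.sum_eq_single j] at h7
      · simpa [Matrix.vecMul, dotProduct] using h7
      · intro b _ hb
        simp [hb]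
      · simp
    have h8 := congrArg (fun w => w ᵥ* (kil c)⁻¹) h6
    simp only [Matrix.vecMul_vecMul, Matrix.mul_nonsing_inv _ (isUnit_iff_ne_zero.2 hk),
      Matrix.vecMul_one, Matrix.zero_vecMul] at h8
    exact h8
  have hE' : E = 0 := by
    ext i j
    have := congrFun (hE0 (Pi.single j 1)) i
    rw [Matrix.mulVec_single_one] at this
    exact this
  exact ⟨z, by rw [← sub_eq_zero, ← hE, hE']⟩

/-- the infinitesimal action -/
def rho (A : Mat n) (c : Br n) : Br n := fun i => A * c i - c i * A - adL c (fun m => A m i)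

theorem rho_eq_zero_iff {A : Mat n} {c : Br n} : rho A c = 0 ↔ Der c A := by
  constructor
  · intro h x
    have h1 : ∀ i, A * c i - c i * A = adL c (fun m => A m i) := by
      intro i
      exact sub_eq_zero.1 (congrFun h i)
    rw [mulVec_eq_sum_col, map_sum, adL_apply, Finset.mul_sum, Finset.sum_mul,
      ← Finset.sum_sub_distrib]
    refine Finset.sum_congr rfl fun i _ => ?_
    rw [map_smul, ← h1, mul_smul_comm, smul_mul_assoc, smul_sub]
  · intro h
    funext i
    have h1 := h (Pi.single i 1)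
    rw [adL_single, Matrix.mulVec_single_one] at h1
    show A * c i - c i * A - adL c (fun m => A m i) = 0
    rw [h1, sub_eq_zero]
    rfl

end Vale.Agent.P092.H41.Re.Ct
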