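import Vale.Agent.P092.H41.Re.Ct1

/-!
P092, project RE, row [RE-ALL] (helper41), part 2: at a minimum of the norm on the orbit the
derivations are stable under transposition.
-/

set_option linter.all false

open Matrix Filter Topology

namespace Vale.Agent.P092.H41.Re.Ct

open Vale.Agent.P092.H793.Re

attribute [local instance] Matrix.linftyOpNormedRing Matrix.linftyOpNormedAlgebra

variable {n : ℕ}

theorem ip_add (c d e : Br n) : ip (c + d) e = ip c e + ip d e := by
  rw [ip, ip, ip, ← Finset.sum_add_distrib]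
  refine Finset.sum_congr rfl fun i _ => ?_
  rw [Pi.add_apply, add_mul, Matrix.trace_add]

theorem ip_zero (e : Br n) : ip 0 e = 0 := by
  rw [ip]
  refine Finset.sum_eq_zero fun i _ => ?_
  rw [Pi.zero_apply, zero_mul, Matrix.trace_zero]

theorem adL_rho (A : Mat n) (c : Br n) (x : Fin n → ℝ) :
    adL (rho A c) x = A * adL c x - adL c x * A - adL c (A *ᵥ x) := by
  rw [mulVec_eq_sum_col, map_sum, adL_apply, adL_apply, Finset.mul_sum, Finset.sum_mul,
    ← Finset.sum_sub_distrib, ← Finset.sum_sub_distrib]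
  refine Finset.sum_congr rfl fun i _ => ?_
  rw [map_smul, rho, smul_sub, smul_sub, mul_smul_comm, smul_mul_assoc]

/-- the adjoint of the infinitesimal action -/
theorem ip_rho (A : Mat n) (c d : Br n) : ip (rho A c) d = ip c (rho Aᵀ d) := by
  have h1 : ip (rho A c) d = ∑ i, (A * c i * (d i)ᵀ).trace - ∑ i, (c i * A * (d i)ᵀ).trace -
      ∑ i, ∑ m, A m i * (c m * (d i)ᵀ).trace := by
    rw [ip, ← Finset.sum_sub_distrib, ← Finset.sum_sub_distrib]
    refine Finset.sum_congr rfl fun i _ => ?_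
    rw [rho, sub_mul, sub_mul, Matrix.trace_sub, Matrix.trace_sub, adL_apply, Finset.sum_mul,
      Matrix.trace_sum]
    congr 1
    refine Finset.sum_congr rfl fun m _ => ?_
    rw [smul_mul_assoc, Matrix.trace_smul, smul_eq_mul]
  have h2 : ip c (rho Aᵀ d) = ∑ i, (c i * (Aᵀ * d i)ᵀ).trace - ∑ i, (c i * (d i * Aᵀ)ᵀ).trace -
      ∑ i, ∑ m, A i m * (c i * (d m)ᵀ).trace := by
    rw [ip, ← Finset.sum_sub_distrib, ← Finset.sum_sub_distrib]
    refine Finset.sum_congr rfl fun i _ => ?_
    rw [rho, Matrix.transpose_sub, Matrix.transpose_sub, mul_sub, mul_sub, Matrix.trace_sub,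
      Matrix.trace_sub, adL_apply, Matrix.transpose_sum, Finset.mul_sum, Matrix.trace_sum]
    congr 1
    refine Finset.sum_congr rfl fun m _ => ?_
    rw [Matrix.transpose_smul, mul_smul_comm, Matrix.trace_smul, smul_eq_mul,
      Matrix.transpose_apply]
  rw [h1, h2]
  congr 1
  · congr 1
    · refine Finset.sum_congr rfl fun i _ => ?_
      rw [Matrix.transpose_mul, Matrix.transpose_transpose, Matrix.mul_assoc,
        Matrix.trace_mul_comm, Matrix.mul_assoc]
    · refine Finset.sum_congr rfl fun i _ => ?_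
      rw [Matrix.transpose_mul, Matrix.transpose_transpose, Matrix.mul_assoc]
  · exact Finset.sum_comm

theorem rho_comm (A B : Mat n) (c : Br n) :
    rho A (rho B c) = rho (A * B - B * A) c + rho B (rho A c) := by
  funext i
  rw [Pi.add_apply]
  have e1 : rho A (rho B c) i = A * (B * c i - c i * B - adL c (fun m => B m i)) -
      (B * c i - c i * B - adL c (fun m => B m i)) * A -
      (B * adL c (fun m => A m i) - adL c (fun m => A m i) * B -
        adL c (B *ᵥ fun m => A m i)) := by
    rw [← adL_rho]; rfl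
  have e2 : rho B (rho A c) i = B * (A * c i - c i * A - adL c (fun m => A m i)) -
      (A * c i - c i * A - adL c (fun m => A m i)) * B -
      (A * adL c (fun m => B m i) - adL c (fun m => B m i) * A -
        adL c (A *ᵥ fun m => B m i)) := by
    rw [← adL_rho]; rfl
  have e3 : rho (A * B - B * A) c i = (A * B - B * A) * c i - c i * (A * B - B * A) -
      (adL c (A *ᵥ fun m => B m i) - adL c (B *ᵥ fun m => A m i)) := by
    rw [← map_sub]
    show (A * B - B * A) * c i - c i * (A * B - B * A) - adL c (fun m => (A * B - B * A) m i) = _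
    congr 2
  rw [e1, e2, e3]
  noncomm_ring

theorem det_exp_sym {A : Mat n} (hs : Aᵀ = A) (ht : A.trace = 0) :
    (NormedSpace.exp A).det = 1 := by
  obtain ⟨U, e, h1, h2, h3, h4, -⟩ := spec_sym hs
  have h5 : ∑ i, e i = 0 := by
    rw [h3, trace_conj h1, Matrix.trace_diagonal] at ht
    exact ht
  have h6 : U.det * Uᵀ.det = 1 := by rw [← Matrix.det_mul, h2, Matrix.det_one]
  rw [h4, Matrix.det_mul, Matrix.det_mul, Matrix.det_diagonal, ← Real.exp_sum, h5, Real.exp_zero,
    mul_one, h6]

/-- the bracket is a minimum of the norm on its `SL_n(ℝ)`-orbit -/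
def Mn (c : Br n) : Prop := ∀ s : SLn n, nm c ≤ nm (act s.1 (s⁻¹).1 c)

theorem hasDerivAt_tr {M : ℝ → Mat n} {M' : Mat n} {t : ℝ} (h : HasDerivAt M M' t) :
    HasDerivAt (fun s => (M s * (M s)ᵀ).trace) (2 * (M' * (M t)ᵀ).trace) t := by
  have h1 : HasDerivAt (fun s => tr (M s)) (tr M') t := (tr (n := n)).hasFDerivAt.comp_hasDerivAt t h
  have h2 := h.mul h1
  obtain ⟨T, hT⟩ : ∃ T : Mat n →L[ℝ] ℝ, ∀ A, T A = A.trace :=
    ⟨LinearMap.toContinuousLinearMap (Matrix.traceLinearMap (Fin n) ℝ ℝ), fun A => rfl⟩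
  have h3 := (T.hasFDerivAt (x := (M * fun s => tr (M s)) t)).comp_hasDerivAt t h2
  have h4 : (fun s => (M s * (M s)ᵀ).trace) = T ∘ (M * fun s => tr (M s)) := by
    funext s
    show _ = T (M s * tr (M s))
    rw [hT, tr_apply]
  rw [h4]
  have h6 : T (M' * tr (M t) + M t * tr M') = (M' * tr (M t) + M t * tr M').trace := hT _
  refine h3.congr_deriv (h6.trans ?_)
  rw [tr_apply, tr_apply, Matrix.trace_add]
  have h5 : (M t * M'ᵀ).trace = (M' * (M t)ᵀ).trace := by
    rw [← Matrix.trace_transpose (M t * M'ᵀ), Matrix.transpose_mul, Matrix.transpose_transpose]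
  rw [h5]
  ring

theorem hasDerivAt_act (A : Mat n) (c : Br n) (i : Fin n) :
    HasDerivAt (fun t : ℝ => act (NormedSpace.exp (t • A)) (NormedSpace.exp (t • -A)) c i)
      (rho A c i) 0 := by
  have d1 := hasDerivAt_exp_smul_const (𝕂 := ℝ) A (0 : ℝ)
  have d2 := hasDerivAt_exp_smul_const (𝕂 := ℝ) (-A) (0 : ℝ)
  have d3 : HasDerivAt (fun s : ℝ => lam (adL c) (Pi.single i 1) (NormedSpace.exp (s • -A)))
      (lam (adL c) (Pi.single i 1) (NormedSpace.exp ((0 : ℝ) • -A) * -A)) 0 :=
    ((lam (adL c) (Pi.single i 1)).hasFDerivAt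
      (x := NormedSpace.exp ((0 : ℝ) • -A))).comp_hasDerivAt (0 : ℝ) d2
  have d4 := (d1.mul d3).mul d2
  have e0 : ∀ M : Mat n, lam (adL c) (Pi.single i 1) M = adL c (fun m => M m i) := by
    intro M
    rw [lam_apply, Matrix.mulVec_single_one]
    rfl
  have e1 : (fun t : ℝ => act (NormedSpace.exp (t • A)) (NormedSpace.exp (t • -A)) c i) =
      (((fun t : ℝ => NormedSpace.exp (t • A)) * fun s : ℝ =>
        lam (adL c) (Pi.single i 1) (NormedSpace.exp (s • -A))) *
          fun t : ℝ => NormedSpace.exp (t • -A)) := by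
    funext t
    simp only [Pi.mul_apply]
    rw [e0]
    rfl
  rw [e1]
  refine d4.congr_deriv ?_
  simp only [Pi.mul_apply, zero_smul, NormedSpace.exp_zero, one_mul, mul_one]
  have e2 : lam (adL c) (Pi.single i 1) 1 = c i := by
    rw [lam_apply, Matrix.one_mulVec, adL_single]
  have e3 : lam (adL c) (Pi.single i 1) (-A) = -adL c (fun m => A m i) := by
    rw [map_neg, e0]
  rw [e2, e3]
  show A * c i + -adL c (fun m => A m i) + c i * -A = A * c i - c i * A - adL c (fun m => A m i)
  noncomm_ring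

/-- the first order condition -/
theorem Mn.first {c : Br n} (hc : Mn c) {A : Mat n} (hs : Aᵀ = A) (ht : A.trace = 0) :
    ip (rho A c) c = 0 := by
  have hd : HasDerivAt (fun t : ℝ => nm (act (NormedSpace.exp (t • A))
      (NormedSpace.exp (t • -A)) c)) (2 * ip (rho A c) c) 0 := by
    have h0 : act (NormedSpace.exp ((0 : ℝ) • A)) (NormedSpace.exp ((0 : ℝ) • -A)) c = c := by
      rw [zero_smul, zero_smul, NormedSpace.exp_zero, act_one]
    have h1 : ∀ i : Fin n, HasDerivAt (fun t : ℝ => (act (NormedSpace.exp (t • A))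
        (NormedSpace.exp (t • -A)) c i * (act (NormedSpace.exp (t • A))
        (NormedSpace.exp (t • -A)) c i)ᵀ).trace) (2 * (rho A c i * (c i)ᵀ).trace) 0 := by
      intro i
      have h2 := hasDerivAt_tr (hasDerivAt_act A c i)
      rw [h0] at h2
      exact h2
    have h3 := HasDerivAt.fun_sum (u := Finset.univ) fun i _ => h1 i
    rw [ip, Finset.mul_sum]
    exact h3
  have hmin : IsLocalMin (fun t : ℝ => nm (act (NormedSpace.exp (t • A))
      (NormedSpace.exp (t • -A)) c)) 0 := by
    refine Eventually.of_forall fun t => ?_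
    have hdet : (NormedSpace.exp (t • A)).det = 1 :=
      det_exp_sym (by rw [Matrix.transpose_smul, hs]) (by rw [Matrix.trace_smul, ht, smul_zero])
    obtain ⟨s, hse⟩ : ∃ s : SLn n, s.1 = NormedSpace.exp (t • A) := ⟨⟨_, hdet⟩, rfl⟩
    have h4 := hc s
    have h5 : (s⁻¹).1 = NormedSpace.exp (t • -A) := by
      have h6 : (s⁻¹).1 * s.1 = 1 := by
        have h7 : (s⁻¹ * s).1 = (1 : SLn n).1 := by rw [inv_mul_cancel]
        rwa [Matrix.SpecialLinearGroup.coe_mul] at h7
      rw [hse] at h6
      have h8 : NormedSpace.exp (t • A) * NormedSpace.exp (t • -A) = 1 := by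
        rw [smul_neg]
        exact H736.ExpLoc.exp_mul_neg (𝔸 := Mat n) (t • A)
      calc (s⁻¹).1 = (s⁻¹).1 * (NormedSpace.exp (t • A) * NormedSpace.exp (t • -A)) := by
            rw [h8, mul_one]
        _ = NormedSpace.exp (t • -A) := by rw [← mul_assoc, h6, one_mul]
    rw [h5, hse] at h4
    show nm (act (NormedSpace.exp ((0 : ℝ) • A)) (NormedSpace.exp ((0 : ℝ) • -A)) c) ≤ _
    rw [zero_smul, zero_smul, NormedSpace.exp_zero, act_one]
    exact h4
  have h9 := hmin.hasDerivAt_eq_zero hd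
  linarith

/-- **Cartan**: at a minimum the derivations are stable under transposition -/
theorem Mn.der_transpose {c : Br n} (hc : Mn c) {X : Mat n} (hX : Der c X) : Der c Xᵀ := by
  rw [← rho_eq_zero_iff] at hX ⊢
  apply eq_zero_of_nm
  have h1 : nm (rho Xᵀ c) = ip (rho X (rho Xᵀ c)) c := by
    rw [ip_rho, nm]
  rw [h1, rho_comm, ip_add, hX]
  have h2 : rho Xᵀ (0 : Br n) = 0 := by
    funext i
    show Xᵀ * (0 : Mat n) - (0 : Mat n) * Xᵀ - adL (0 : Br n) _ = 0
    rw [mul_zero, zero_mul, adL_apply]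
    simp
  rw [h2, ip_zero, add_zero]
  refine hc.first ?_ ?_
  · rw [Matrix.transpose_sub, Matrix.transpose_mul, Matrix.transpose_mul,
      Matrix.transpose_transpose]
  · rw [Matrix.trace_sub, Matrix.trace_mul_comm, sub_self]

end Vale.Agent.P092.H41.Re.Ct
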