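import Vale.Agent.P092.H41.Re.Ct2
import Mathlib.Order.Filter.Ultrafilter.Basic

/-!
P092, project RE, row [RE-ALL] (helper41), part 3: continuity, degenerations of brackets along
diagonal one parameter groups, infinitesimal isometries of the Killing form.
-/

set_option linter.all false

open Matrix Filter Topology

namespace Vale.Agent.P092.H41.Re.Ct

open Vale.Agent.P092.H793.Re

attribute [local instance] Matrix.linftyOpNormedRing Matrix.linftyOpNormedAlgebra

variable {n : ℕ}

theorem act_entry (g h : Mat n) (c : Br n) (i r j : Fin n) :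
    act g h c i r j = ∑ m, h m i * (g * c m * h) r j := by
  rw [act, adL_apply, Finset.mul_sum, Finset.sum_mul, Matrix.sum_apply]
  refine Finset.sum_congr rfl fun m _ => ?_
  rw [mul_smul_comm, smul_mul_assoc, Matrix.smul_apply, smul_eq_mul]

theorem act_diag (a a' : Fin n → ℝ) (c : Br n) (i r j : Fin n) :
    act (diagonal a) (diagonal a') c i r j = a r * a' i * c i r j * a' j := by
  rw [act_entry, Finset.sum_eq_single i]
  · rw [Matrix.mul_diagonal, Matrix.diagonal_mul, Matrix.diagonal_apply_eq]
    ring
  · intro m _ hm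
    rw [Matrix.diagonal_apply_ne _ hm, zero_mul]
  · simp

/-- the derivations are infinitesimal isometries of the Killing form -/
theorem Der.skew {c : Br n} {Z : Mat n} (hZ : Der c Z) : Zᵀ * kil c + kil c * Z = 0 := by
  ext i j
  rw [Matrix.add_apply, Matrix.mul_apply, Matrix.mul_apply, Matrix.zero_apply]
  have h1 : ∑ m, Zᵀ i m * kil c m j = (adL c (fun m => Z m i) * c j).trace := by
    rw [adL_apply, Finset.sum_mul, Matrix.trace_sum]
    refine Finset.sum_congr rfl fun m _ => ?_
    rw [smul_mul_assoc, Matrix.trace_smul, smul_eq_mul]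
    rfl
  have h2 : ∑ m, kil c i m * Z m j = (c i * adL c (fun m => Z m j)).trace := by
    rw [adL_apply, Finset.mul_sum, Matrix.trace_sum]
    refine Finset.sum_congr rfl fun m _ => ?_
    rw [mul_smul_comm, Matrix.trace_smul, smul_eq_mul, mul_comm]
    rfl
  have h3 : ∀ i, adL c (fun m => Z m i) = Z * c i - c i * Z := by
    intro i
    have h4 := hZ (Pi.single i 1)
    rw [adL_single, Matrix.mulVec_single_one] at h4
    exact h4.symm
  rw [h1, h2, h3, h3, sub_mul, mul_sub, Matrix.trace_sub, Matrix.trace_sub]
  have h5 : (Z * c i * c j).trace = (c i * (c j * Z)).trace := by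
    rw [Matrix.mul_assoc, Matrix.trace_mul_comm, Matrix.mul_assoc]
  rw [h5, Matrix.mul_assoc (c i) Z (c j)]
  ring

/-- derivations exponentiate to elements of `SL_n(ℝ)` which fix the bracket -/
theorem Der.exp {c : Br n} (hk : (kil c).det ≠ 0) {Z : Mat n} (hZ : Der c Z) (t : ℝ) :
    ∃ a : SLn n, a.1 = NormedSpace.exp (t • Z) ∧ act a.1 (a⁻¹).1 c = c ∧ a ∈ autL (adL c) := by
  have hu : kil c * (kil c)⁻¹ = 1 := Matrix.mul_nonsing_inv _ (isUnit_iff_ne_zero.2 hk)
  have hdet := (det_exp_of_skew hu hZ.skew t).1
  obtain ⟨a, ha⟩ : ∃ a : SLn n, a.1 = NormedSpace.exp (t • Z) := ⟨⟨_, hdet⟩, rfl⟩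
  have hm : a ∈ autL (adL c) := by
    intro x
    rw [ha]
    exact exp_aut hZ t x
  have h7 : (a * a⁻¹).1 = (1 : SLn n).1 := by rw [mul_inv_cancel]
  rw [Matrix.SpecialLinearGroup.coe_mul] at h7
  have h8 : a.1 * (a⁻¹).1 = 1 := h7
  refine ⟨a, ha, ?_, hm⟩
  funext i
  have h1 := hm (fun m => (a⁻¹).1 m i)
  show a.1 * adL c (fun m => (a⁻¹).1 m i) * (a⁻¹).1 = c i
  rw [h1, Matrix.mul_assoc, h8, mul_one]
  have h2 : a.1 *ᵥ (fun m => (a⁻¹).1 m i) = Pi.single i 1 := by
    have h3 : a.1 *ᵥ (fun m => (a⁻¹).1 m i) = fun m => (a.1 * (a⁻¹).1) m i := by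
      funext m
      rw [Matrix.mulVec, dotProduct, Matrix.mul_apply]
    rw [h3, h8]
    funext m
    simp [Matrix.one_apply, Pi.single_apply]
  rw [h2, adL_single]

section cont

theorem cont_act (c : Br n) : Continuous fun p : Mat n × Mat n => act p.1 p.2 c := by
  refine continuous_pi fun i => ?_
  have h1 : Continuous fun p : Mat n × Mat n => adL c (fun m => p.2 m i) := by
    show Continuous fun p : Mat n × Mat n => ∑ m, p.2 m i • c m
    refine continuous_finset_sum _ fun m _ => ?_
    exact (continuous_snd.matrix_elem m i).smul continuous_const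
  exact (continuous_fst.matrix_mul h1).matrix_mul continuous_snd

theorem cont_kil : Continuous (kil : Br n → Mat n) := by
  refine continuous_matrix fun i j => ?_
  have h1 : Continuous fun c : Br n => c i * c j :=
    (continuous_apply i).matrix_mul (continuous_apply j)
  exact h1.matrix_trace

theorem cont_nm : Continuous (nm : Br n → ℝ) := by
  show Continuous fun c : Br n => ∑ i, (c i * (c i)ᵀ).trace
  refine continuous_finset_sum _ fun i _ => ?_
  have h1 : Continuous fun c : Br n => c i * (c i)ᵀ :=
    (continuous_apply i).matrix_mul (continuous_apply i).matrix_transpose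
  exact h1.matrix_trace

theorem closed_jac : IsClosed {c : Br n | Jac c} := by
  have h0 : ∀ x : Fin n → ℝ, Continuous fun c : Br n => adL c x := by
    intro x
    show Continuous fun c : Br n => ∑ m, x m • c m
    refine continuous_finset_sum _ fun m _ => ?_
    exact (continuous_apply m).const_smul (x m)
  have h1 : {c : Br n | Jac c} = ⋂ x, ⋂ y, {c : Br n | adL c x * adL c y - adL c y * adL c x =
      adL c (adL c x *ᵥ y)} := by
    ext c
    simp only [Set.mem_iInter, Set.mem_setOf_eq, Jac]
  rw [h1]
  refine isClosed_iInter fun x => isClosed_iInter fun y => isClosed_eq ?_ ?_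
  · have h3 : Continuous fun c : Br n => adL c x * adL c y := (h0 x).matrix_mul (h0 y)
    have h4 : Continuous fun c : Br n => adL c y * adL c x := (h0 y).matrix_mul (h0 x)
    exact h3.sub h4
  · show Continuous fun c : Br n => ∑ m, (adL c x *ᵥ y) m • c m
    refine continuous_finset_sum _ fun m _ => ?_
    have h2 : Continuous fun c : Br n => adL c x *ᵥ y := (h0 x).matrix_mulVec continuous_const
    exact ((continuous_apply m).comp h2).smul (continuous_apply m)

end cont

section degen

variable {b : Br n} {d : Fin n → ℝ}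

/-- the graded part of a bracket -/
noncomputable def gr (b : Br n) (d : Fin n → ℝ) : Br n := fun i => Matrix.of fun r j =>
  if d r = d i + d j then b i r j else 0

theorem gr_apply (b : Br n) (d : Fin n → ℝ) (i r j : Fin n) :
    gr b d i r j = if d r = d i + d j then b i r j else 0 := rfl

theorem tendsto_gr (hb : ∀ i r j, d i + d j < d r → b i r j = 0) :
    Tendsto (fun s : ℝ => act (diagonal fun i => Real.exp (s * d i))
      (diagonal fun i => Real.exp (-(s * d i))) b) atTop (𝓝 (gr b d)) := by
  refine tendsto_pi_nhds.2 fun i => ?_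
  refine tendsto_pi_nhds.2 fun r => ?_
  refine tendsto_pi_nhds.2 fun j => ?_
  have h1 : ∀ s : ℝ, act (diagonal fun i => Real.exp (s * d i))
      (diagonal fun i => Real.exp (-(s * d i))) b i r j =
      Real.exp (s * (d r - d i - d j)) * b i r j := by
    intro s
    rw [act_diag]
    have : Real.exp (s * (d r - d i - d j)) =
        Real.exp (s * d r) * Real.exp (-(s * d i)) * Real.exp (-(s * d j)) := by
      rw [← Real.exp_add, ← Real.exp_add]; ring_nf
    rw [this]
    ring
  simp only [h1]
  show Tendsto _ _ (𝓝 (gr b d i r j))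
  rw [gr_apply]
  rcases lt_trichotomy (d r) (d i + d j) with h | h | h
  · rw [if_neg h.ne]
    have h2 : d r - d i - d j < 0 := by linarith
    have h3 : Tendsto (fun s : ℝ => s * (d r - d i - d j)) atTop atBot :=
      tendsto_id.atTop_mul_const_of_neg h2
    have h4 := (Real.tendsto_exp_atBot.comp h3).mul_const (b i r j)
    rw [zero_mul] at h4
    exact h4
  · rw [if_pos h]
    have h2 : d r - d i - d j = 0 := by linarith
    simp only [h2, mul_zero, Real.exp_zero, one_mul]
    exact tendsto_const_nhds
  · rw [if_neg h.ne', hb i r j h]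
    simp only [mul_zero]
    exact tendsto_const_nhds

theorem diag_inv (s : ℝ) : (diagonal fun i => Real.exp (-(s * d i))) *
    (diagonal fun i => Real.exp (s * d i)) = (1 : Mat n) := by
  rw [Matrix.diagonal_mul_diagonal, ← Matrix.diagonal_one]
  congr 1
  funext i
  rw [← Real.exp_add, neg_add_cancel, Real.exp_zero]

theorem jac_gr (hJ : Jac b) (hb : ∀ i r j, d i + d j < d r → b i r j = 0) : Jac (gr b d) :=
  closed_jac.mem_of_tendsto (tendsto_gr hb) (Eventually.of_forall fun s => hJ.act (diag_inv s))

theorem kil_gr (hd : ∑ i, d i = 0) (hb : ∀ i r j, d i + d j < d r → b i r j = 0) :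
    (kil (gr b d)).det = (kil b).det := by
  have h1 : Tendsto (fun s : ℝ => (kil (act (diagonal fun i => Real.exp (s * d i))
      (diagonal fun i => Real.exp (-(s * d i))) b)).det) atTop (𝓝 (kil (gr b d)).det) := by
    have hc : Continuous fun c : Br n => (kil c).det := cont_kil.matrix_det
    exact (hc.tendsto _).comp (tendsto_gr hb)
  have h2 : ∀ s : ℝ, (kil (act (diagonal fun i => Real.exp (s * d i))
      (diagonal fun i => Real.exp (-(s * d i))) b)).det = (kil b).det := by
    intro s
    rw [kil_act (diag_inv s), Matrix.det_mul, Matrix.det_mul, Matrix.det_transpose,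
      Matrix.det_diagonal, ← Real.exp_sum]
    have h3 : ∑ i, -(s * d i) = 0 := by
      rw [Finset.sum_neg_distrib, ← Finset.mul_sum, hd, mul_zero, neg_zero]
    rw [h3, Real.exp_zero, one_mul, mul_one]
  simp only [h2] at h1
  exact tendsto_nhds_unique h1 tendsto_const_nhds

theorem der_gr : Der (gr b d) (diagonal d) := by
  rw [← rho_eq_zero_iff]
  funext i
  ext r j
  show (diagonal d * gr b d i - gr b d i * diagonal d -
    adL (gr b d) (fun m => diagonal d m i)) r j = 0
  have h1 : adL (gr b d) (fun m => diagonal d m i) = d i • gr b d i := by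
    rw [adL_apply, Finset.sum_eq_single i]
    · rw [Matrix.diagonal_apply_eq]
    · intro m _ hm
      rw [Matrix.diagonal_apply_ne _ hm, zero_smul]
    · simp
  rw [h1, Matrix.sub_apply, Matrix.sub_apply, Matrix.diagonal_mul, Matrix.mul_diagonal,
    Matrix.smul_apply, smul_eq_mul, gr_apply]
  by_cases h : d r = d i + d j
  · rw [if_pos h, h]; ring
  · rw [if_neg h]; ring

/-- the degeneration argument: an element whose adjoint has the diagonal `d` -/
theorem exists_diag (hJ : Jac b) (hk : (kil b).det ≠ 0) (hd : ∑ i, d i = 0)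
    (hb : ∀ i r j, d i + d j < d r → b i r j = 0) : ∃ H : Fin n → ℝ, ∀ j, adL b H j j = d j := by
  obtain ⟨H, hH⟩ := inner (jac_gr hJ hb) (by rw [kil_gr hd hb]; exact hk) (der_gr (b := b) (d := d))
  refine ⟨fun i => if d i = 0 then H i else 0, fun j => ?_⟩
  have h1 := congrFun (congrFun hH j) j
  rw [Matrix.diagonal_apply_eq] at h1
  rw [h1, adL_apply, adL_apply, Matrix.sum_apply, Matrix.sum_apply]
  refine Finset.sum_congr rfl fun i _ => ?_
  rw [Matrix.smul_apply, Matrix.smul_apply, smul_eq_mul, smul_eq_mul, gr_apply]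
  by_cases h : d i = 0
  · rw [if_pos h, if_pos (by rw [h, zero_add])]
  · rw [if_neg h, if_neg (by
      intro h2
      exact h (by linarith)), zero_mul, mul_zero]

end degen

end Vale.Agent.P092.H41.Re.Ct
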