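import Vale.Agent.P092.H41.Re.Ct3

/-!
P092, project RE, row [RE-ALL] (helper41), part 4: on the `SL_n(ℝ)`-orbit of a Lie bracket with
nondegenerate Killing form the Euclidean norm attains its minimum.
-/

set_option linter.all false

open Matrix Filter Topology

namespace Vale.Agent.P092.H41.Re.Ct

open Vale.Agent.P092.H793.Re

attribute [local instance] Matrix.linftyOpNormedRing Matrix.linftyOpNormedAlgebra

variable {n : ℕ}

/-- the norm of the moved bracket -/
def NN (c : Br n) (g : SLn n) : ℝ := nm (act g.1 (g⁻¹).1 c)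

/-- the square of the Hilbert-Schmidt norm -/
def RR (g : SLn n) : ℝ := (g.1 * g.1ᵀ).trace

theorem sl_mul_inv (g : SLn n) : g.1 * (g⁻¹).1 = 1 := by
  have h7 : (g * g⁻¹).1 = (1 : SLn n).1 := by rw [mul_inv_cancel]
  rwa [Matrix.SpecialLinearGroup.coe_mul] at h7

theorem sl_inv_mul (g : SLn n) : (g⁻¹).1 * g.1 = 1 := by
  have h7 : (g⁻¹ * g).1 = (1 : SLn n).1 := by rw [inv_mul_cancel]
  rwa [Matrix.SpecialLinearGroup.coe_mul] at h7

theorem NN_cont (c : Br n) : Continuous (NN c) := by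
  have h1 : Continuous fun g : SLn n => (g.1, (g⁻¹).1) :=
    (continuous_subtype_val).prodMk (continuous_subtype_val.comp (continuous_inv (G := SLn n)))
  exact cont_nm.comp ((cont_act c).comp h1)

theorem RR_cont : Continuous (RR : SLn n → ℝ) := by
  have h1 : Continuous fun g : SLn n => g.1 * g.1ᵀ :=
    (continuous_subtype_val).matrix_mul (continuous_subtype_val).matrix_transpose
  exact h1.matrix_trace

theorem NN_mul (c : Br n) (s g : SLn n) : NN c (s * g) = nm (act s.1 (s⁻¹).1 (act g.1 (g⁻¹).1 c)) := by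
  rw [NN, act_act, _root_.mul_inv_rev, Matrix.SpecialLinearGroup.coe_mul,
    Matrix.SpecialLinearGroup.coe_mul]

theorem compact_HS (C : ℝ) : IsCompact {M : Mat n | (M * Mᵀ).trace ≤ C} := by
  haveI : ProperSpace (Mat n) := FiniteDimensional.proper ℝ _
  apply Metric.isCompact_of_isClosed_isBounded
  · have h1 : Continuous fun M : Mat n => M * Mᵀ := continuous_id.matrix_mul continuous_id.matrix_transpose
    exact isClosed_le h1.matrix_trace continuous_const
  · rw [isBounded_iff_forall_norm_le]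
    refine ⟨n * (|C| + 1), fun M hM => ?_⟩
    refine H736.Re.norm_le_entry (by positivity) fun a b => ?_
    have h1 := entry_sq_le (X := M) a b
    have h2 : (M * Mᵀ).trace ≤ C := hM
    have h3 := le_abs_self C
    have h4 : |M a b| ^ 2 ≤ |C| := by rw [sq_abs]; linarith
    nlinarith [abs_nonneg (M a b), abs_nonneg C]

theorem compact_RR (C : ℝ) : IsCompact {g : SLn n | RR g ≤ C} :=
  closedEmb_val.isCompact_preimage (compact_HS C)

theorem RR_nonneg (g : SLn n) : 0 ≤ RR g := by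
  have h1 : RR g = ∑ a, ∑ b, g.1 a b ^ 2 := by
    rw [RR, Matrix.trace]
    refine Finset.sum_congr rfl fun a _ => ?_
    rw [Matrix.diag_apply, Matrix.mul_apply]
    refine Finset.sum_congr rfl fun b _ => ?_
    rw [Matrix.transpose_apply, sq]
  rw [h1]
  exact Finset.sum_nonneg fun _ _ => Finset.sum_nonneg fun _ _ => sq_nonneg _

/-- minimisers of the penalised norm -/
theorem exists_pen (c : Br n) {ε : ℝ} (hε : 0 < ε) :
    ∃ g : SLn n, ∀ h : SLn n, NN c g + ε * RR g ≤ NN c h + ε * RR h := by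
  obtain ⟨C, hC⟩ : ∃ C : ℝ, C = (NN c 1 + ε * RR (1 : SLn n)) / ε := ⟨_, rfl⟩
  have h1 : RR (1 : SLn n) ≤ C := by
    rw [hC, le_div_iff₀ hε]
    have := nm_nonneg (act (1 : SLn n).1 ((1 : SLn n)⁻¹).1 c)
    have h2 : 0 ≤ NN c 1 := this
    linarith
  have hcont : Continuous fun g : SLn n => NN c g + ε * RR g :=
    (NN_cont c).add (continuous_const.mul RR_cont)
  obtain ⟨g, hg, hmin⟩ := (compact_RR C).exists_isMinOn ⟨1, h1⟩ hcont.continuousOn
  refine ⟨g, fun h => ?_⟩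
  by_cases hh : RR h ≤ C
  · exact hmin hh
  · push Not at hh
    have h3 : NN c g + ε * RR g ≤ NN c 1 + ε * RR 1 := hmin h1
    have h4 : NN c 1 + ε * RR (1 : SLn n) = ε * C := by rw [hC]; field_simp
    have h5 : 0 ≤ NN c h := nm_nonneg _
    nlinarith

/-- minimality in the coset of the automorphism group -/
theorem pen_first {c : Br n} (hk : (kil c).det ≠ 0) {ε : ℝ} (hε : 0 < ε) {g : SLn n}
    (hg : ∀ h : SLn n, NN c g + ε * RR g ≤ NN c h + ε * RR h) {Z : Mat n} (hZ : Der c Z) :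
    (g.1ᵀ * g.1 * Z).trace = 0 := by
  have hd : HasDerivAt (fun t : ℝ => ((g.1 * NormedSpace.exp (t • Z)) *
      (g.1 * NormedSpace.exp (t • Z))ᵀ).trace) (2 * (g.1 * Z * g.1ᵀ).trace) 0 := by
    have h1 := (hasDerivAt_exp_smul_const (𝕂 := ℝ) Z (0 : ℝ)).const_mul g.1
    have h2 := hasDerivAt_tr h1
    simp only [zero_smul, NormedSpace.exp_zero, one_mul, mul_one] at h2
    exact h2
  have hmin : IsLocalMin (fun t : ℝ => ((g.1 * NormedSpace.exp (t • Z)) *
      (g.1 * NormedSpace.exp (t • Z))ᵀ).trace) 0 := by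
    refine Eventually.of_forall fun t => ?_
    obtain ⟨a, ha, hac, -⟩ := hZ.exp hk t
    have h3 := hg (g * a)
    have h4 : NN c (g * a) = NN c g := by rw [NN_mul, hac]; rfl
    rw [h4] at h3
    have h5 : RR g ≤ RR (g * a) := by
      by_contra hlt
      push Not at hlt
      nlinarith
    show ((g.1 * NormedSpace.exp ((0 : ℝ) • Z)) * (g.1 * NormedSpace.exp ((0 : ℝ) • Z))ᵀ).trace ≤
      ((g.1 * NormedSpace.exp (t • Z)) * (g.1 * NormedSpace.exp (t • Z))ᵀ).trace
    rw [zero_smul, NormedSpace.exp_zero, mul_one, ← ha]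
    have h6 : RR (g * a) = ((g.1 * a.1) * (g.1 * a.1)ᵀ).trace := by
      rw [RR, Matrix.SpecialLinearGroup.coe_mul]
    rw [← h6]
    exact h5
  have h9 := hmin.hasDerivAt_eq_zero hd
  have h10 : (g.1 * Z * g.1ᵀ).trace = (g.1ᵀ * g.1 * Z).trace := by
    rw [Matrix.trace_mul_comm, ← Matrix.mul_assoc]
  rw [h10] at h9
  linarith

/-- limits along an ultrafilter -/
theorem ulim {X : Type*} [TopologicalSpace X] (𝒰 : Ultrafilter ℕ) {K : Set X} (hK : IsCompact K)
    {f : ℕ → X} (hf : ∀ k, f k ∈ K) : ∃ x ∈ K, Tendsto f 𝒰 (𝓝 x) := by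
  have h1 : ((𝒰.map f : Ultrafilter X) : Filter X) ≤ 𝓟 K := by
    rw [Filter.le_principal_iff]
    exact Filter.mem_map.2 (Filter.univ_mem' hf)
  obtain ⟨x, hx, h2⟩ := hK.ultrafilter_le_nhds (𝒰.map f) h1
  exact ⟨x, hx, h2⟩

/-- the spectral data of `gᵀ g` -/
theorem spec_data (g : SLn n) : ∃ (U : Mat n) (e : Fin n → ℝ), Uᵀ * U = 1 ∧ U * Uᵀ = 1 ∧
    g.1ᵀ * g.1 = U * diagonal (fun i => Real.exp (e i)) * Uᵀ ∧ ∑ i, e i = 0 := by
  have hu : IsUnit g.1 := ⟨⟨g.1, (g⁻¹).1, sl_mul_inv g, sl_inv_mul g⟩, rfl⟩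
  have hP : (g.1ᵀ * g.1).PosDef := by
    have := Matrix.PosDef.conjTranspose_mul_self g.1 (Matrix.mulVec_injective_of_isUnit hu)
    rwa [Matrix.conjTranspose_eq_transpose_of_trivial] at this
  obtain ⟨X, hX, hXe⟩ := H35.RePol.exists_log hP
  obtain ⟨U, e, h1, h2, h3, h4, -⟩ := spec_sym hX
  refine ⟨U, e, h1, h2, by rw [← hXe, h4], ?_⟩
  have h5 : (g.1ᵀ * g.1).det = 1 := by
    rw [Matrix.det_mul, Matrix.det_transpose, g.2, one_mul]
  rw [← hXe, h4, Matrix.det_mul, Matrix.det_mul, Matrix.det_diagonal, ← Real.exp_sum] at h5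
  have h6 : U.det * Uᵀ.det = 1 := by rw [← Matrix.det_mul, h2, Matrix.det_one]
  have h7 : Real.exp (∑ i, e i) = 1 := by
    calc Real.exp (∑ i, e i) = (U.det * Uᵀ.det) * Real.exp (∑ i, e i) := by rw [h6, one_mul]
      _ = U.det * Real.exp (∑ i, e i) * Uᵀ.det := by ring
      _ = 1 := h5
  exact (Real.exp_eq_one_iff _).1 h7

theorem RR_spec {g : SLn n} {U : Mat n} {e : Fin n → ℝ} (hU : Uᵀ * U = 1)
    (h : g.1ᵀ * g.1 = U * diagonal (fun i => Real.exp (e i)) * Uᵀ) :
    RR g = ∑ i, Real.exp (e i) := by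
  rw [RR, Matrix.trace_mul_comm, h, trace_conj hU, Matrix.trace_diagonal]

/-- the norm in terms of the spectral data -/
theorem NN_spec {c : Br n} {g : SLn n} {U : Mat n} {e : Fin n → ℝ} (hU : Uᵀ * U = 1)
    (hU' : U * Uᵀ = 1) (h : g.1ᵀ * g.1 = U * diagonal (fun i => Real.exp (e i)) * Uᵀ) :
    NN c g = nm (act (diagonal fun i => Real.exp (e i / 2))
      (diagonal fun i => Real.exp (-(e i / 2))) (act Uᵀ U c)) := by
  obtain ⟨E, hE⟩ : ∃ E : Mat n, E = diagonal fun i => Real.exp (e i / 2) := ⟨_, rfl⟩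
  obtain ⟨E', hE'⟩ : ∃ E' : Mat n, E' = diagonal fun i => Real.exp (-(e i / 2)) := ⟨_, rfl⟩
  have hEE : E * E' = 1 := by
    rw [hE, hE', Matrix.diagonal_mul_diagonal, ← Matrix.diagonal_one]
    congr 1
    funext i
    rw [← Real.exp_add, add_neg_cancel, Real.exp_zero]
  have hE'E : E' * E = 1 := mul_eq_one_comm.1 hEE
  have hE2 : diagonal (fun i => Real.exp (e i)) = E * E := by
    rw [hE, Matrix.diagonal_mul_diagonal]
    congr 1
    funext i
    rw [← Real.exp_add]; ring_nf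
  have hE't : E'ᵀ = E' := by rw [hE', Matrix.diagonal_transpose]
  rw [hE2] at h
  rw [← hE, ← hE']
  obtain ⟨K, hK⟩ : ∃ K, K = g.1 * (U * E') := ⟨_, rfl⟩
  have hKK : Kᵀ * K = 1 := by
    rw [hK, Matrix.transpose_mul, Matrix.transpose_mul, hE't]
    calc E' * Uᵀ * g.1ᵀ * (g.1 * (U * E')) = E' * Uᵀ * (g.1ᵀ * g.1) * (U * E') := by noncomm_ring
      _ = E' * (Uᵀ * U) * E * E * (Uᵀ * U) * E' := by rw [h]; noncomm_ring
      _ = (E' * E) * (E * E') := by rw [hU, mul_one, mul_one]; noncomm_ring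
      _ = 1 := by rw [hE'E, hEE, one_mul]
  have hKK' : K * Kᵀ = 1 := mul_eq_one_comm.1 hKK
  have hg : g.1 = K * (E * Uᵀ) := by
    rw [hK]
    calc g.1 = g.1 * (U * (E' * E) * Uᵀ) := by rw [hE'E, mul_one, hU', mul_one]
      _ = _ := by noncomm_ring
  have hgi : (g⁻¹).1 = (U * E') * Kᵀ := by
    have h1 : g.1 * ((U * E') * Kᵀ) = 1 := by
      rw [← mul_assoc, ← hK, hKK']
    calc (g⁻¹).1 = (g⁻¹).1 * (g.1 * ((U * E') * Kᵀ)) := by rw [h1, mul_one]
      _ = ((g⁻¹).1 * g.1) * ((U * E') * Kᵀ) := (mul_assoc _ _ _).symm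
      _ = _ := by rw [sl_inv_mul, one_mul]
  rw [NN, hgi]
  conv_lhs => rw [hg]
  rw [← act_act, nm_orth hKK, ← act_act]

section seq

variable {𝒰 : Ultrafilter ℕ} {c : Br n} {U : ℕ → Mat n} {e : ℕ → Fin n → ℝ} {V : Mat n}
  {d q : Fin n → ℝ}

/-- vanishing of structure constants in the limit -/
theorem lim_zero {C : ℝ} (hT : Tendsto (fun k => ‖e k‖) 𝒰 atTop)
    (hdi : ∀ i, Tendsto (fun k => (‖e k‖)⁻¹ * e k i) 𝒰 (𝓝 (d i)))
    (hVt : Tendsto U 𝒰 (𝓝 V))
    (hN : ∀ k, nm (act (diagonal fun i => Real.exp (e k i / 2))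
      (diagonal fun i => Real.exp (-(e k i / 2))) (act (U k)ᵀ (U k) c)) ≤ C)
    (i r j : Fin n) (hlt : d i + d j < d r) : act Vᵀ V c i r j = 0 := by
  have hpos : ∀ᶠ k in (𝒰 : Filter ℕ), 0 < ‖e k‖ := hT.eventually (eventually_gt_atTop 0)
  have hcont : Continuous fun M : Mat n => act Mᵀ M c :=
    (cont_act c).comp ((continuous_id.matrix_transpose).prodMk continuous_id)
  have hbt : Tendsto (fun k => act (U k)ᵀ (U k) c) 𝒰 (𝓝 (act Vᵀ V c)) :=
    (hcont.tendsto V).comp hVt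
  have h1 : Tendsto (fun k => act (U k)ᵀ (U k) c i r j) 𝒰 (𝓝 (act Vᵀ V c i r j)) :=
    tendsto_pi_nhds.1 (tendsto_pi_nhds.1 (tendsto_pi_nhds.1 hbt i) r) j
  have hexp : Tendsto (fun k => Real.exp (-(e k r - e k i - e k j))) 𝒰 (𝓝 0) := by
    refine Real.tendsto_exp_atBot.comp ?_
    have h5 : Tendsto (fun k => ‖e k‖ * (-((‖e k‖)⁻¹ * e k r - (‖e k‖)⁻¹ * e k i -
        (‖e k‖)⁻¹ * e k j))) 𝒰 atBot :=
      hT.atTop_mul_neg (by linarith : -(d r - d i - d j) < 0)
        (((hdi r).sub (hdi i)).sub (hdi j)).neg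
    refine h5.congr' ?_
    filter_upwards [hpos] with k hk1
    field_simp
  have h6 : ∀ k, (act (U k)ᵀ (U k) c i r j) ^ 2 ≤
      C * Real.exp (-(e k r - e k i - e k j)) := by
    intro k
    have h3 := entry_le_nm (act (diagonal fun i => Real.exp (e k i / 2))
      (diagonal fun i => Real.exp (-(e k i / 2))) (act (U k)ᵀ (U k) c)) i r j
    rw [act_diag] at h3
    have h7 : (Real.exp ((e k r - e k i - e k j) / 2) * act (U k)ᵀ (U k) c i r j) ^ 2 ≤ C := by
      have h4 : Real.exp ((e k r - e k i - e k j) / 2) = Real.exp (e k r / 2) *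
          Real.exp (-(e k i / 2)) * Real.exp (-(e k j / 2)) := by
        rw [← Real.exp_add, ← Real.exp_add]; ring_nf
      rw [h4]
      refine le_trans (le_of_eq ?_) (h3.trans (hN k))
      ring
    rw [mul_pow, ← Real.exp_nat_mul] at h7
    have h8 : ((2 : ℕ) : ℝ) * ((e k r - e k i - e k j) / 2) = e k r - e k i - e k j := by
      push_cast; ring
    rw [h8] at h7
    rw [Real.exp_neg, ← div_eq_mul_inv, le_div_iff₀ (Real.exp_pos _)]
    linarith
  have h9 : Tendsto (fun k => C * Real.exp (-(e k r - e k i - e k j))) 𝒰 (𝓝 0) := by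
    have := hexp.const_mul C
    rwa [mul_zero] at this
  have h10 : (act Vᵀ V c i r j) ^ 2 ≤ 0 :=
    le_of_tendsto_of_tendsto (h1.pow 2) h9 (Eventually.of_forall h6)
  exact pow_eq_zero_iff (two_ne_zero) |>.1 (le_antisymm h10 (sq_nonneg _))

/-- continuity of a trace -/
theorem cont_F (A : Mat n) : ∃ F : (Fin n → ℝ) × Mat n → ℝ, Continuous F ∧
    ∀ w M, F (w, M) = (diagonal w * (Mᵀ * A * M)).trace := by
  refine ⟨fun p => (diagonal p.1 * (p.2ᵀ * A * p.2)).trace, ?_, fun w M => rfl⟩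
  have h7 : Continuous fun p : (Fin n → ℝ) × Mat n => p.2ᵀ * A * p.2 :=
    ((continuous_snd.matrix_transpose).matrix_mul continuous_const).matrix_mul
      continuous_snd
  have h8 : Continuous fun p : (Fin n → ℝ) × Mat n => (diagonal p.1 : Mat n) :=
    continuous_fst.matrix_diagonal
  have h9 : Continuous fun p : (Fin n → ℝ) × Mat n =>
      (diagonal p.1 : Mat n) * (p.2ᵀ * A * p.2) := h8.matrix_mul h7
  exact h9.matrix_trace

/-- the first order condition in the limit -/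
theorem lim_first {w : ℕ → Fin n → ℝ} (hVt : Tendsto U 𝒰 (𝓝 V))
    (hw : w = fun k i => Real.exp (e k i) / ∑ j, Real.exp (e k j))
    (hqt : Tendsto w 𝒰 (𝓝 q)) (H : Fin n → ℝ)
    (h0 : ∀ k, (U k * diagonal (fun i => Real.exp (e k i)) * (U k)ᵀ *
      adL c (V *ᵥ H)).trace = 0) : (diagonal q * adL (act Vᵀ V c) H).trace = 0 := by
  obtain ⟨A, hA⟩ : ∃ A, A = adL c (V *ᵥ H) := ⟨_, rfl⟩
  rw [adL_act, ← hA]
  rw [← hA] at h0
  have h1 : ∀ k, (diagonal (w k) * ((U k)ᵀ * A * U k)).trace = 0 := by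
    intro k
    have h3 : diagonal (w k) =
        (∑ j, Real.exp (e k j))⁻¹ • diagonal (fun i => Real.exp (e k i)) := by
      rw [← Matrix.diagonal_smul, hw]
      congr 1
      funext i
      rw [Pi.smul_apply, smul_eq_mul]
      exact div_eq_inv_mul _ _
    rw [h3, smul_mul_assoc, Matrix.trace_smul]
    have h4 : (diagonal (fun i => Real.exp (e k i)) * ((U k)ᵀ * A * U k)).trace =
        (U k * diagonal (fun i => Real.exp (e k i)) * (U k)ᵀ * A).trace := by
      rw [← Matrix.mul_assoc, Matrix.trace_mul_comm]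
      congr 1
      simp only [Matrix.mul_assoc]
    rw [h4, h0 k, smul_zero]
  obtain ⟨F, hF, hFe⟩ := cont_F A
  have h51 : Tendsto (fun k => (w k, U k)) 𝒰 (𝓝 (q, V)) := hqt.prodMk_nhds hVt
  have h52 : Tendsto (fun k => F (w k, U k)) 𝒰 (𝓝 (F (q, V))) := (hF.tendsto (q, V)).comp h51
  have h53 : ∀ k, F (w k, U k) = 0 := fun k => by rw [hFe]; exact h1 k
  simp only [h53] at h52
  have h8 := tendsto_nhds_unique h52 tendsto_const_nhds
  rw [hFe] at h8
  exact h8

/-- the limit weights are concentrated on the top directions -/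
theorem lim_weight [Nonempty (Fin n)] (hT : Tendsto (fun k => ‖e k‖) 𝒰 atTop)
    (hdi : ∀ i, Tendsto (fun k => (‖e k‖)⁻¹ * e k i) 𝒰 (𝓝 (d i)))
    (hqi : ∀ i, Tendsto (fun k => Real.exp (e k i) / ∑ j, Real.exp (e k j)) 𝒰 (𝓝 (q i)))
    (hq0 : ∀ i, 0 ≤ q i) (i j : Fin n) (hij : d i < d j) : q i = 0 := by
  have hpos : ∀ᶠ k in (𝒰 : Filter ℕ), 0 < ‖e k‖ := hT.eventually (eventually_gt_atTop 0)
  have h1 : Tendsto (fun k => Real.exp (e k i - e k j)) 𝒰 (𝓝 0) := by
    refine Real.tendsto_exp_atBot.comp ?_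
    have h2 : Tendsto (fun k => ‖e k‖ * ((‖e k‖)⁻¹ * e k i - (‖e k‖)⁻¹ * e k j)) 𝒰 atBot :=
      hT.atTop_mul_neg (by linarith : d i - d j < 0) ((hdi i).sub (hdi j))
    refine h2.congr' ?_
    filter_upwards [hpos] with k hk1
    field_simp
  refine le_antisymm ?_ (hq0 i)
  refine le_of_tendsto_of_tendsto (hqi i) h1 (Eventually.of_forall fun k => ?_)
  have h4 : Real.exp (e k j) ≤ ∑ j, Real.exp (e k j) :=
    Finset.single_le_sum (f := fun j => Real.exp (e k j))
      (fun j _ => (Real.exp_pos _).le) (Finset.mem_univ j)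
  show Real.exp (e k i) / ∑ j, Real.exp (e k j) ≤ Real.exp (e k i - e k j)
  rw [Real.exp_sub]
  exact div_le_div_of_nonneg_left (Real.exp_pos _).le (Real.exp_pos _) h4

/-- the sequence of minimisers cannot be unbounded -/
theorem no_escape [Nonempty (Fin n)] (hJ : Jac c) (hk : (kil c).det ≠ 0) {C : ℝ}
    (hT : Tendsto (fun k => ‖e k‖) 𝒰 atTop) (hU : ∀ k, (U k)ᵀ * U k = 1)
    (he : ∀ k, ∑ i, e k i = 0)
    (hN : ∀ k, nm (act (diagonal fun i => Real.exp (e k i / 2))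
      (diagonal fun i => Real.exp (-(e k i / 2))) (act (U k)ᵀ (U k) c)) ≤ C)
    (h0 : ∀ k z, (U k * diagonal (fun i => Real.exp (e k i)) * (U k)ᵀ *
      adL c z).trace = 0) : False := by
  have hKO : IsCompact {M : Mat n | Mᵀ * M = 1} := by
    refine (compact_HS (n := n) (n : ℝ)).of_isClosed_subset ?_ ?_
    · exact isClosed_eq ((continuous_id.matrix_transpose).matrix_mul continuous_id)
        continuous_const
    · intro M hM
      have hM' : M * Mᵀ = 1 := mul_eq_one_comm.1 hM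
      show (M * Mᵀ).trace ≤ n
      rw [hM', Matrix.trace_one]
      simp
  have hsum : ∀ k, 0 < ∑ j, Real.exp (e k j) := fun k =>
    Finset.sum_pos (fun j _ => Real.exp_pos _) Finset.univ_nonempty
  obtain ⟨V, hV, hVt⟩ := ulim 𝒰 hKO (f := U) hU
  obtain ⟨d, -, hdt⟩ := ulim 𝒰 (isCompact_closedBall (0 : Fin n → ℝ) 1)
    (f := fun k => (‖e k‖)⁻¹ • e k) (fun k => by
      rw [mem_closedBall_zero_iff, norm_smul, norm_inv, norm_norm]
      by_cases h0 : ‖e k‖ = 0
      · rw [h0]; simp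
      · rw [inv_mul_cancel₀ h0])
  obtain ⟨q, hq, hqt⟩ := ulim 𝒰 (isCompact_univ_pi fun _ : Fin n => isCompact_Icc (a := (0 : ℝ))
    (b := 1)) (f := fun k i => Real.exp (e k i) / ∑ j, Real.exp (e k j)) (fun k => by
      intro i _
      refine ⟨div_nonneg (Real.exp_pos _).le (hsum k).le, ?_⟩
      rw [div_le_one (hsum k)]
      exact Finset.single_le_sum (f := fun j => Real.exp (e k j))
        (fun j _ => (Real.exp_pos _).le) (Finset.mem_univ i))
  have hpos : ∀ᶠ k in (𝒰 : Filter ℕ), 0 < ‖e k‖ := hT.eventually (eventually_gt_atTop 0)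
  have hd1 : ‖d‖ = 1 := by
    have h1 : Tendsto (fun k => ‖(‖e k‖)⁻¹ • e k‖) 𝒰 (𝓝 ‖d‖) := hdt.norm
    have h2 : Tendsto (fun k => ‖(‖e k‖)⁻¹ • e k‖) 𝒰 (𝓝 1) := by
      refine tendsto_const_nhds.congr' ?_
      filter_upwards [hpos] with k hk1
      rw [norm_smul, norm_inv, norm_norm, inv_mul_cancel₀ hk1.ne']
    exact tendsto_nhds_unique h1 h2
  have hdi : ∀ i, Tendsto (fun k => (‖e k‖)⁻¹ * e k i) 𝒰 (𝓝 (d i)) := fun i =>
    (tendsto_pi_nhds.1 hdt i)
  have hd0 : ∑ i, d i = 0 := by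
    have h1 : Tendsto (fun k => ∑ i, (‖e k‖)⁻¹ * e k i) 𝒰 (𝓝 (∑ i, d i)) :=
      tendsto_finset_sum _ fun i _ => hdi i
    have h2 : ∀ k, ∑ i, (‖e k‖)⁻¹ * e k i = 0 := by
      intro k
      rw [← Finset.mul_sum, he, mul_zero]
    simp only [h2] at h1
    exact tendsto_nhds_unique h1 tendsto_const_nhds
  have hqi : ∀ i, Tendsto (fun k => Real.exp (e k i) / ∑ j, Real.exp (e k j)) 𝒰 (𝓝 (q i)) :=
    fun i => tendsto_pi_nhds.1 hqt i
  have hq0 : ∀ i, 0 ≤ q i := fun i => (hq i (Set.mem_univ i)).1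
  have hq1 : ∑ i, q i = 1 := by
    have h1 : Tendsto (fun k => ∑ i, Real.exp (e k i) / ∑ j, Real.exp (e k j)) 𝒰
        (𝓝 (∑ i, q i)) := tendsto_finset_sum _ fun i _ => hqi i
    have h2 : ∀ k, ∑ i, Real.exp (e k i) / ∑ j, Real.exp (e k j) = 1 := by
      intro k
      rw [← Finset.sum_div, div_self (hsum k).ne']
    simp only [h2] at h1
    exact tendsto_nhds_unique h1 tendsto_const_nhds
  have hqd := lim_weight hT hdi hqi hq0
  have hbz := lim_zero hT hdi hVt hN
  have hV2 : V * Vᵀ = 1 := mul_eq_one_comm.1 hV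
  have hkb : (kil (act Vᵀ V c)).det ≠ 0 := by
    rw [kil_act hV2, Matrix.det_mul, Matrix.det_mul, Matrix.det_transpose]
    have h1 : V.det ≠ 0 := by
      intro h0
      have h2 := congrArg Matrix.det hV2
      rw [Matrix.det_mul, h0, zero_mul, Matrix.det_one] at h2
      exact zero_ne_one h2
    exact mul_ne_zero (mul_ne_zero h1 hk) h1
  obtain ⟨H, hH⟩ := exists_diag (hJ.act hV2) hkb hd0 hbz
  have hfirst := lim_first hVt rfl hqt H (fun k => h0 k _)
  have hs : ∑ i, q i * d i = 0 := by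
    rw [Matrix.trace] at hfirst
    rw [← hfirst]
    refine Finset.sum_congr rfl fun i _ => ?_
    rw [Matrix.diag_apply, Matrix.diagonal_mul, hH]
  obtain ⟨m, hm⟩ := Finite.exists_max d
  have h11 : ∀ i, q i * d i = q i * d m := by
    intro i
    by_cases h12 : d i = d m
    · rw [h12]
    · rw [hqd i m (lt_of_le_of_ne (hm i) h12), zero_mul, zero_mul]
  simp only [h11] at hs
  rw [← Finset.sum_mul, hq1, one_mul] at hs
  have h13 : ∀ i, d i = 0 := by
    have h14 : ∀ i ∈ Finset.univ, d i ≤ 0 := fun i _ => by rw [← hs]; exact hm i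
    intro i
    exact (Finset.sum_eq_zero_iff_of_nonpos h14).1 hd0 i (Finset.mem_univ i)
  have h16 : d = 0 := funext h13
  rw [h16, norm_zero] at hd1
  exact zero_ne_one hd1

end seq

/-- **the minimum is attained** -/
theorem exists_min (hn : 0 < n) {c : Br n} (hJ : Jac c) (hk : (kil c).det ≠ 0) :
    ∃ g : SLn n, Mn (act g.1 (g⁻¹).1 c) := by
  have hpen : ∀ k : ℕ, ∃ g : SLn n, ∀ h : SLn n,
      NN c g + (1 / ((k : ℝ) + 1)) * RR g ≤ NN c h + (1 / ((k : ℝ) + 1)) * RR h :=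
    fun k => exists_pen c (by positivity)
  choose G hG using hpen
  obtain ⟨𝒰, h𝒰⟩ : ∃ 𝒰 : Ultrafilter ℕ, (𝒰 : Filter ℕ) ≤ atTop :=
    ⟨Filter.hyperfilter ℕ, Nat.hyperfilter_le_atTop⟩
  have hε : Tendsto (fun k : ℕ => 1 / ((k : ℝ) + 1)) 𝒰 (𝓝 0) :=
    tendsto_one_div_add_atTop_nhds_zero_nat.mono_left h𝒰
  by_cases hb : Tendsto (fun k => RR (G k)) 𝒰 atTop
  · -- the unbounded case is impossible
    exfalso
    haveI : Nonempty (Fin n) := ⟨⟨0, hn⟩⟩
    choose U e hU hU' hP he using fun k => spec_data (G k)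
    have hR : ∀ k, RR (G k) = ∑ i, Real.exp (e k i) := fun k => RR_spec (hU k) (hP k)
    have hNC : ∀ k, NN c (G k) ≤ NN c 1 + RR (1 : SLn n) := by
      intro k
      have h1 := hG k 1
      have h2 : (1 : ℝ) / ((k : ℝ) + 1) ≤ 1 := by
        rw [div_le_one (by positivity)]
        linarith [Nat.cast_nonneg (α := ℝ) k]
      have h3 : 0 ≤ (1 : ℝ) / ((k : ℝ) + 1) := by positivity
      have h4 := RR_nonneg (G k)
      have h5 := RR_nonneg (1 : SLn n)
      have h6 := mul_nonneg h3 h4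
      have h7 := mul_le_mul_of_nonneg_right h2 h5
      rw [one_mul] at h7
      linarith
    have hT : Tendsto (fun k => ‖e k‖) 𝒰 atTop := by
      rw [tendsto_atTop]
      intro B
      have h1 := (tendsto_atTop.1 hb) ((n : ℝ) * Real.exp B + 1)
      filter_upwards [h1] with k hk1
      by_contra hlt
      push Not at hlt
      have h2 : RR (G k) ≤ (n : ℝ) * Real.exp B := by
        rw [hR]
        calc ∑ i, Real.exp (e k i) ≤ ∑ _i : Fin n, Real.exp B :=
              Finset.sum_le_sum fun i _ => Real.exp_le_exp.2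
                ((le_abs_self _).trans ((norm_le_pi_norm (e k) i).trans hlt.le))
          _ = (n : ℝ) * Real.exp B := by simp
      linarith
    refine no_escape hJ hk (C := NN c 1 + RR (1 : SLn n)) hT hU he (fun k => ?_) fun k z => ?_
    · rw [← NN_spec (hU k) (hU' k) (hP k)]
      exact hNC k
    · rw [← hP k]
      exact pen_first hk (by positivity : (0 : ℝ) < 1 / ((k : ℝ) + 1)) (hG k) (hJ.der z)
  · -- the bounded case
    rw [tendsto_atTop] at hb
    push Not at hb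
    obtain ⟨C, hC⟩ := hb
    have h1 : ∀ᶠ k in (𝒰 : Filter ℕ), RR (G k) ≤ C := hC.mono fun k hk1 => hk1.le
    have h3 : ((𝒰.map G : Ultrafilter (SLn n)) : Filter (SLn n)) ≤ 𝓟 {g | RR g ≤ C} := by
      rw [Filter.le_principal_iff]
      exact Filter.mem_map.2 h1
    obtain ⟨g, -, hg⟩ := (compact_RR C).ultrafilter_le_nhds (𝒰.map G) h3
    have hgt : Tendsto G 𝒰 (𝓝 g) := hg
    refine ⟨g, fun s => ?_⟩
    rw [← NN_mul]
    have h4 : Tendsto (fun k => NN c (G k)) 𝒰 (𝓝 (NN c g)) :=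
      ((NN_cont c).tendsto g).comp hgt
    have h5 : Tendsto (fun k : ℕ => NN c (s * g) + (1 / ((k : ℝ) + 1)) * RR (s * g)) 𝒰
        (𝓝 (NN c (s * g))) := by
      have := (hε.mul_const (RR (s * g))).const_add (NN c (s * g))
      rwa [zero_mul, add_zero] at this
    refine le_of_tendsto_of_tendsto h4 h5 (Eventually.of_forall fun k => ?_)
    have h6 := hG k (s * g)
    have h7 : 0 ≤ (1 / ((k : ℝ) + 1)) * RR (G k) :=
      mul_nonneg (by positivity) (RR_nonneg _)
    show NN c (G k) ≤ NN c (s * g) + (1 / ((k : ℝ) + 1)) * RR (s * g)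
    linarith

end Vale.Agent.P092.H41.Re.Ct
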