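import Vale.Agent.P092.H41.Re.Ct4

/-!
P092, project RE, row [RE-ALL] (helper41), part 5: the identity component of the automorphism group
of every simple real Lie algebra of noncompact type satisfies `RS0`.
-/

set_option linter.all false

open Matrix Filter Topology

namespace Vale.Agent.P092.H41.Re.Ct

open Vale.Agent.P092.H793.Re

attribute [local instance] Matrix.linftyOpNormedRing Matrix.linftyOpNormedAlgebra

section gen

variable {n : ℕ} {G : Type} [Group G] [TopologicalSpace G] {ρ : G →* SLn n}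

/-- stability under transposition from the Lie algebra -/
theorem adj_of_lie (he : IsClosedEmbedding ρ) (hc : PreconnectedSpace G)
    (hT : ∀ X, Lie ρ X → Lie ρ Xᵀ) (g : G) : ∃ g', (ρ g').1 = (ρ g).1ᵀ := by
  have hg : g ∈ Subgroup.closure {g : G | ∃ X, Lie ρ X ∧ (ρ g).1 = NormedSpace.exp X} := by
    rw [gen0 he hc]; trivial
  induction hg using Subgroup.closure_induction with
  | mem x hx =>
    obtain ⟨X, hX, hx⟩ := hx
    obtain ⟨g', hg'⟩ := exp_mem (hT X hX)
    exact ⟨g', by rw [hg', hx, Matrix.exp_transpose]⟩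
  | one => exact ⟨1, by rw [map_one]; exact Matrix.transpose_one.symm⟩
  | mul x y _ _ hx hy =>
    obtain ⟨x', hx'⟩ := hx
    obtain ⟨y', hy'⟩ := hy
    refine ⟨y' * x', ?_⟩
    rw [map_mul, map_mul, Matrix.SpecialLinearGroup.coe_mul, Matrix.SpecialLinearGroup.coe_mul,
      Matrix.transpose_mul, hx', hy']
  | inv x _ hx =>
    obtain ⟨x', hx'⟩ := hx
    refine ⟨x'⁻¹, ?_⟩
    rw [coe_inv, coe_inv, hx', Matrix.transpose_nonsing_inv]

end gen

section all

variable {n : ℕ}

theorem conj_alg {g h X A B : Mat n} (hg : h * g = 1)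
    (h1 : X * (g * A * h) - g * A * h * X = g * B * h) :
    h * X * g * A - A * (h * X * g) = B := by
  have e1 : h * (X * (g * A * h)) * g = h * X * g * A := by
    calc h * (X * (g * A * h)) * g = h * X * g * A * (h * g) := by simp only [Matrix.mul_assoc]
      _ = _ := by rw [hg, mul_one]
  have e2 : h * (g * A * h * X) * g = A * (h * X * g) := by
    calc h * (g * A * h * X) * g = (h * g) * A * (h * X * g) := by simp only [Matrix.mul_assoc]
      _ = _ := by rw [hg, one_mul]
  have e3 : h * (g * B * h) * g = B := by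
    calc h * (g * B * h) * g = (h * g) * B * (h * g) := by simp only [Matrix.mul_assoc]
      _ = _ := by rw [hg, one_mul, mul_one]
  rw [← e1, ← e2, ← sub_mul, ← mul_sub, h1, e3]

theorem conj_alg' {g h X A B : Mat n} (hg' : g * h = 1)
    (h1 : h * X * g * A - A * (h * X * g) = B) :
    X * (g * A * h) - g * A * h * X = g * B * h := by
  rw [← h1, mul_sub, sub_mul]
  congr 1
  · calc X * (g * A * h) = (g * h) * X * (g * A * h) := by rw [hg', one_mul]
      _ = _ := by simp only [Matrix.mul_assoc]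
  · calc g * A * h * X = g * A * h * X * (g * h) := by rw [hg', mul_one]
      _ = _ := by simp only [Matrix.mul_assoc]

theorem der_act {g h : Mat n} (hg : h * g = 1) (c : Br n) (X : Mat n) :
    Der (act g h c) X ↔ Der c (h * X * g) := by
  have hg' : g * h = 1 := mul_eq_one_comm.1 hg
  constructor
  · intro hX x
    have h1 := hX (g *ᵥ x)
    have e1 : adL (act g h c) (g *ᵥ x) = g * adL c x * h := by
      rw [adL_act, Matrix.mulVec_mulVec, hg, Matrix.one_mulVec]
    have e2 : adL (act g h c) (X *ᵥ (g *ᵥ x)) = g * adL c ((h * X * g) *ᵥ x) * h := by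
      rw [adL_act, Matrix.mulVec_mulVec, Matrix.mulVec_mulVec, Matrix.mul_assoc h X g]
    rw [e1, e2] at h1
    exact conj_alg hg h1
  · intro hX x
    have h1 := hX (h *ᵥ x)
    have e1 : (h * X * g) *ᵥ (h *ᵥ x) = h *ᵥ (X *ᵥ x) := by
      rw [Matrix.mulVec_mulVec, Matrix.mulVec_mulVec, Matrix.mul_assoc (h * X) g h, hg', mul_one]
    rw [e1] at h1
    rw [adL_act, adL_act]
    exact conj_alg' hg' h1

/-- the conjugated inclusion of the identity component -/
noncomputable def cinc (A : Subgroup (SLn n)) (g : SLn n) : Cmp A →* SLn n :=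
  (MulAut.conj g).toMonoidHom.comp (inc A)

theorem cinc_apply (A : Subgroup (SLn n)) (g : SLn n) (a : Cmp A) :
    cinc A g a = g * inc A a * g⁻¹ := rfl

theorem cinc_emb {A : Subgroup (SLn n)} (hA : IsClosed (A : Set (SLn n))) (g : SLn n) :
    IsClosedEmbedding (cinc A g) := by
  have h1 : IsClosedEmbedding fun x : SLn n => g * x * g⁻¹ :=
    ((Homeomorph.mulLeft g).trans (Homeomorph.mulRight g⁻¹)).isClosedEmbedding
  exact h1.comp (inc_emb hA)

theorem lie_cinc {A : Subgroup (SLn n)} {g : SLn n} {X : Mat n} :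
    Lie (cinc A g) X ↔ LA A ((g⁻¹).1 * X * g.1) := by
  have hgi : (g⁻¹).1 = g.1⁻¹ := (Matrix.inv_eq_left_inv (sl_inv_mul g)).symm
  have hu : IsUnit g.1 := ⟨⟨g.1, (g⁻¹).1, sl_mul_inv g, sl_inv_mul g⟩, rfl⟩
  have key : ∀ t : ℝ, NormedSpace.exp (t • ((g⁻¹).1 * X * g.1)) =
      (g⁻¹).1 * NormedSpace.exp (t • X) * g.1 := by
    intro t
    have h1 : t • ((g⁻¹).1 * X * g.1) = g.1⁻¹ * (t • X) * g.1 := by
      rw [hgi, mul_smul_comm, smul_mul_assoc]
    rw [h1, hgi]
    have h2 : IsUnit (g.1⁻¹) := by rw [← hgi]; exact ⟨⟨(g⁻¹).1, g.1, sl_inv_mul g, sl_mul_inv g⟩, rfl⟩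
    have h3 : (g.1⁻¹)⁻¹ = g.1 := Matrix.inv_eq_left_inv (by rw [← hgi]; exact sl_mul_inv g)
    have h4 := Matrix.exp_conj (g.1⁻¹) (t • X) h2
    rw [h3] at h4
    exact h4
  rw [← lie_inc]
  constructor
  · intro h t
    obtain ⟨a, ha⟩ := h t
    refine ⟨a, ?_⟩
    rw [key, ← ha, cinc_apply, Matrix.SpecialLinearGroup.coe_mul,
      Matrix.SpecialLinearGroup.coe_mul]
    calc (inc A a).1 = ((g⁻¹).1 * g.1) * (inc A a).1 * ((g⁻¹).1 * g.1) := by
          rw [sl_inv_mul, one_mul, mul_one]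
      _ = _ := by simp only [Matrix.mul_assoc]
  · intro h t
    obtain ⟨a, ha⟩ := h t
    refine ⟨a, ?_⟩
    rw [cinc_apply, Matrix.SpecialLinearGroup.coe_mul, Matrix.SpecialLinearGroup.coe_mul, ha, key]
    calc g.1 * ((g⁻¹).1 * NormedSpace.exp (t • X) * g.1) * (g⁻¹).1
        = (g.1 * (g⁻¹).1) * NormedSpace.exp (t • X) * (g.1 * (g⁻¹).1) := by
          simp only [Matrix.mul_assoc]
      _ = _ := by rw [sl_mul_inv, one_mul, mul_one]

/-- the Lie algebra of the automorphism group -/
theorem la_aut {c : Br n} (hk : (kil c).det ≠ 0) {X : Mat n} :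
    LA (autL (adL c)) X ↔ Der c X := by
  rw [la_autL]
  constructor
  · rintro ⟨-, h⟩
    exact h
  · intro h
    have hu : kil c * (kil c)⁻¹ = 1 := Matrix.mul_nonsing_inv _ (isUnit_iff_ne_zero.2 hk)
    exact ⟨fun t => (det_exp_of_skew hu h.skew t).1, h⟩

/-- the bracket has no proper nonzero ideal -/
def Simp (c : Br n) : Prop := ∀ I : Submodule ℝ (Fin n → ℝ),
  (∀ x ∈ I, ∀ y, adL c y *ᵥ x ∈ I) → I = ⊥ ∨ I = ⊤

theorem adL_inj {c : Br n} (hk : (kil c).det ≠ 0) {z : Fin n → ℝ} (hz : adL c z = 0) : z = 0 := by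
  have h6 : z ᵥ* kil c = 0 := by
    funext j
    have h7 : (adL c z * adL c (Pi.single j 1)).trace = 0 := by rw [hz, zero_mul, Matrix.trace_zero]
    rw [trace_kil, Finset.sum_comm, Finset.sum_eq_single j] at h7
    · simpa [Matrix.vecMul, dotProduct] using h7
    · intro b _ hb
      simp [hb]
    · simp
  have h8 := congrArg (fun w => w ᵥ* (kil c)⁻¹) h6
  simp only [Matrix.vecMul_vecMul, Matrix.mul_nonsing_inv _ (isUnit_iff_ne_zero.2 hk),
    Matrix.vecMul_one, Matrix.zero_vecMul] at h8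
  exact h8

/-- **[RE-ALL]** Let `c` be a Lie bracket on `ℝⁿ` (Jacobi identity) without proper ideals, with
nondegenerate Killing form which is not negative definite. Then the identity component of its
automorphism group satisfies `RS0`. -/
theorem rs_all {c : Br n} (hJ : Jac c) (hk : (kil c).det ≠ 0) (hs : Simp c)
    (hnc : ∃ x, x ≠ 0 ∧ 0 ≤ (adL c x * adL c x).trace) :
    ∃ ρ : Cmp (autL (adL c)) →* SLn n, RS0 ρ := by
  obtain ⟨x, hx0, hx⟩ := hnc
  have hn : 0 < n := by
    by_contra h0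
    have h1 : n = 0 := by omega
    subst h1
    exact hx0 (Subsingleton.elim _ _)
  obtain ⟨g, hg⟩ := exists_min hn hJ hk
  have hmi := sl_mul_inv g
  have him := sl_inv_mul g
  have he : IsClosedEmbedding (cinc (autL (adL c)) g) := cinc_emb (isClosed_autL (adL c)) g
  have hc := inc_conn (autL (adL c))
  have hl : ∀ X, Lie (cinc (autL (adL c)) g) X ↔ Der c ((g⁻¹).1 * X * g.1) := by
    intro X
    rw [lie_cinc, la_aut hk]
  have hT : ∀ X, Lie (cinc (autL (adL c)) g) X → Lie (cinc (autL (adL c)) g) Xᵀ := by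
    intro X hX
    rw [hl, ← der_act him] at hX ⊢
    exact hg.der_transpose hX
  have hin : ∀ z, Lie (cinc (autL (adL c)) g) (g.1 * adL c z * (g⁻¹).1) := by
    intro z
    rw [hl]
    have h1 : (g⁻¹).1 * (g.1 * adL c z * (g⁻¹).1) * g.1 = adL c z := by
      calc (g⁻¹).1 * (g.1 * adL c z * (g⁻¹).1) * g.1
          = ((g⁻¹).1 * g.1) * adL c z * ((g⁻¹).1 * g.1) := by simp only [Matrix.mul_assoc]
        _ = _ := by rw [him, one_mul, mul_one]
    rw [h1]
    exact hJ.der z
  have hout : ∀ X, Lie (cinc (autL (adL c)) g) X → ∃ z, X = g.1 * adL c z * (g⁻¹).1 := by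
    intro X hX
    obtain ⟨z, hz⟩ := inner hJ hk ((hl X).1 hX)
    refine ⟨z, ?_⟩
    rw [← hz]
    calc X = (g.1 * (g⁻¹).1) * X * (g.1 * (g⁻¹).1) := by rw [hmi, one_mul, mul_one]
      _ = _ := by simp only [Matrix.mul_assoc]
  refine ⟨cinc (autL (adL c)) g, rs0_of he hc (adj_of_lie he hc hT) ?_ ?_ ?_⟩
  · -- the Lie algebra is simple
    intro S h1 h2
    obtain ⟨φ, hφ⟩ : ∃ φ : (Fin n → ℝ) →ₗ[ℝ] Mat n, ∀ z, φ z = g.1 * adL c z * (g⁻¹).1 :=
      ⟨((LinearMap.mulRight ℝ (g⁻¹).1).comp (LinearMap.mulLeft ℝ g.1)).comp (adL c), fun z => rfl⟩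
    have hI : ∀ z ∈ S.comap φ, ∀ y, adL c y *ᵥ z ∈ S.comap φ := by
      intro z hz y
      rw [Submodule.mem_comap, hφ] at hz ⊢
      have h3 := h2 _ hz _ (hin y)
      have h4 : g.1 * adL c y * (g⁻¹).1 * (g.1 * adL c z * (g⁻¹).1) -
          g.1 * adL c z * (g⁻¹).1 * (g.1 * adL c y * (g⁻¹).1) =
          g.1 * adL c (adL c y *ᵥ z) * (g⁻¹).1 := by
        rw [← hJ y z]
        calc g.1 * adL c y * (g⁻¹).1 * (g.1 * adL c z * (g⁻¹).1) -
              g.1 * adL c z * (g⁻¹).1 * (g.1 * adL c y * (g⁻¹).1)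
            = g.1 * adL c y * ((g⁻¹).1 * g.1) * adL c z * (g⁻¹).1 -
              g.1 * adL c z * ((g⁻¹).1 * g.1) * adL c y * (g⁻¹).1 := by
              simp only [Matrix.mul_assoc]
          _ = _ := by rw [him, mul_one, mul_one]; noncomm_ring
      rw [← h4]
      exact h3
    rcases hs _ hI with h3 | h3
    · left
      rw [Submodule.eq_bot_iff]
      intro X hX
      obtain ⟨z, hz⟩ := hout X (h1 X hX)
      have h4 : z ∈ S.comap φ := by rw [Submodule.mem_comap, hφ, ← hz]; exact hX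
      rw [h3, Submodule.mem_bot] at h4
      rw [hz, h4, map_zero, mul_zero, zero_mul]
    · right
      intro X hX
      obtain ⟨z, hz⟩ := hout X hX
      have h4 : z ∈ S.comap φ := by rw [h3]; trivial
      rw [Submodule.mem_comap, hφ, ← hz] at h4
      exact h4
  · -- a symmetric element
    obtain ⟨Y, hY⟩ : ∃ Y, Y = g.1 * adL c x * (g⁻¹).1 := ⟨_, rfl⟩
    have hYl : Lie (cinc (autL (adL c)) g) Y := by rw [hY]; exact hin x
    have hYY : (Y * Y).trace = (adL c x * adL c x).trace := by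
      rw [hY]
      calc (g.1 * adL c x * (g⁻¹).1 * (g.1 * adL c x * (g⁻¹).1)).trace
          = (g.1 * (adL c x * ((g⁻¹).1 * g.1) * adL c x * (g⁻¹).1)).trace := by
            simp only [Matrix.mul_assoc]
        _ = (adL c x * adL c x * ((g⁻¹).1 * g.1)).trace := by
            rw [him, Matrix.trace_mul_comm]
            congr 1
            rw [mul_one, mul_one, Matrix.mul_assoc, him, mul_one]
        _ = _ := by rw [him, mul_one]
    refine ⟨Y + Yᵀ, lie_add he hYl (hT Y hYl), ?_, ?_⟩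
    · rw [Matrix.transpose_add, Matrix.transpose_transpose, add_comm]
    · intro h0
      have h1 : Yᵀ = -Y := by
        rw [add_comm] at h0
        exact eq_neg_of_add_eq_zero_left h0
      have h2 : (Y * Yᵀ).trace = -(Y * Y).trace := by
        rw [h1, mul_neg, Matrix.trace_neg]
      have h3 : 0 ≤ (Y * Yᵀ).trace := by
        have h4 : (Y * Yᵀ).trace = ∑ a, ∑ b, Y a b ^ 2 := by
          rw [Matrix.trace]
          refine Finset.sum_congr rfl fun a _ => ?_
          rw [Matrix.diag_apply, Matrix.mul_apply]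
          refine Finset.sum_congr rfl fun b _ => ?_
          rw [Matrix.transpose_apply, sq]
        rw [h4]
        exact Finset.sum_nonneg fun _ _ => Finset.sum_nonneg fun _ _ => sq_nonneg _
      have h5 : (Y * Yᵀ).trace = 0 := by
        rw [hYY] at h2
        linarith
      have h6 : Y = 0 := H35.ReK.eq_zero_of_trace h5
      have h7 : adL c x = 0 := by
        calc adL c x = ((g⁻¹).1 * g.1) * adL c x * ((g⁻¹).1 * g.1) := by
              rw [him, one_mul, mul_one]
          _ = (g⁻¹).1 * (g.1 * adL c x * (g⁻¹).1) * g.1 := by simp only [Matrix.mul_assoc]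
          _ = 0 := by rw [← hY, h6, mul_zero, zero_mul]
      exact hx0 (adL_inj hk h7)
  · -- not abelian
    by_contra hne
    push Not at hne
    have h1 : ∀ y z, adL c y *ᵥ z = 0 := by
      intro y z
      apply adL_inj hk
      rw [← hJ y z]
      have h2 := hne _ _ (hin y) (hin z)
      have h3 := congrArg (fun M => (g⁻¹).1 * M * g.1) h2
      have h4 : ∀ y z, (g⁻¹).1 * (g.1 * adL c y * (g⁻¹).1 * (g.1 * adL c z * (g⁻¹).1)) * g.1 =
          adL c y * adL c z := by
        intro y z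
        calc (g⁻¹).1 * (g.1 * adL c y * (g⁻¹).1 * (g.1 * adL c z * (g⁻¹).1)) * g.1
            = ((g⁻¹).1 * g.1) * adL c y * ((g⁻¹).1 * g.1) * adL c z * ((g⁻¹).1 * g.1) := by
              simp only [Matrix.mul_assoc]
          _ = _ := by rw [him, one_mul, mul_one, mul_one]
      rw [h4, h4] at h3
      rw [h3, sub_self]
    have h5 : adL c x = 0 := by
      ext i j
      have := congrFun (h1 x (Pi.single j 1)) i
      rw [Matrix.mulVec_single_one] at this
      exact this
    exact hx0 (adL_inj hk h5)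

end all

end Vale.Agent.P092.H41.Re.Ct
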