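import Vale.Agent.P092.H41.Re.G2c

/-!
P092, project RE, row [RE-EX] (helper41), part 7: the Lie algebra of type `G₂` is simple; the
identity component of the automorphism group of the split octonions satisfies `RS0`.
-/

set_option linter.all false

open Matrix Filter Topology

namespace Vale.Agent.P092.H41.Re.G2

open Vale.Agent.P092.H793.Re

/-- the weights as integers -/
def lz : Fin 14 → ℤ := ![1, 3, -4, -1, -3, 4, -2, 5, 2, 7, -5, -7, 0, 0]

theorem lm_eq (k : Fin 14) : lm k = (lz k : ℝ) := by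
  fin_cases k <;> simp [lm, lz]

theorem lz_ne : ∀ k i : Fin 14, k.val < 12 → i ≠ k → lz i ≠ lz k := by decide

theorem lm_ne {k i : Fin 14} (hk : k.val < 12) (h : i ≠ k) : lm i ≠ lm k := by
  rw [lm_eq, lm_eq]
  exact fun h1 => lz_ne k i hk h (Int.cast_injective h1)

/-- unit vectors -/
def u (k : Fin 14) : Fin 14 → ℝ := Pi.single k 1

theorem diag_hh : diagonal hh = gm ![0, 0, 0, 0, 0, 0, 0, 0, 0, 0, 0, 0, 1, 3] := by
  ext i j
  fin_cases i <;> fin_cases j <;> simp [hh, gm, diagonal] <;> norm_num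

section ideal

variable {S : Submodule ℝ (Fin 14 → ℝ)} (hS : ∀ p ∈ S, ∀ q, brk q p ∈ S)

include hS

theorem proj (hφ : ∀ (φ : ℝ → ℝ), ∀ p ∈ S, (fun k => φ (lm k) * p k) ∈ S) {p : Fin 14 → ℝ}
    (hp : p ∈ S) {k : Fin 14} (hk : k.val < 12) (h0 : p k ≠ 0) : u k ∈ S := by
  classical
  have h1 := hφ (fun v => if v = lm k then 1 else 0) p hp
  have h2 : (fun i => (if lm i = lm k then (1 : ℝ) else 0) * p i) = p k • u k := by
    funext i
    by_cases hi : i = k
    · subst hi; simp [u]
    · rw [if_neg (lm_ne hk hi)]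
      simp [u, hi]
  have h3 : p k • u k ∈ S := by rw [← h2]; exact h1
  have h4 := S.smul_mem (p k)⁻¹ h3
  rwa [smul_smul, inv_mul_cancel₀ h0, one_smul] at h4

theorem of_smul {c : ℝ} (hc : c ≠ 0) {v : Fin 14 → ℝ} (h : c • v ∈ S) : v ∈ S := by
  have h4 := S.smul_mem c⁻¹ h
  rwa [smul_smul, inv_mul_cancel₀ hc, one_smul] at h4

theorem st1 (h : u 0 ∈ S) : u 7 ∈ S := by
  have e : brk (u 5) (u 0) = (-3 : ℝ) • u 7 := by
    funext i; fin_cases i <;> simp [brk, u, Pi.single_apply]
  exact of_smul hS (by norm_num) (e ▸ hS _ h (u 5))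

theorem st2 (h : u 7 ∈ S) : u 5 ∈ S := by
  have e : brk (u 3) (u 7) = (1 : ℝ) • u 5 := by
    funext i; fin_cases i <;> simp [brk, u, Pi.single_apply]
  exact of_smul hS (by norm_num) (e ▸ hS _ h (u 3))

theorem st3 (h : u 5 ∈ S) : u 9 ∈ S := by
  have e : brk (u 1) (u 5) = (3 : ℝ) • u 9 := by
    funext i; fin_cases i <;> simp [brk, u, Pi.single_apply]
  exact of_smul hS (by norm_num) (e ▸ hS _ h (u 1))

theorem st4 (h : u 9 ∈ S) : u 1 ∈ S := by
  have e : brk (u 2) (u 9) = (-1 : ℝ) • u 1 := by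
    funext i; fin_cases i <;> simp [brk, u, Pi.single_apply]
  exact of_smul hS (by norm_num) (e ▸ hS _ h (u 2))

theorem st5 (h : u 1 ∈ S) : u 8 ∈ S := by
  have e : brk (u 3) (u 1) = (-3 : ℝ) • u 8 := by
    funext i; fin_cases i <;> simp [brk, u, Pi.single_apply]
  exact of_smul hS (by norm_num) (e ▸ hS _ h (u 3))

theorem st6 (h : u 8 ∈ S) : u 3 ∈ S := by
  have e : brk (u 4) (u 8) = (1 : ℝ) • u 3 := by
    funext i; fin_cases i <;> simp [brk, u, Pi.single_apply]
  exact of_smul hS (by norm_num) (e ▸ hS _ h (u 4))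

theorem st7 (h : u 3 ∈ S) : u 10 ∈ S := by
  have e : brk (u 2) (u 3) = (3 : ℝ) • u 10 := by
    funext i; fin_cases i <;> simp [brk, u, Pi.single_apply]
  exact of_smul hS (by norm_num) (e ▸ hS _ h (u 2))

theorem st8 (h : u 10 ∈ S) : u 2 ∈ S := by
  have e : brk (u 0) (u 10) = (-1 : ℝ) • u 2 := by
    funext i; fin_cases i <;> simp [brk, u, Pi.single_apply]
  exact of_smul hS (by norm_num) (e ▸ hS _ h (u 0))

theorem st9 (h : u 2 ∈ S) : u 11 ∈ S := by
  have e : brk (u 4) (u 2) = (-3 : ℝ) • u 11 := by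
    funext i; fin_cases i <;> simp [brk, u, Pi.single_apply]
  exact of_smul hS (by norm_num) (e ▸ hS _ h (u 4))

theorem st10 (h : u 11 ∈ S) : u 4 ∈ S := by
  have e : brk (u 5) (u 11) = (1 : ℝ) • u 4 := by
    funext i; fin_cases i <;> simp [brk, u, Pi.single_apply]
  exact of_smul hS (by norm_num) (e ▸ hS _ h (u 5))

theorem st11 (h : u 4 ∈ S) : u 6 ∈ S := by
  have e : brk (u 0) (u 4) = (3 : ℝ) • u 6 := by
    funext i; fin_cases i <;> simp [brk, u, Pi.single_apply]
  exact of_smul hS (by norm_num) (e ▸ hS _ h (u 0))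

theorem st12 (h : u 6 ∈ S) : u 0 ∈ S := by
  have e : brk (u 1) (u 6) = (-1 : ℝ) • u 0 := by
    funext i; fin_cases i <;> simp [brk, u, Pi.single_apply]
  exact of_smul hS (by norm_num) (e ▸ hS _ h (u 1))

/-- a root vector generates all root vectors -/
theorem all_roots {k : Fin 14} (hk : k.val < 12) (h : u k ∈ S) : ∀ i : Fin 14, i.val < 12 →
    u i ∈ S := by
  have h0 : u 0 ∈ S := by
    fin_cases k
    · exact h
    · exact st12 hS (st11 hS (st10 hS (st9 hS (st8 hS (st7 hS (st6 hS (st5 hS h)))))))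
    · exact st12 hS (st11 hS (st10 hS (st9 hS h)))
    · exact st12 hS (st11 hS (st10 hS (st9 hS (st8 hS (st7 hS h)))))
    · exact st12 hS (st11 hS h)
    · exact st12 hS (st11 hS (st10 hS (st9 hS (st8 hS (st7 hS (st6 hS (st5 hS (st4 hS
        (st3 hS h)))))))))
    · exact st12 hS h
    · exact st12 hS (st11 hS (st10 hS (st9 hS (st8 hS (st7 hS (st6 hS (st5 hS (st4 hS
        (st3 hS (st2 hS h))))))))))
    · exact st12 hS (st11 hS (st10 hS (st9 hS (st8 hS (st7 hS (st6 hS h))))))
    · exact st12 hS (st11 hS (st10 hS (st9 hS (st8 hS (st7 hS (st6 hS (st5 hS (st4 hS h))))))))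
    · exact st12 hS (st11 hS (st10 hS (st9 hS (st8 hS h))))
    · exact st12 hS (st11 hS (st10 hS h))
    · exact absurd hk (by decide)
    · exact absurd hk (by decide)
  have h7 := st1 hS h0
  have h5 := st2 hS h7
  have h9 := st3 hS h5
  have h1 := st4 hS h9
  have h8 := st5 hS h1
  have h3 := st6 hS h8
  have h10 := st7 hS h3
  have h2 := st8 hS h10
  have h11 := st9 hS h2
  have h4 := st10 hS h11
  have h6 := st11 hS h4
  intro i hi
  fin_cases i
  · exact h0
  · exact h1
  · exact h2
  · exact h3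
  · exact h4
  · exact h5
  · exact h6
  · exact h7
  · exact h8
  · exact h9
  · exact h10
  · exact h11
  · exact absurd hi (by decide)
  · exact absurd hi (by decide)

/-- a root vector generates everything -/
theorem top_of_root {k : Fin 14} (hk : k.val < 12) (h : u k ∈ S) : ∀ p, p ∈ S := by
  have ha := all_roots hS hk h
  have e1 : brk (u 0) (u 3) = (2 : ℝ) • u 12 - u 13 := by
    funext i; fin_cases i <;> simp [brk, u, Pi.single_apply]
  have e2 : brk (u 1) (u 4) = (2 : ℝ) • u 13 - u 12 := by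
    funext i; fin_cases i <;> simp [brk, u, Pi.single_apply]
  have h1 : (2 : ℝ) • u 12 - u 13 ∈ S := e1 ▸ hS _ (ha 3 (by decide)) (u 0)
  have h2 : (2 : ℝ) • u 13 - u 12 ∈ S := e2 ▸ hS _ (ha 4 (by decide)) (u 1)
  have h12 : u 12 ∈ S := by
    have h3 := S.add_mem (S.smul_mem 2 h1) h2
    have e : (2 : ℝ) • ((2 : ℝ) • u 12 - u 13) + ((2 : ℝ) • u 13 - u 12) = (3 : ℝ) • u 12 := by
      module
    rw [e] at h3
    exact of_smul hS (by norm_num) h3
  have h13 : u 13 ∈ S := by
    have h3 := S.add_mem h1 (S.smul_mem 2 h2)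
    have e : ((2 : ℝ) • u 12 - u 13) + (2 : ℝ) • ((2 : ℝ) • u 13 - u 12) = (3 : ℝ) • u 13 := by
      module
    rw [e] at h3
    exact of_smul hS (by norm_num) h3
  intro p
  have hp : p = ∑ i, p i • u i := by
    funext j
    simp [u, Finset.sum_apply, Pi.single_apply]
  rw [hp]
  refine S.sum_mem fun i _ => S.smul_mem _ ?_
  by_cases hi : i.val < 12
  · exact ha i hi
  · have : i = 12 ∨ i = 13 := by
      have := i.isLt
      rcases Nat.lt_or_ge i.val 13 with h | h
      · left; exact Fin.ext (by simpa using (by omega : i.val = 12))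
      · right; exact Fin.ext (by simpa using (by omega : i.val = 13))
    rcases this with rfl | rfl
    · exact h12
    · exact h13

theorem simple_p (hφ : ∀ (φ : ℝ → ℝ), ∀ p ∈ S, (fun k => φ (lm k) * p k) ∈ S) :
    S = ⊥ ∨ ∀ p, p ∈ S := by
  by_cases h : ∃ p ∈ S, p ≠ 0
  · right
    obtain ⟨p, hp, hp0⟩ := h
    by_cases h1 : ∃ k : Fin 14, k.val < 12 ∧ p k ≠ 0
    · obtain ⟨k, hk, hk0⟩ := h1
      exact top_of_root hS hk (proj hS hφ hp hk hk0)
    · push Not at h1
      have e1 : brk p (u 0) = p 12 • u 0 := by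
        funext i
        fin_cases i <;> simp [brk, u, Pi.single_apply, h1 0 (by decide), h1 1 (by decide),
          h1 2 (by decide), h1 3 (by decide), h1 4 (by decide), h1 5 (by decide),
          h1 6 (by decide), h1 7 (by decide), h1 8 (by decide), h1 9 (by decide),
          h1 10 (by decide), h1 11 (by decide)]
      have e2 : brk p (u 1) = p 13 • u 1 := by
        funext i
        fin_cases i <;> simp [brk, u, Pi.single_apply, h1 0 (by decide), h1 1 (by decide),
          h1 2 (by decide), h1 3 (by decide), h1 4 (by decide), h1 5 (by decide),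
          h1 6 (by decide), h1 7 (by decide), h1 8 (by decide), h1 9 (by decide),
          h1 10 (by decide), h1 11 (by decide)]
      have anti : ∀ q : Fin 14 → ℝ, brk p q = -brk q p := by
        intro q
        funext i
        fin_cases i <;> simp [brk] <;> ring
      have m1 : ∀ q, brk p q ∈ S := fun q => by
        rw [anti]; exact S.neg_mem (hS p hp q)
      by_cases h12 : p 12 = 0
      · by_cases h13 : p 13 = 0
        · exfalso
          apply hp0
          funext i
          by_cases hi : i.val < 12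
          · exact h1 i hi
          · have : i = 12 ∨ i = 13 := by
              have := i.isLt
              rcases Nat.lt_or_ge i.val 13 with h | h
              · left; exact Fin.ext (by simpa using (by omega : i.val = 12))
              · right; exact Fin.ext (by simpa using (by omega : i.val = 13))
            rcases this with rfl | rfl
            · exact h12
            · exact h13
        · have h3 : p 13 • u 1 ∈ S := e2 ▸ m1 (u 1)
          exact top_of_root hS (k := 1) (by decide) (of_smul hS h13 h3)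
      · have h3 : p 12 • u 0 ∈ S := e1 ▸ m1 (u 0)
        exact top_of_root hS (k := 0) (by decide) (of_smul hS h12 h3)
  · left
    push Not at h
    rw [Submodule.eq_bot_iff]
    exact h

end ideal

/-- the Lie algebra of derivations of the split octonions is simple -/
theorem irr : IrrLA (autL oct) := by
  intro S hS hb
  obtain ⟨S', hS'⟩ : ∃ S' : Submodule ℝ (Fin 14 → ℝ), S' = S.comap gmL := ⟨_, rfl⟩
  have hm : ∀ p, p ∈ S' ↔ gm p ∈ S := by
    intro p; rw [hS']; exact Iff.rfl
  have h1 : ∀ p ∈ S', ∀ q, brk q p ∈ S' := by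
    intro p hp q
    rw [hm] at hp ⊢
    rw [← gm_br]
    exact hb _ hp _ (la_aut.2 ⟨q, rfl⟩)
  have h2 : ∀ (φ : ℝ → ℝ), ∀ p ∈ S', (fun k => φ (lm k) * p k) ∈ S' := by
    intro φ p hp
    rw [hm] at hp ⊢
    rw [← had_gm]
    refine H720.Re.had_mem' (fun X hX => ?_) φ _ hp
    rw [diag_hh]
    exact hb _ hX _ (la_aut.2 ⟨_, rfl⟩)
  rcases simple_p h1 h2 with h3 | h3
  · left
    rw [Submodule.eq_bot_iff]
    intro X hX
    obtain ⟨p, rfl⟩ := la_aut.1 (hS X hX)
    have h4 : p ∈ S' := (hm p).2 hX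
    rw [h3, Submodule.mem_bot] at h4
    rw [h4]
    exact gmL.map_zero
  · right
    intro X hX
    obtain ⟨p, rfl⟩ := la_aut.1 hX
    exact (hm p).1 (h3 p)

/-- the split real group of type `G₂`: the identity component of the automorphism group of the
split octonions -/
abbrev G2 : Type := Cmp (autL oct)

/-- **[RE-EX]** the split real group of type `G₂` is in the class `RS0`. -/
theorem rs_G2 : RS0 (inc (autL oct)) := by
  refine rs_comp _ (isClosed_autL oct) (fun g hg => aut_transpose hg) irr ?_ ?_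
  · refine ⟨gm (u 12), la_aut.2 ⟨_, rfl⟩, ?_, ?_⟩
    · ext i j
      rw [Matrix.transpose_apply]
      fin_cases i <;> fin_cases j <;> simp [gm, u, Pi.single_apply]
    · intro h
      have h1 := congrFun (congrFun h 2) 2
      simp [gm, u] at h1
  · refine ⟨gm (u 12), gm (u 0), la_aut.2 ⟨_, rfl⟩, la_aut.2 ⟨_, rfl⟩, ?_⟩
    intro h
    have h1 : gm (brk (u 12) (u 0)) = 0 := by rw [← gm_br, h, sub_self]
    have h2 := congrFun (congrFun h1 2) 0
    simp [gm, brk, u, Pi.single_apply] at h2

end Vale.Agent.P092.H41.Re.G2
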