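import Vale.Agent.P092.H41.Re.Aut

/-!
P092, project RE, row [RE-EX] (helper41), part 4: the split octonions and their derivations.
(The entrywise verifications are generated.)
-/

set_option linter.all false

open Matrix Filter Topology

namespace Vale.Agent.P092.H41.Re.G2

open Vale.Agent.P092.H793.Re

/-- Left multiplication in the split octonions: `x = (x 0, u; v, x 1)` with `u = (x 2, x 3, x 4)`,
`v = (x 5, x 6, x 7)` (Zorn's vector matrices, product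
`(a, u; v, b)(a', u'; v', b') = (aa' + u.v', au' + b'u - v × v'; a'v + bv' + u × u', bb' + v.u')`). -/
def om (x : Fin 8 → ℝ) : Mat 8 :=
  !![x 0, 0, 0, 0, 0, x 2, x 3, x 4;
     0, x 1, x 5, x 6, x 7, 0, 0, 0;
     0, x 2, x 0, 0, 0, 0, x 7, -x 6;
     0, x 3, 0, x 0, 0, -x 7, 0, x 5;
     0, x 4, 0, 0, x 0, x 6, -x 5, 0;
     x 5, 0, 0, -x 4, x 3, x 1, 0, 0;
     x 6, 0, x 4, 0, -x 2, 0, x 1, 0;
     x 7, 0, -x 3, x 2, 0, 0, 0, x 1]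

/-- the elements of the Lie algebra -/
def gm (p : Fin 14 → ℝ) : Mat 8 :=
  !![0, 0, p 3, p 4, p 5, -p 0, -p 1, -p 2;
     0, 0, -p 3, -p 4, -p 5, p 0, p 1, p 2;
     p 0, -p 0, p 12, p 6, p 7, 0, p 5, -p 4;
     p 1, -p 1, p 8, p 13, p 9, -p 5, 0, p 3;
     p 2, -p 2, p 10, p 11, -p 12 - p 13, p 4, -p 3, 0;
     -p 3, p 3, 0, -p 2, p 1, -p 12, -p 8, -p 10;
     -p 4, p 4, p 2, 0, -p 0, -p 6, -p 13, -p 11;
     -p 5, p 5, -p 1, p 0, 0, -p 7, -p 9, p 12 + p 13]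

/-- the bracket -/
def brk (p q : Fin 14 → ℝ) : Fin 14 → ℝ :=
  ![- (p 0 * q 12) - (p 1 * q 6) - (p 2 * q 7) + 2 * (p 4 * q 5) - 2 * (p 5 * q 4) + (p 6 * q 1) + (p 7 * q 2) + (p 12 * q 0),
    - (p 0 * q 8) - (p 1 * q 13) - (p 2 * q 9) - 2 * (p 3 * q 5) + 2 * (p 5 * q 3) + (p 8 * q 0) + (p 9 * q 2) + (p 13 * q 1),
    - (p 0 * q 10) - (p 1 * q 11) + (p 2 * q 12) + (p 2 * q 13) + 2 * (p 3 * q 4) - 2 * (p 4 * q 3) + (p 10 * q 0) + (p 11 * q 1) - (p 12 * q 2) - (p 13 * q 2),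
    - 2 * (p 1 * q 2) + 2 * (p 2 * q 1) + (p 3 * q 12) + (p 4 * q 8) + (p 5 * q 10) - (p 8 * q 4) - (p 10 * q 5) - (p 12 * q 3),
    2 * (p 0 * q 2) - 2 * (p 2 * q 0) + (p 3 * q 6) + (p 4 * q 13) + (p 5 * q 11) - (p 6 * q 3) - (p 11 * q 5) - (p 13 * q 4),
    - 2 * (p 0 * q 1) + 2 * (p 1 * q 0) + (p 3 * q 7) + (p 4 * q 9) - (p 5 * q 12) - (p 5 * q 13) - (p 7 * q 3) - (p 9 * q 4) + (p 12 * q 5) + (p 13 * q 5),
    3 * (p 0 * q 4) - 3 * (p 4 * q 0) - (p 6 * q 12) + (p 6 * q 13) + (p 7 * q 11) - (p 11 * q 7) + (p 12 * q 6) - (p 13 * q 6),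
    3 * (p 0 * q 5) - 3 * (p 5 * q 0) + (p 6 * q 9) - 2 * (p 7 * q 12) - (p 7 * q 13) - (p 9 * q 6) + 2 * (p 12 * q 7) + (p 13 * q 7),
    3 * (p 1 * q 3) - 3 * (p 3 * q 1) + (p 8 * q 12) - (p 8 * q 13) + (p 9 * q 10) - (p 10 * q 9) - (p 12 * q 8) + (p 13 * q 8),
    3 * (p 1 * q 5) - 3 * (p 5 * q 1) - (p 7 * q 8) + (p 8 * q 7) - (p 9 * q 12) - 2 * (p 9 * q 13) + (p 12 * q 9) + 2 * (p 13 * q 9),
    3 * (p 2 * q 3) - 3 * (p 3 * q 2) - (p 8 * q 11) + 2 * (p 10 * q 12) + (p 10 * q 13) + (p 11 * q 8) - 2 * (p 12 * q 10) - (p 13 * q 10),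
    3 * (p 2 * q 4) - 3 * (p 4 * q 2) - (p 6 * q 10) + (p 10 * q 6) + (p 11 * q 12) + 2 * (p 11 * q 13) - (p 12 * q 11) - 2 * (p 13 * q 11),
    2 * (p 0 * q 3) - (p 1 * q 4) - (p 2 * q 5) - 2 * (p 3 * q 0) + (p 4 * q 1) + (p 5 * q 2) + (p 6 * q 8) + (p 7 * q 10) - (p 8 * q 6) - (p 10 * q 7),
    - (p 0 * q 3) + 2 * (p 1 * q 4) - (p 2 * q 5) + (p 3 * q 0) - 2 * (p 4 * q 1) + (p 5 * q 2) - (p 6 * q 8) + (p 8 * q 6) + (p 9 * q 11) - (p 11 * q 9)]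

theorem om_add (x y : Fin 8 → ℝ) : om (x + y) = om x + om y := by
  ext i j
  fin_cases i <;> fin_cases j
  · change ((x 0 + y 0) : ℝ) =
      x 0 + y 0
    ring
  · change (0 : ℝ) =
      0 + 0
    ring
  · change (0 : ℝ) =
      0 + 0
    ring
  · change (0 : ℝ) =
      0 + 0
    ring
  · change (0 : ℝ) =
      0 + 0
    ring
  · change ((x 2 + y 2) : ℝ) =
      x 2 + y 2
    ring
  · change ((x 3 + y 3) : ℝ) =
      x 3 + y 3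
    ring
  · change ((x 4 + y 4) : ℝ) =
      x 4 + y 4
    ring
  · change (0 : ℝ) =
      0 + 0
    ring
  · change ((x 1 + y 1) : ℝ) =
      x 1 + y 1
    ring
  · change ((x 5 + y 5) : ℝ) =
      x 5 + y 5
    ring
  · change ((x 6 + y 6) : ℝ) =
      x 6 + y 6
    ring
  · change ((x 7 + y 7) : ℝ) =
      x 7 + y 7
    ring
  · change (0 : ℝ) =
      0 + 0
    ring
  · change (0 : ℝ) =
      0 + 0
    ring
  · change (0 : ℝ) =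
      0 + 0
    ring
  · change (0 : ℝ) =
      0 + 0
    ring
  · change ((x 2 + y 2) : ℝ) =
      x 2 + y 2
    ring
  · change ((x 0 + y 0) : ℝ) =
      x 0 + y 0
    ring
  · change (0 : ℝ) =
      0 + 0
    ring
  · change (0 : ℝ) =
      0 + 0
    ring
  · change (0 : ℝ) =
      0 + 0
    ring
  · change ((x 7 + y 7) : ℝ) =
      x 7 + y 7
    ring
  · change (-(x 6 + y 6) : ℝ) =
      (-x 6) + (-y 6)
    ring
  · change (0 : ℝ) =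
      0 + 0
    ring
  · change ((x 3 + y 3) : ℝ) =
      x 3 + y 3
    ring
  · change (0 : ℝ) =
      0 + 0
    ring
  · change ((x 0 + y 0) : ℝ) =
      x 0 + y 0
    ring
  · change (0 : ℝ) =
      0 + 0
    ring
  · change (-(x 7 + y 7) : ℝ) =
      (-x 7) + (-y 7)
    ring
  · change (0 : ℝ) =
      0 + 0
    ring
  · change ((x 5 + y 5) : ℝ) =
      x 5 + y 5
    ring
  · change (0 : ℝ) =
      0 + 0
    ring
  · change ((x 4 + y 4) : ℝ) =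
      x 4 + y 4
    ring
  · change (0 : ℝ) =
      0 + 0
    ring
  · change (0 : ℝ) =
      0 + 0
    ring
  · change ((x 0 + y 0) : ℝ) =
      x 0 + y 0
    ring
  · change ((x 6 + y 6) : ℝ) =
      x 6 + y 6
    ring
  · change (-(x 5 + y 5) : ℝ) =
      (-x 5) + (-y 5)
    ring
  · change (0 : ℝ) =
      0 + 0
    ring
  · change ((x 5 + y 5) : ℝ) =
      x 5 + y 5
    ring
  · change (0 : ℝ) =
      0 + 0
    ring
  · change (0 : ℝ) =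
      0 + 0
    ring
  · change (-(x 4 + y 4) : ℝ) =
      (-x 4) + (-y 4)
    ring
  · change ((x 3 + y 3) : ℝ) =
      x 3 + y 3
    ring
  · change ((x 1 + y 1) : ℝ) =
      x 1 + y 1
    ring
  · change (0 : ℝ) =
      0 + 0
    ring
  · change (0 : ℝ) =
      0 + 0
    ring
  · change ((x 6 + y 6) : ℝ) =
      x 6 + y 6
    ring
  · change (0 : ℝ) =
      0 + 0
    ring
  · change ((x 4 + y 4) : ℝ) =
      x 4 + y 4
    ring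
  · change (0 : ℝ) =
      0 + 0
    ring
  · change (-(x 2 + y 2) : ℝ) =
      (-x 2) + (-y 2)
    ring
  · change (0 : ℝ) =
      0 + 0
    ring
  · change ((x 1 + y 1) : ℝ) =
      x 1 + y 1
    ring
  · change (0 : ℝ) =
      0 + 0
    ring
  · change ((x 7 + y 7) : ℝ) =
      x 7 + y 7
    ring
  · change (0 : ℝ) =
      0 + 0
    ring
  · change (-(x 3 + y 3) : ℝ) =
      (-x 3) + (-y 3)
    ring
  · change ((x 2 + y 2) : ℝ) =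
      x 2 + y 2
    ring
  · change (0 : ℝ) =
      0 + 0
    ring
  · change (0 : ℝ) =
      0 + 0
    ring
  · change (0 : ℝ) =
      0 + 0
    ring
  · change ((x 1 + y 1) : ℝ) =
      x 1 + y 1
    ring

theorem om_smul (c : ℝ) (x : Fin 8 → ℝ) : om (c • x) = c • om x := by
  ext i j
  fin_cases i <;> fin_cases j
  · change ((c * x 0) : ℝ) =
      c * x 0
    ring
  · change (0 : ℝ) =
      c * 0
    ring
  · change (0 : ℝ) =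
      c * 0
    ring
  · change (0 : ℝ) =
      c * 0
    ring
  · change (0 : ℝ) =
      c * 0
    ring
  · change ((c * x 2) : ℝ) =
      c * x 2
    ring
  · change ((c * x 3) : ℝ) =
      c * x 3
    ring
  · change ((c * x 4) : ℝ) =
      c * x 4
    ring
  · change (0 : ℝ) =
      c * 0
    ring
  · change ((c * x 1) : ℝ) =
      c * x 1
    ring
  · change ((c * x 5) : ℝ) =
      c * x 5
    ring
  · change ((c * x 6) : ℝ) =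
      c * x 6
    ring
  · change ((c * x 7) : ℝ) =
      c * x 7
    ring
  · change (0 : ℝ) =
      c * 0
    ring
  · change (0 : ℝ) =
      c * 0
    ring
  · change (0 : ℝ) =
      c * 0
    ring
  · change (0 : ℝ) =
      c * 0
    ring
  · change ((c * x 2) : ℝ) =
      c * x 2
    ring
  · change ((c * x 0) : ℝ) =
      c * x 0
    ring
  · change (0 : ℝ) =
      c * 0
    ring
  · change (0 : ℝ) =
      c * 0
    ring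
  · change (0 : ℝ) =
      c * 0
    ring
  · change ((c * x 7) : ℝ) =
      c * x 7
    ring
  · change (-(c * x 6) : ℝ) =
      c * (-x 6)
    ring
  · change (0 : ℝ) =
      c * 0
    ring
  · change ((c * x 3) : ℝ) =
      c * x 3
    ring
  · change (0 : ℝ) =
      c * 0
    ring
  · change ((c * x 0) : ℝ) =
      c * x 0
    ring
  · change (0 : ℝ) =
      c * 0
    ring
  · change (-(c * x 7) : ℝ) =
      c * (-x 7)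
    ring
  · change (0 : ℝ) =
      c * 0
    ring
  · change ((c * x 5) : ℝ) =
      c * x 5
    ring
  · change (0 : ℝ) =
      c * 0
    ring
  · change ((c * x 4) : ℝ) =
      c * x 4
    ring
  · change (0 : ℝ) =
      c * 0
    ring
  · change (0 : ℝ) =
      c * 0
    ring
  · change ((c * x 0) : ℝ) =
      c * x 0
    ring
  · change ((c * x 6) : ℝ) =
      c * x 6
    ring
  · change (-(c * x 5) : ℝ) =
      c * (-x 5)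
    ring
  · change (0 : ℝ) =
      c * 0
    ring
  · change ((c * x 5) : ℝ) =
      c * x 5
    ring
  · change (0 : ℝ) =
      c * 0
    ring
  · change (0 : ℝ) =
      c * 0
    ring
  · change (-(c * x 4) : ℝ) =
      c * (-x 4)
    ring
  · change ((c * x 3) : ℝ) =
      c * x 3
    ring
  · change ((c * x 1) : ℝ) =
      c * x 1
    ring
  · change (0 : ℝ) =
      c * 0
    ring
  · change (0 : ℝ) =
      c * 0
    ring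
  · change ((c * x 6) : ℝ) =
      c * x 6
    ring
  · change (0 : ℝ) =
      c * 0
    ring
  · change ((c * x 4) : ℝ) =
      c * x 4
    ring
  · change (0 : ℝ) =
      c * 0
    ring
  · change (-(c * x 2) : ℝ) =
      c * (-x 2)
    ring
  · change (0 : ℝ) =
      c * 0
    ring
  · change ((c * x 1) : ℝ) =
      c * x 1
    ring
  · change (0 : ℝ) =
      c * 0
    ring
  · change ((c * x 7) : ℝ) =
      c * x 7
    ring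
  · change (0 : ℝ) =
      c * 0
    ring
  · change (-(c * x 3) : ℝ) =
      c * (-x 3)
    ring
  · change ((c * x 2) : ℝ) =
      c * x 2
    ring
  · change (0 : ℝ) =
      c * 0
    ring
  · change (0 : ℝ) =
      c * 0
    ring
  · change (0 : ℝ) =
      c * 0
    ring
  · change ((c * x 1) : ℝ) =
      c * x 1
    ring

theorem gm_add (p q : Fin 14 → ℝ) : gm (p + q) = gm p + gm q := by
  ext i j
  fin_cases i <;> fin_cases j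
  · change (0 : ℝ) =
      0 + 0
    ring
  · change (0 : ℝ) =
      0 + 0
    ring
  · change ((p 3 + q 3) : ℝ) =
      p 3 + q 3
    ring
  · change ((p 4 + q 4) : ℝ) =
      p 4 + q 4
    ring
  · change ((p 5 + q 5) : ℝ) =
      p 5 + q 5
    ring
  · change (-(p 0 + q 0) : ℝ) =
      (-p 0) + (-q 0)
    ring
  · change (-(p 1 + q 1) : ℝ) =
      (-p 1) + (-q 1)
    ring
  · change (-(p 2 + q 2) : ℝ) =
      (-p 2) + (-q 2)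
    ring
  · change (0 : ℝ) =
      0 + 0
    ring
  · change (0 : ℝ) =
      0 + 0
    ring
  · change (-(p 3 + q 3) : ℝ) =
      (-p 3) + (-q 3)
    ring
  · change (-(p 4 + q 4) : ℝ) =
      (-p 4) + (-q 4)
    ring
  · change (-(p 5 + q 5) : ℝ) =
      (-p 5) + (-q 5)
    ring
  · change ((p 0 + q 0) : ℝ) =
      p 0 + q 0
    ring
  · change ((p 1 + q 1) : ℝ) =
      p 1 + q 1
    ring
  · change ((p 2 + q 2) : ℝ) =
      p 2 + q 2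
    ring
  · change ((p 0 + q 0) : ℝ) =
      p 0 + q 0
    ring
  · change (-(p 0 + q 0) : ℝ) =
      (-p 0) + (-q 0)
    ring
  · change ((p 12 + q 12) : ℝ) =
      p 12 + q 12
    ring
  · change ((p 6 + q 6) : ℝ) =
      p 6 + q 6
    ring
  · change ((p 7 + q 7) : ℝ) =
      p 7 + q 7
    ring
  · change (0 : ℝ) =
      0 + 0
    ring
  · change ((p 5 + q 5) : ℝ) =
      p 5 + q 5
    ring
  · change (-(p 4 + q 4) : ℝ) =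
      (-p 4) + (-q 4)
    ring
  · change ((p 1 + q 1) : ℝ) =
      p 1 + q 1
    ring
  · change (-(p 1 + q 1) : ℝ) =
      (-p 1) + (-q 1)
    ring
  · change ((p 8 + q 8) : ℝ) =
      p 8 + q 8
    ring
  · change ((p 13 + q 13) : ℝ) =
      p 13 + q 13
    ring
  · change ((p 9 + q 9) : ℝ) =
      p 9 + q 9
    ring
  · change (-(p 5 + q 5) : ℝ) =
      (-p 5) + (-q 5)
    ring
  · change (0 : ℝ) =
      0 + 0
    ring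
  · change ((p 3 + q 3) : ℝ) =
      p 3 + q 3
    ring
  · change ((p 2 + q 2) : ℝ) =
      p 2 + q 2
    ring
  · change (-(p 2 + q 2) : ℝ) =
      (-p 2) + (-q 2)
    ring
  · change ((p 10 + q 10) : ℝ) =
      p 10 + q 10
    ring
  · change ((p 11 + q 11) : ℝ) =
      p 11 + q 11
    ring
  · change (-(p 12 + q 12) - (p 13 + q 13) : ℝ) =
      (-p 12 - p 13) + (-q 12 - q 13)
    ring
  · change ((p 4 + q 4) : ℝ) =
      p 4 + q 4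
    ring
  · change (-(p 3 + q 3) : ℝ) =
      (-p 3) + (-q 3)
    ring
  · change (0 : ℝ) =
      0 + 0
    ring
  · change (-(p 3 + q 3) : ℝ) =
      (-p 3) + (-q 3)
    ring
  · change ((p 3 + q 3) : ℝ) =
      p 3 + q 3
    ring
  · change (0 : ℝ) =
      0 + 0
    ring
  · change (-(p 2 + q 2) : ℝ) =
      (-p 2) + (-q 2)
    ring
  · change ((p 1 + q 1) : ℝ) =
      p 1 + q 1
    ring
  · change (-(p 12 + q 12) : ℝ) =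
      (-p 12) + (-q 12)
    ring
  · change (-(p 8 + q 8) : ℝ) =
      (-p 8) + (-q 8)
    ring
  · change (-(p 10 + q 10) : ℝ) =
      (-p 10) + (-q 10)
    ring
  · change (-(p 4 + q 4) : ℝ) =
      (-p 4) + (-q 4)
    ring
  · change ((p 4 + q 4) : ℝ) =
      p 4 + q 4
    ring
  · change ((p 2 + q 2) : ℝ) =
      p 2 + q 2
    ring
  · change (0 : ℝ) =
      0 + 0
    ring
  · change (-(p 0 + q 0) : ℝ) =
      (-p 0) + (-q 0)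
    ring
  · change (-(p 6 + q 6) : ℝ) =
      (-p 6) + (-q 6)
    ring
  · change (-(p 13 + q 13) : ℝ) =
      (-p 13) + (-q 13)
    ring
  · change (-(p 11 + q 11) : ℝ) =
      (-p 11) + (-q 11)
    ring
  · change (-(p 5 + q 5) : ℝ) =
      (-p 5) + (-q 5)
    ring
  · change ((p 5 + q 5) : ℝ) =
      p 5 + q 5
    ring
  · change (-(p 1 + q 1) : ℝ) =
      (-p 1) + (-q 1)
    ring
  · change ((p 0 + q 0) : ℝ) =
      p 0 + q 0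
    ring
  · change (0 : ℝ) =
      0 + 0
    ring
  · change (-(p 7 + q 7) : ℝ) =
      (-p 7) + (-q 7)
    ring
  · change (-(p 9 + q 9) : ℝ) =
      (-p 9) + (-q 9)
    ring
  · change ((p 12 + q 12) + (p 13 + q 13) : ℝ) =
      (p 12 + p 13) + (q 12 + q 13)
    ring

theorem gm_smul (c : ℝ) (p : Fin 14 → ℝ) : gm (c • p) = c • gm p := by
  ext i j
  fin_cases i <;> fin_cases j
  · change (0 : ℝ) =
      c * 0
    ring
  · change (0 : ℝ) =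
      c * 0
    ring
  · change ((c * p 3) : ℝ) =
      c * p 3
    ring
  · change ((c * p 4) : ℝ) =
      c * p 4
    ring
  · change ((c * p 5) : ℝ) =
      c * p 5
    ring
  · change (-(c * p 0) : ℝ) =
      c * (-p 0)
    ring
  · change (-(c * p 1) : ℝ) =
      c * (-p 1)
    ring
  · change (-(c * p 2) : ℝ) =
      c * (-p 2)
    ring
  · change (0 : ℝ) =
      c * 0
    ring
  · change (0 : ℝ) =
      c * 0
    ring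
  · change (-(c * p 3) : ℝ) =
      c * (-p 3)
    ring
  · change (-(c * p 4) : ℝ) =
      c * (-p 4)
    ring
  · change (-(c * p 5) : ℝ) =
      c * (-p 5)
    ring
  · change ((c * p 0) : ℝ) =
      c * p 0
    ring
  · change ((c * p 1) : ℝ) =
      c * p 1
    ring
  · change ((c * p 2) : ℝ) =
      c * p 2
    ring
  · change ((c * p 0) : ℝ) =
      c * p 0
    ring
  · change (-(c * p 0) : ℝ) =
      c * (-p 0)
    ring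
  · change ((c * p 12) : ℝ) =
      c * p 12
    ring
  · change ((c * p 6) : ℝ) =
      c * p 6
    ring
  · change ((c * p 7) : ℝ) =
      c * p 7
    ring
  · change (0 : ℝ) =
      c * 0
    ring
  · change ((c * p 5) : ℝ) =
      c * p 5
    ring
  · change (-(c * p 4) : ℝ) =
      c * (-p 4)
    ring
  · change ((c * p 1) : ℝ) =
      c * p 1
    ring
  · change (-(c * p 1) : ℝ) =
      c * (-p 1)
    ring
  · change ((c * p 8) : ℝ) =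
      c * p 8
    ring
  · change ((c * p 13) : ℝ) =
      c * p 13
    ring
  · change ((c * p 9) : ℝ) =
      c * p 9
    ring
  · change (-(c * p 5) : ℝ) =
      c * (-p 5)
    ring
  · change (0 : ℝ) =
      c * 0
    ring
  · change ((c * p 3) : ℝ) =
      c * p 3
    ring
  · change ((c * p 2) : ℝ) =
      c * p 2
    ring
  · change (-(c * p 2) : ℝ) =
      c * (-p 2)
    ring
  · change ((c * p 10) : ℝ) =
      c * p 10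
    ring
  · change ((c * p 11) : ℝ) =
      c * p 11
    ring
  · change (-(c * p 12) - (c * p 13) : ℝ) =
      c * (-p 12 - p 13)
    ring
  · change ((c * p 4) : ℝ) =
      c * p 4
    ring
  · change (-(c * p 3) : ℝ) =
      c * (-p 3)
    ring
  · change (0 : ℝ) =
      c * 0
    ring
  · change (-(c * p 3) : ℝ) =
      c * (-p 3)
    ring
  · change ((c * p 3) : ℝ) =
      c * p 3
    ring
  · change (0 : ℝ) =
      c * 0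
    ring
  · change (-(c * p 2) : ℝ) =
      c * (-p 2)
    ring
  · change ((c * p 1) : ℝ) =
      c * p 1
    ring
  · change (-(c * p 12) : ℝ) =
      c * (-p 12)
    ring
  · change (-(c * p 8) : ℝ) =
      c * (-p 8)
    ring
  · change (-(c * p 10) : ℝ) =
      c * (-p 10)
    ring
  · change (-(c * p 4) : ℝ) =
      c * (-p 4)
    ring
  · change ((c * p 4) : ℝ) =
      c * p 4
    ring
  · change ((c * p 2) : ℝ) =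
      c * p 2
    ring
  · change (0 : ℝ) =
      c * 0
    ring
  · change (-(c * p 0) : ℝ) =
      c * (-p 0)
    ring
  · change (-(c * p 6) : ℝ) =
      c * (-p 6)
    ring
  · change (-(c * p 13) : ℝ) =
      c * (-p 13)
    ring
  · change (-(c * p 11) : ℝ) =
      c * (-p 11)
    ring
  · change (-(c * p 5) : ℝ) =
      c * (-p 5)
    ring
  · change ((c * p 5) : ℝ) =
      c * p 5
    ring
  · change (-(c * p 1) : ℝ) =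
      c * (-p 1)
    ring
  · change ((c * p 0) : ℝ) =
      c * p 0
    ring
  · change (0 : ℝ) =
      c * 0
    ring
  · change (-(c * p 7) : ℝ) =
      c * (-p 7)
    ring
  · change (-(c * p 9) : ℝ) =
      c * (-p 9)
    ring
  · change ((c * p 12) + (c * p 13) : ℝ) =
      c * (p 12 + p 13)
    ring

/-- left multiplication in the split octonions, as a linear map -/
def oct : (Fin 8 → ℝ) →ₗ[ℝ] Mat 8 where
  toFun := om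
  map_add' := om_add
  map_smul' := om_smul

/-- the elements of the Lie algebra, as a linear map -/
def gmL : (Fin 14 → ℝ) →ₗ[ℝ] Mat 8 where
  toFun := gm
  map_add' := gm_add
  map_smul' := gm_smul

theorem gm_br (p q : Fin 14 → ℝ) : gm p * gm q - gm q * gm p = gm (brk p q) := by
  ext i j
  rw [Matrix.sub_apply, Matrix.mul_apply, Matrix.mul_apply, Fin.sum_univ_eight,
    Fin.sum_univ_eight]
  fin_cases i <;> fin_cases j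
  · change (0 * 0 + 0 * 0 + p 3 * q 0 + p 4 * q 1 + p 5 * q 2 + (-p 0) * (-q 3) + (-p 1) * (-q 4) + (-p 2) * (-q 5) -
      (0 * 0 + 0 * 0 + q 3 * p 0 + q 4 * p 1 + q 5 * p 2 + (-q 0) * (-p 3) + (-q 1) * (-p 4) + (-q 2) * (-p 5)) : ℝ) =
      0
    ring
  · change (0 * 0 + 0 * 0 + p 3 * (-q 0) + p 4 * (-q 1) + p 5 * (-q 2) + (-p 0) * q 3 + (-p 1) * q 4 + (-p 2) * q 5 -
      (0 * 0 + 0 * 0 + q 3 * (-p 0) + q 4 * (-p 1) + q 5 * (-p 2) + (-q 0) * p 3 + (-q 1) * p 4 + (-q 2) * p 5) : ℝ) =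
      0
    ring
  · change (0 * q 3 + 0 * (-q 3) + p 3 * q 12 + p 4 * q 8 + p 5 * q 10 + (-p 0) * 0 + (-p 1) * q 2 + (-p 2) * (-q 1) -
      (0 * p 3 + 0 * (-p 3) + q 3 * p 12 + q 4 * p 8 + q 5 * p 10 + (-q 0) * 0 + (-q 1) * p 2 + (-q 2) * (-p 1)) : ℝ) =
      (- 2 * (p 1 * q 2) + 2 * (p 2 * q 1) + (p 3 * q 12) + (p 4 * q 8) + (p 5 * q 10) - (p 8 * q 4) - (p 10 * q 5) - (p 12 * q 3))
    ring
  · change (0 * q 4 + 0 * (-q 4) + p 3 * q 6 + p 4 * q 13 + p 5 * q 11 + (-p 0) * (-q 2) + (-p 1) * 0 + (-p 2) * q 0 -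
      (0 * p 4 + 0 * (-p 4) + q 3 * p 6 + q 4 * p 13 + q 5 * p 11 + (-q 0) * (-p 2) + (-q 1) * 0 + (-q 2) * p 0) : ℝ) =
      (2 * (p 0 * q 2) - 2 * (p 2 * q 0) + (p 3 * q 6) + (p 4 * q 13) + (p 5 * q 11) - (p 6 * q 3) - (p 11 * q 5) - (p 13 * q 4))
    ring
  · change (0 * q 5 + 0 * (-q 5) + p 3 * q 7 + p 4 * q 9 + p 5 * (-q 12 - q 13) + (-p 0) * q 1 + (-p 1) * (-q 0) + (-p 2) * 0 -
      (0 * p 5 + 0 * (-p 5) + q 3 * p 7 + q 4 * p 9 + q 5 * (-p 12 - p 13) + (-q 0) * p 1 + (-q 1) * (-p 0) + (-q 2) * 0) : ℝ) =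
      (- 2 * (p 0 * q 1) + 2 * (p 1 * q 0) + (p 3 * q 7) + (p 4 * q 9) - (p 5 * q 12) - (p 5 * q 13) - (p 7 * q 3) - (p 9 * q 4) + (p 12 * q 5) + (p 13 * q 5))
    ring
  · change (0 * (-q 0) + 0 * q 0 + p 3 * 0 + p 4 * (-q 5) + p 5 * q 4 + (-p 0) * (-q 12) + (-p 1) * (-q 6) + (-p 2) * (-q 7) -
      (0 * (-p 0) + 0 * p 0 + q 3 * 0 + q 4 * (-p 5) + q 5 * p 4 + (-q 0) * (-p 12) + (-q 1) * (-p 6) + (-q 2) * (-p 7)) : ℝ) =
      -(- (p 0 * q 12) - (p 1 * q 6) - (p 2 * q 7) + 2 * (p 4 * q 5) - 2 * (p 5 * q 4) + (p 6 * q 1) + (p 7 * q 2) + (p 12 * q 0))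
    ring
  · change (0 * (-q 1) + 0 * q 1 + p 3 * q 5 + p 4 * 0 + p 5 * (-q 3) + (-p 0) * (-q 8) + (-p 1) * (-q 13) + (-p 2) * (-q 9) -
      (0 * (-p 1) + 0 * p 1 + q 3 * p 5 + q 4 * 0 + q 5 * (-p 3) + (-q 0) * (-p 8) + (-q 1) * (-p 13) + (-q 2) * (-p 9)) : ℝ) =
      -(- (p 0 * q 8) - (p 1 * q 13) - (p 2 * q 9) - 2 * (p 3 * q 5) + 2 * (p 5 * q 3) + (p 8 * q 0) + (p 9 * q 2) + (p 13 * q 1))
    ring
  · change (0 * (-q 2) + 0 * q 2 + p 3 * (-q 4) + p 4 * q 3 + p 5 * 0 + (-p 0) * (-q 10) + (-p 1) * (-q 11) + (-p 2) * (q 12 + q 13) -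
      (0 * (-p 2) + 0 * p 2 + q 3 * (-p 4) + q 4 * p 3 + q 5 * 0 + (-q 0) * (-p 10) + (-q 1) * (-p 11) + (-q 2) * (p 12 + p 13)) : ℝ) =
      -(- (p 0 * q 10) - (p 1 * q 11) + (p 2 * q 12) + (p 2 * q 13) + 2 * (p 3 * q 4) - 2 * (p 4 * q 3) + (p 10 * q 0) + (p 11 * q 1) - (p 12 * q 2) - (p 13 * q 2))
    ring
  · change (0 * 0 + 0 * 0 + (-p 3) * q 0 + (-p 4) * q 1 + (-p 5) * q 2 + p 0 * (-q 3) + p 1 * (-q 4) + p 2 * (-q 5) -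
      (0 * 0 + 0 * 0 + (-q 3) * p 0 + (-q 4) * p 1 + (-q 5) * p 2 + q 0 * (-p 3) + q 1 * (-p 4) + q 2 * (-p 5)) : ℝ) =
      0
    ring
  · change (0 * 0 + 0 * 0 + (-p 3) * (-q 0) + (-p 4) * (-q 1) + (-p 5) * (-q 2) + p 0 * q 3 + p 1 * q 4 + p 2 * q 5 -
      (0 * 0 + 0 * 0 + (-q 3) * (-p 0) + (-q 4) * (-p 1) + (-q 5) * (-p 2) + q 0 * p 3 + q 1 * p 4 + q 2 * p 5) : ℝ) =
      0
    ring
  · change (0 * q 3 + 0 * (-q 3) + (-p 3) * q 12 + (-p 4) * q 8 + (-p 5) * q 10 + p 0 * 0 + p 1 * q 2 + p 2 * (-q 1) -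
      (0 * p 3 + 0 * (-p 3) + (-q 3) * p 12 + (-q 4) * p 8 + (-q 5) * p 10 + q 0 * 0 + q 1 * p 2 + q 2 * (-p 1)) : ℝ) =
      -(- 2 * (p 1 * q 2) + 2 * (p 2 * q 1) + (p 3 * q 12) + (p 4 * q 8) + (p 5 * q 10) - (p 8 * q 4) - (p 10 * q 5) - (p 12 * q 3))
    ring
  · change (0 * q 4 + 0 * (-q 4) + (-p 3) * q 6 + (-p 4) * q 13 + (-p 5) * q 11 + p 0 * (-q 2) + p 1 * 0 + p 2 * q 0 -
      (0 * p 4 + 0 * (-p 4) + (-q 3) * p 6 + (-q 4) * p 13 + (-q 5) * p 11 + q 0 * (-p 2) + q 1 * 0 + q 2 * p 0) : ℝ) =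
      -(2 * (p 0 * q 2) - 2 * (p 2 * q 0) + (p 3 * q 6) + (p 4 * q 13) + (p 5 * q 11) - (p 6 * q 3) - (p 11 * q 5) - (p 13 * q 4))
    ring
  · change (0 * q 5 + 0 * (-q 5) + (-p 3) * q 7 + (-p 4) * q 9 + (-p 5) * (-q 12 - q 13) + p 0 * q 1 + p 1 * (-q 0) + p 2 * 0 -
      (0 * p 5 + 0 * (-p 5) + (-q 3) * p 7 + (-q 4) * p 9 + (-q 5) * (-p 12 - p 13) + q 0 * p 1 + q 1 * (-p 0) + q 2 * 0) : ℝ) =
      -(- 2 * (p 0 * q 1) + 2 * (p 1 * q 0) + (p 3 * q 7) + (p 4 * q 9) - (p 5 * q 12) - (p 5 * q 13) - (p 7 * q 3) - (p 9 * q 4) + (p 12 * q 5) + (p 13 * q 5))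
    ring
  · change (0 * (-q 0) + 0 * q 0 + (-p 3) * 0 + (-p 4) * (-q 5) + (-p 5) * q 4 + p 0 * (-q 12) + p 1 * (-q 6) + p 2 * (-q 7) -
      (0 * (-p 0) + 0 * p 0 + (-q 3) * 0 + (-q 4) * (-p 5) + (-q 5) * p 4 + q 0 * (-p 12) + q 1 * (-p 6) + q 2 * (-p 7)) : ℝ) =
      (- (p 0 * q 12) - (p 1 * q 6) - (p 2 * q 7) + 2 * (p 4 * q 5) - 2 * (p 5 * q 4) + (p 6 * q 1) + (p 7 * q 2) + (p 12 * q 0))
    ring
  · change (0 * (-q 1) + 0 * q 1 + (-p 3) * q 5 + (-p 4) * 0 + (-p 5) * (-q 3) + p 0 * (-q 8) + p 1 * (-q 13) + p 2 * (-q 9) -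
      (0 * (-p 1) + 0 * p 1 + (-q 3) * p 5 + (-q 4) * 0 + (-q 5) * (-p 3) + q 0 * (-p 8) + q 1 * (-p 13) + q 2 * (-p 9)) : ℝ) =
      (- (p 0 * q 8) - (p 1 * q 13) - (p 2 * q 9) - 2 * (p 3 * q 5) + 2 * (p 5 * q 3) + (p 8 * q 0) + (p 9 * q 2) + (p 13 * q 1))
    ring
  · change (0 * (-q 2) + 0 * q 2 + (-p 3) * (-q 4) + (-p 4) * q 3 + (-p 5) * 0 + p 0 * (-q 10) + p 1 * (-q 11) + p 2 * (q 12 + q 13) -
      (0 * (-p 2) + 0 * p 2 + (-q 3) * (-p 4) + (-q 4) * p 3 + (-q 5) * 0 + q 0 * (-p 10) + q 1 * (-p 11) + q 2 * (p 12 + p 13)) : ℝ) =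
      (- (p 0 * q 10) - (p 1 * q 11) + (p 2 * q 12) + (p 2 * q 13) + 2 * (p 3 * q 4) - 2 * (p 4 * q 3) + (p 10 * q 0) + (p 11 * q 1) - (p 12 * q 2) - (p 13 * q 2))
    ring
  · change (p 0 * 0 + (-p 0) * 0 + p 12 * q 0 + p 6 * q 1 + p 7 * q 2 + 0 * (-q 3) + p 5 * (-q 4) + (-p 4) * (-q 5) -
      (q 0 * 0 + (-q 0) * 0 + q 12 * p 0 + q 6 * p 1 + q 7 * p 2 + 0 * (-p 3) + q 5 * (-p 4) + (-q 4) * (-p 5)) : ℝ) =
      (- (p 0 * q 12) - (p 1 * q 6) - (p 2 * q 7) + 2 * (p 4 * q 5) - 2 * (p 5 * q 4) + (p 6 * q 1) + (p 7 * q 2) + (p 12 * q 0))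
    ring
  · change (p 0 * 0 + (-p 0) * 0 + p 12 * (-q 0) + p 6 * (-q 1) + p 7 * (-q 2) + 0 * q 3 + p 5 * q 4 + (-p 4) * q 5 -
      (q 0 * 0 + (-q 0) * 0 + q 12 * (-p 0) + q 6 * (-p 1) + q 7 * (-p 2) + 0 * p 3 + q 5 * p 4 + (-q 4) * p 5) : ℝ) =
      -(- (p 0 * q 12) - (p 1 * q 6) - (p 2 * q 7) + 2 * (p 4 * q 5) - 2 * (p 5 * q 4) + (p 6 * q 1) + (p 7 * q 2) + (p 12 * q 0))
    ring
  · change (p 0 * q 3 + (-p 0) * (-q 3) + p 12 * q 12 + p 6 * q 8 + p 7 * q 10 + 0 * 0 + p 5 * q 2 + (-p 4) * (-q 1) -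
      (q 0 * p 3 + (-q 0) * (-p 3) + q 12 * p 12 + q 6 * p 8 + q 7 * p 10 + 0 * 0 + q 5 * p 2 + (-q 4) * (-p 1)) : ℝ) =
      (2 * (p 0 * q 3) - (p 1 * q 4) - (p 2 * q 5) - 2 * (p 3 * q 0) + (p 4 * q 1) + (p 5 * q 2) + (p 6 * q 8) + (p 7 * q 10) - (p 8 * q 6) - (p 10 * q 7))
    ring
  · change (p 0 * q 4 + (-p 0) * (-q 4) + p 12 * q 6 + p 6 * q 13 + p 7 * q 11 + 0 * (-q 2) + p 5 * 0 + (-p 4) * q 0 -
      (q 0 * p 4 + (-q 0) * (-p 4) + q 12 * p 6 + q 6 * p 13 + q 7 * p 11 + 0 * (-p 2) + q 5 * 0 + (-q 4) * p 0) : ℝ) =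
      (3 * (p 0 * q 4) - 3 * (p 4 * q 0) - (p 6 * q 12) + (p 6 * q 13) + (p 7 * q 11) - (p 11 * q 7) + (p 12 * q 6) - (p 13 * q 6))
    ring
  · change (p 0 * q 5 + (-p 0) * (-q 5) + p 12 * q 7 + p 6 * q 9 + p 7 * (-q 12 - q 13) + 0 * q 1 + p 5 * (-q 0) + (-p 4) * 0 -
      (q 0 * p 5 + (-q 0) * (-p 5) + q 12 * p 7 + q 6 * p 9 + q 7 * (-p 12 - p 13) + 0 * p 1 + q 5 * (-p 0) + (-q 4) * 0) : ℝ) =
      (3 * (p 0 * q 5) - 3 * (p 5 * q 0) + (p 6 * q 9) - 2 * (p 7 * q 12) - (p 7 * q 13) - (p 9 * q 6) + 2 * (p 12 * q 7) + (p 13 * q 7))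
    ring
  · change (p 0 * (-q 0) + (-p 0) * q 0 + p 12 * 0 + p 6 * (-q 5) + p 7 * q 4 + 0 * (-q 12) + p 5 * (-q 6) + (-p 4) * (-q 7) -
      (q 0 * (-p 0) + (-q 0) * p 0 + q 12 * 0 + q 6 * (-p 5) + q 7 * p 4 + 0 * (-p 12) + q 5 * (-p 6) + (-q 4) * (-p 7)) : ℝ) =
      0
    ring
  · change (p 0 * (-q 1) + (-p 0) * q 1 + p 12 * q 5 + p 6 * 0 + p 7 * (-q 3) + 0 * (-q 8) + p 5 * (-q 13) + (-p 4) * (-q 9) -
      (q 0 * (-p 1) + (-q 0) * p 1 + q 12 * p 5 + q 6 * 0 + q 7 * (-p 3) + 0 * (-p 8) + q 5 * (-p 13) + (-q 4) * (-p 9)) : ℝ) =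
      (- 2 * (p 0 * q 1) + 2 * (p 1 * q 0) + (p 3 * q 7) + (p 4 * q 9) - (p 5 * q 12) - (p 5 * q 13) - (p 7 * q 3) - (p 9 * q 4) + (p 12 * q 5) + (p 13 * q 5))
    ring
  · change (p 0 * (-q 2) + (-p 0) * q 2 + p 12 * (-q 4) + p 6 * q 3 + p 7 * 0 + 0 * (-q 10) + p 5 * (-q 11) + (-p 4) * (q 12 + q 13) -
      (q 0 * (-p 2) + (-q 0) * p 2 + q 12 * (-p 4) + q 6 * p 3 + q 7 * 0 + 0 * (-p 10) + q 5 * (-p 11) + (-q 4) * (p 12 + p 13)) : ℝ) =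
      -(2 * (p 0 * q 2) - 2 * (p 2 * q 0) + (p 3 * q 6) + (p 4 * q 13) + (p 5 * q 11) - (p 6 * q 3) - (p 11 * q 5) - (p 13 * q 4))
    ring
  · change (p 1 * 0 + (-p 1) * 0 + p 8 * q 0 + p 13 * q 1 + p 9 * q 2 + (-p 5) * (-q 3) + 0 * (-q 4) + p 3 * (-q 5) -
      (q 1 * 0 + (-q 1) * 0 + q 8 * p 0 + q 13 * p 1 + q 9 * p 2 + (-q 5) * (-p 3) + 0 * (-p 4) + q 3 * (-p 5)) : ℝ) =
      (- (p 0 * q 8) - (p 1 * q 13) - (p 2 * q 9) - 2 * (p 3 * q 5) + 2 * (p 5 * q 3) + (p 8 * q 0) + (p 9 * q 2) + (p 13 * q 1))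
    ring
  · change (p 1 * 0 + (-p 1) * 0 + p 8 * (-q 0) + p 13 * (-q 1) + p 9 * (-q 2) + (-p 5) * q 3 + 0 * q 4 + p 3 * q 5 -
      (q 1 * 0 + (-q 1) * 0 + q 8 * (-p 0) + q 13 * (-p 1) + q 9 * (-p 2) + (-q 5) * p 3 + 0 * p 4 + q 3 * p 5) : ℝ) =
      -(- (p 0 * q 8) - (p 1 * q 13) - (p 2 * q 9) - 2 * (p 3 * q 5) + 2 * (p 5 * q 3) + (p 8 * q 0) + (p 9 * q 2) + (p 13 * q 1))
    ring
  · change (p 1 * q 3 + (-p 1) * (-q 3) + p 8 * q 12 + p 13 * q 8 + p 9 * q 10 + (-p 5) * 0 + 0 * q 2 + p 3 * (-q 1) -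
      (q 1 * p 3 + (-q 1) * (-p 3) + q 8 * p 12 + q 13 * p 8 + q 9 * p 10 + (-q 5) * 0 + 0 * p 2 + q 3 * (-p 1)) : ℝ) =
      (3 * (p 1 * q 3) - 3 * (p 3 * q 1) + (p 8 * q 12) - (p 8 * q 13) + (p 9 * q 10) - (p 10 * q 9) - (p 12 * q 8) + (p 13 * q 8))
    ring
  · change (p 1 * q 4 + (-p 1) * (-q 4) + p 8 * q 6 + p 13 * q 13 + p 9 * q 11 + (-p 5) * (-q 2) + 0 * 0 + p 3 * q 0 -
      (q 1 * p 4 + (-q 1) * (-p 4) + q 8 * p 6 + q 13 * p 13 + q 9 * p 11 + (-q 5) * (-p 2) + 0 * 0 + q 3 * p 0) : ℝ) =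
      (- (p 0 * q 3) + 2 * (p 1 * q 4) - (p 2 * q 5) + (p 3 * q 0) - 2 * (p 4 * q 1) + (p 5 * q 2) - (p 6 * q 8) + (p 8 * q 6) + (p 9 * q 11) - (p 11 * q 9))
    ring
  · change (p 1 * q 5 + (-p 1) * (-q 5) + p 8 * q 7 + p 13 * q 9 + p 9 * (-q 12 - q 13) + (-p 5) * q 1 + 0 * (-q 0) + p 3 * 0 -
      (q 1 * p 5 + (-q 1) * (-p 5) + q 8 * p 7 + q 13 * p 9 + q 9 * (-p 12 - p 13) + (-q 5) * p 1 + 0 * (-p 0) + q 3 * 0) : ℝ) =
      (3 * (p 1 * q 5) - 3 * (p 5 * q 1) - (p 7 * q 8) + (p 8 * q 7) - (p 9 * q 12) - 2 * (p 9 * q 13) + (p 12 * q 9) + 2 * (p 13 * q 9))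
    ring
  · change (p 1 * (-q 0) + (-p 1) * q 0 + p 8 * 0 + p 13 * (-q 5) + p 9 * q 4 + (-p 5) * (-q 12) + 0 * (-q 6) + p 3 * (-q 7) -
      (q 1 * (-p 0) + (-q 1) * p 0 + q 8 * 0 + q 13 * (-p 5) + q 9 * p 4 + (-q 5) * (-p 12) + 0 * (-p 6) + q 3 * (-p 7)) : ℝ) =
      -(- 2 * (p 0 * q 1) + 2 * (p 1 * q 0) + (p 3 * q 7) + (p 4 * q 9) - (p 5 * q 12) - (p 5 * q 13) - (p 7 * q 3) - (p 9 * q 4) + (p 12 * q 5) + (p 13 * q 5))
    ring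
  · change (p 1 * (-q 1) + (-p 1) * q 1 + p 8 * q 5 + p 13 * 0 + p 9 * (-q 3) + (-p 5) * (-q 8) + 0 * (-q 13) + p 3 * (-q 9) -
      (q 1 * (-p 1) + (-q 1) * p 1 + q 8 * p 5 + q 13 * 0 + q 9 * (-p 3) + (-q 5) * (-p 8) + 0 * (-p 13) + q 3 * (-p 9)) : ℝ) =
      0
    ring
  · change (p 1 * (-q 2) + (-p 1) * q 2 + p 8 * (-q 4) + p 13 * q 3 + p 9 * 0 + (-p 5) * (-q 10) + 0 * (-q 11) + p 3 * (q 12 + q 13) -
      (q 1 * (-p 2) + (-q 1) * p 2 + q 8 * (-p 4) + q 13 * p 3 + q 9 * 0 + (-q 5) * (-p 10) + 0 * (-p 11) + q 3 * (p 12 + p 13)) : ℝ) =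
      (- 2 * (p 1 * q 2) + 2 * (p 2 * q 1) + (p 3 * q 12) + (p 4 * q 8) + (p 5 * q 10) - (p 8 * q 4) - (p 10 * q 5) - (p 12 * q 3))
    ring
  · change (p 2 * 0 + (-p 2) * 0 + p 10 * q 0 + p 11 * q 1 + (-p 12 - p 13) * q 2 + p 4 * (-q 3) + (-p 3) * (-q 4) + 0 * (-q 5) -
      (q 2 * 0 + (-q 2) * 0 + q 10 * p 0 + q 11 * p 1 + (-q 12 - q 13) * p 2 + q 4 * (-p 3) + (-q 3) * (-p 4) + 0 * (-p 5)) : ℝ) =
      (- (p 0 * q 10) - (p 1 * q 11) + (p 2 * q 12) + (p 2 * q 13) + 2 * (p 3 * q 4) - 2 * (p 4 * q 3) + (p 10 * q 0) + (p 11 * q 1) - (p 12 * q 2) - (p 13 * q 2))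
    ring
  · change (p 2 * 0 + (-p 2) * 0 + p 10 * (-q 0) + p 11 * (-q 1) + (-p 12 - p 13) * (-q 2) + p 4 * q 3 + (-p 3) * q 4 + 0 * q 5 -
      (q 2 * 0 + (-q 2) * 0 + q 10 * (-p 0) + q 11 * (-p 1) + (-q 12 - q 13) * (-p 2) + q 4 * p 3 + (-q 3) * p 4 + 0 * p 5) : ℝ) =
      -(- (p 0 * q 10) - (p 1 * q 11) + (p 2 * q 12) + (p 2 * q 13) + 2 * (p 3 * q 4) - 2 * (p 4 * q 3) + (p 10 * q 0) + (p 11 * q 1) - (p 12 * q 2) - (p 13 * q 2))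
    ring
  · change (p 2 * q 3 + (-p 2) * (-q 3) + p 10 * q 12 + p 11 * q 8 + (-p 12 - p 13) * q 10 + p 4 * 0 + (-p 3) * q 2 + 0 * (-q 1) -
      (q 2 * p 3 + (-q 2) * (-p 3) + q 10 * p 12 + q 11 * p 8 + (-q 12 - q 13) * p 10 + q 4 * 0 + (-q 3) * p 2 + 0 * (-p 1)) : ℝ) =
      (3 * (p 2 * q 3) - 3 * (p 3 * q 2) - (p 8 * q 11) + 2 * (p 10 * q 12) + (p 10 * q 13) + (p 11 * q 8) - 2 * (p 12 * q 10) - (p 13 * q 10))
    ring
  · change (p 2 * q 4 + (-p 2) * (-q 4) + p 10 * q 6 + p 11 * q 13 + (-p 12 - p 13) * q 11 + p 4 * (-q 2) + (-p 3) * 0 + 0 * q 0 -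
      (q 2 * p 4 + (-q 2) * (-p 4) + q 10 * p 6 + q 11 * p 13 + (-q 12 - q 13) * p 11 + q 4 * (-p 2) + (-q 3) * 0 + 0 * p 0) : ℝ) =
      (3 * (p 2 * q 4) - 3 * (p 4 * q 2) - (p 6 * q 10) + (p 10 * q 6) + (p 11 * q 12) + 2 * (p 11 * q 13) - (p 12 * q 11) - 2 * (p 13 * q 11))
    ring
  · change (p 2 * q 5 + (-p 2) * (-q 5) + p 10 * q 7 + p 11 * q 9 + (-p 12 - p 13) * (-q 12 - q 13) + p 4 * q 1 + (-p 3) * (-q 0) + 0 * 0 -
      (q 2 * p 5 + (-q 2) * (-p 5) + q 10 * p 7 + q 11 * p 9 + (-q 12 - q 13) * (-p 12 - p 13) + q 4 * p 1 + (-q 3) * (-p 0) + 0 * 0) : ℝ) =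
      -(2 * (p 0 * q 3) - (p 1 * q 4) - (p 2 * q 5) - 2 * (p 3 * q 0) + (p 4 * q 1) + (p 5 * q 2) + (p 6 * q 8) + (p 7 * q 10) - (p 8 * q 6) - (p 10 * q 7)) - (- (p 0 * q 3) + 2 * (p 1 * q 4) - (p 2 * q 5) + (p 3 * q 0) - 2 * (p 4 * q 1) + (p 5 * q 2) - (p 6 * q 8) + (p 8 * q 6) + (p 9 * q 11) - (p 11 * q 9))
    ring
  · change (p 2 * (-q 0) + (-p 2) * q 0 + p 10 * 0 + p 11 * (-q 5) + (-p 12 - p 13) * q 4 + p 4 * (-q 12) + (-p 3) * (-q 6) + 0 * (-q 7) -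
      (q 2 * (-p 0) + (-q 2) * p 0 + q 10 * 0 + q 11 * (-p 5) + (-q 12 - q 13) * p 4 + q 4 * (-p 12) + (-q 3) * (-p 6) + 0 * (-p 7)) : ℝ) =
      (2 * (p 0 * q 2) - 2 * (p 2 * q 0) + (p 3 * q 6) + (p 4 * q 13) + (p 5 * q 11) - (p 6 * q 3) - (p 11 * q 5) - (p 13 * q 4))
    ring
  · change (p 2 * (-q 1) + (-p 2) * q 1 + p 10 * q 5 + p 11 * 0 + (-p 12 - p 13) * (-q 3) + p 4 * (-q 8) + (-p 3) * (-q 13) + 0 * (-q 9) -
      (q 2 * (-p 1) + (-q 2) * p 1 + q 10 * p 5 + q 11 * 0 + (-q 12 - q 13) * (-p 3) + q 4 * (-p 8) + (-q 3) * (-p 13) + 0 * (-p 9)) : ℝ) =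
      -(- 2 * (p 1 * q 2) + 2 * (p 2 * q 1) + (p 3 * q 12) + (p 4 * q 8) + (p 5 * q 10) - (p 8 * q 4) - (p 10 * q 5) - (p 12 * q 3))
    ring
  · change (p 2 * (-q 2) + (-p 2) * q 2 + p 10 * (-q 4) + p 11 * q 3 + (-p 12 - p 13) * 0 + p 4 * (-q 10) + (-p 3) * (-q 11) + 0 * (q 12 + q 13) -
      (q 2 * (-p 2) + (-q 2) * p 2 + q 10 * (-p 4) + q 11 * p 3 + (-q 12 - q 13) * 0 + q 4 * (-p 10) + (-q 3) * (-p 11) + 0 * (p 12 + p 13)) : ℝ) =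
      0
    ring
  · change ((-p 3) * 0 + p 3 * 0 + 0 * q 0 + (-p 2) * q 1 + p 1 * q 2 + (-p 12) * (-q 3) + (-p 8) * (-q 4) + (-p 10) * (-q 5) -
      ((-q 3) * 0 + q 3 * 0 + 0 * p 0 + (-q 2) * p 1 + q 1 * p 2 + (-q 12) * (-p 3) + (-q 8) * (-p 4) + (-q 10) * (-p 5)) : ℝ) =
      -(- 2 * (p 1 * q 2) + 2 * (p 2 * q 1) + (p 3 * q 12) + (p 4 * q 8) + (p 5 * q 10) - (p 8 * q 4) - (p 10 * q 5) - (p 12 * q 3))
    ring
  · change ((-p 3) * 0 + p 3 * 0 + 0 * (-q 0) + (-p 2) * (-q 1) + p 1 * (-q 2) + (-p 12) * q 3 + (-p 8) * q 4 + (-p 10) * q 5 -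
      ((-q 3) * 0 + q 3 * 0 + 0 * (-p 0) + (-q 2) * (-p 1) + q 1 * (-p 2) + (-q 12) * p 3 + (-q 8) * p 4 + (-q 10) * p 5) : ℝ) =
      (- 2 * (p 1 * q 2) + 2 * (p 2 * q 1) + (p 3 * q 12) + (p 4 * q 8) + (p 5 * q 10) - (p 8 * q 4) - (p 10 * q 5) - (p 12 * q 3))
    ring
  · change ((-p 3) * q 3 + p 3 * (-q 3) + 0 * q 12 + (-p 2) * q 8 + p 1 * q 10 + (-p 12) * 0 + (-p 8) * q 2 + (-p 10) * (-q 1) -
      ((-q 3) * p 3 + q 3 * (-p 3) + 0 * p 12 + (-q 2) * p 8 + q 1 * p 10 + (-q 12) * 0 + (-q 8) * p 2 + (-q 10) * (-p 1)) : ℝ) =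
      0
    ring
  · change ((-p 3) * q 4 + p 3 * (-q 4) + 0 * q 6 + (-p 2) * q 13 + p 1 * q 11 + (-p 12) * (-q 2) + (-p 8) * 0 + (-p 10) * q 0 -
      ((-q 3) * p 4 + q 3 * (-p 4) + 0 * p 6 + (-q 2) * p 13 + q 1 * p 11 + (-q 12) * (-p 2) + (-q 8) * 0 + (-q 10) * p 0) : ℝ) =
      -(- (p 0 * q 10) - (p 1 * q 11) + (p 2 * q 12) + (p 2 * q 13) + 2 * (p 3 * q 4) - 2 * (p 4 * q 3) + (p 10 * q 0) + (p 11 * q 1) - (p 12 * q 2) - (p 13 * q 2))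
    ring
  · change ((-p 3) * q 5 + p 3 * (-q 5) + 0 * q 7 + (-p 2) * q 9 + p 1 * (-q 12 - q 13) + (-p 12) * q 1 + (-p 8) * (-q 0) + (-p 10) * 0 -
      ((-q 3) * p 5 + q 3 * (-p 5) + 0 * p 7 + (-q 2) * p 9 + q 1 * (-p 12 - p 13) + (-q 12) * p 1 + (-q 8) * (-p 0) + (-q 10) * 0) : ℝ) =
      (- (p 0 * q 8) - (p 1 * q 13) - (p 2 * q 9) - 2 * (p 3 * q 5) + 2 * (p 5 * q 3) + (p 8 * q 0) + (p 9 * q 2) + (p 13 * q 1))
    ring
  · change ((-p 3) * (-q 0) + p 3 * q 0 + 0 * 0 + (-p 2) * (-q 5) + p 1 * q 4 + (-p 12) * (-q 12) + (-p 8) * (-q 6) + (-p 10) * (-q 7) -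
      ((-q 3) * (-p 0) + q 3 * p 0 + 0 * 0 + (-q 2) * (-p 5) + q 1 * p 4 + (-q 12) * (-p 12) + (-q 8) * (-p 6) + (-q 10) * (-p 7)) : ℝ) =
      -(2 * (p 0 * q 3) - (p 1 * q 4) - (p 2 * q 5) - 2 * (p 3 * q 0) + (p 4 * q 1) + (p 5 * q 2) + (p 6 * q 8) + (p 7 * q 10) - (p 8 * q 6) - (p 10 * q 7))
    ring
  · change ((-p 3) * (-q 1) + p 3 * q 1 + 0 * q 5 + (-p 2) * 0 + p 1 * (-q 3) + (-p 12) * (-q 8) + (-p 8) * (-q 13) + (-p 10) * (-q 9) -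
      ((-q 3) * (-p 1) + q 3 * p 1 + 0 * p 5 + (-q 2) * 0 + q 1 * (-p 3) + (-q 12) * (-p 8) + (-q 8) * (-p 13) + (-q 10) * (-p 9)) : ℝ) =
      -(3 * (p 1 * q 3) - 3 * (p 3 * q 1) + (p 8 * q 12) - (p 8 * q 13) + (p 9 * q 10) - (p 10 * q 9) - (p 12 * q 8) + (p 13 * q 8))
    ring
  · change ((-p 3) * (-q 2) + p 3 * q 2 + 0 * (-q 4) + (-p 2) * q 3 + p 1 * 0 + (-p 12) * (-q 10) + (-p 8) * (-q 11) + (-p 10) * (q 12 + q 13) -
      ((-q 3) * (-p 2) + q 3 * p 2 + 0 * (-p 4) + (-q 2) * p 3 + q 1 * 0 + (-q 12) * (-p 10) + (-q 8) * (-p 11) + (-q 10) * (p 12 + p 13)) : ℝ) =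
      -(3 * (p 2 * q 3) - 3 * (p 3 * q 2) - (p 8 * q 11) + 2 * (p 10 * q 12) + (p 10 * q 13) + (p 11 * q 8) - 2 * (p 12 * q 10) - (p 13 * q 10))
    ring
  · change ((-p 4) * 0 + p 4 * 0 + p 2 * q 0 + 0 * q 1 + (-p 0) * q 2 + (-p 6) * (-q 3) + (-p 13) * (-q 4) + (-p 11) * (-q 5) -
      ((-q 4) * 0 + q 4 * 0 + q 2 * p 0 + 0 * p 1 + (-q 0) * p 2 + (-q 6) * (-p 3) + (-q 13) * (-p 4) + (-q 11) * (-p 5)) : ℝ) =
      -(2 * (p 0 * q 2) - 2 * (p 2 * q 0) + (p 3 * q 6) + (p 4 * q 13) + (p 5 * q 11) - (p 6 * q 3) - (p 11 * q 5) - (p 13 * q 4))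
    ring
  · change ((-p 4) * 0 + p 4 * 0 + p 2 * (-q 0) + 0 * (-q 1) + (-p 0) * (-q 2) + (-p 6) * q 3 + (-p 13) * q 4 + (-p 11) * q 5 -
      ((-q 4) * 0 + q 4 * 0 + q 2 * (-p 0) + 0 * (-p 1) + (-q 0) * (-p 2) + (-q 6) * p 3 + (-q 13) * p 4 + (-q 11) * p 5) : ℝ) =
      (2 * (p 0 * q 2) - 2 * (p 2 * q 0) + (p 3 * q 6) + (p 4 * q 13) + (p 5 * q 11) - (p 6 * q 3) - (p 11 * q 5) - (p 13 * q 4))
    ring
  · change ((-p 4) * q 3 + p 4 * (-q 3) + p 2 * q 12 + 0 * q 8 + (-p 0) * q 10 + (-p 6) * 0 + (-p 13) * q 2 + (-p 11) * (-q 1) -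
      ((-q 4) * p 3 + q 4 * (-p 3) + q 2 * p 12 + 0 * p 8 + (-q 0) * p 10 + (-q 6) * 0 + (-q 13) * p 2 + (-q 11) * (-p 1)) : ℝ) =
      (- (p 0 * q 10) - (p 1 * q 11) + (p 2 * q 12) + (p 2 * q 13) + 2 * (p 3 * q 4) - 2 * (p 4 * q 3) + (p 10 * q 0) + (p 11 * q 1) - (p 12 * q 2) - (p 13 * q 2))
    ring
  · change ((-p 4) * q 4 + p 4 * (-q 4) + p 2 * q 6 + 0 * q 13 + (-p 0) * q 11 + (-p 6) * (-q 2) + (-p 13) * 0 + (-p 11) * q 0 -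
      ((-q 4) * p 4 + q 4 * (-p 4) + q 2 * p 6 + 0 * p 13 + (-q 0) * p 11 + (-q 6) * (-p 2) + (-q 13) * 0 + (-q 11) * p 0) : ℝ) =
      0
    ring
  · change ((-p 4) * q 5 + p 4 * (-q 5) + p 2 * q 7 + 0 * q 9 + (-p 0) * (-q 12 - q 13) + (-p 6) * q 1 + (-p 13) * (-q 0) + (-p 11) * 0 -
      ((-q 4) * p 5 + q 4 * (-p 5) + q 2 * p 7 + 0 * p 9 + (-q 0) * (-p 12 - p 13) + (-q 6) * p 1 + (-q 13) * (-p 0) + (-q 11) * 0) : ℝ) =
      -(- (p 0 * q 12) - (p 1 * q 6) - (p 2 * q 7) + 2 * (p 4 * q 5) - 2 * (p 5 * q 4) + (p 6 * q 1) + (p 7 * q 2) + (p 12 * q 0))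
    ring
  · change ((-p 4) * (-q 0) + p 4 * q 0 + p 2 * 0 + 0 * (-q 5) + (-p 0) * q 4 + (-p 6) * (-q 12) + (-p 13) * (-q 6) + (-p 11) * (-q 7) -
      ((-q 4) * (-p 0) + q 4 * p 0 + q 2 * 0 + 0 * (-p 5) + (-q 0) * p 4 + (-q 6) * (-p 12) + (-q 13) * (-p 6) + (-q 11) * (-p 7)) : ℝ) =
      -(3 * (p 0 * q 4) - 3 * (p 4 * q 0) - (p 6 * q 12) + (p 6 * q 13) + (p 7 * q 11) - (p 11 * q 7) + (p 12 * q 6) - (p 13 * q 6))
    ring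
  · change ((-p 4) * (-q 1) + p 4 * q 1 + p 2 * q 5 + 0 * 0 + (-p 0) * (-q 3) + (-p 6) * (-q 8) + (-p 13) * (-q 13) + (-p 11) * (-q 9) -
      ((-q 4) * (-p 1) + q 4 * p 1 + q 2 * p 5 + 0 * 0 + (-q 0) * (-p 3) + (-q 6) * (-p 8) + (-q 13) * (-p 13) + (-q 11) * (-p 9)) : ℝ) =
      -(- (p 0 * q 3) + 2 * (p 1 * q 4) - (p 2 * q 5) + (p 3 * q 0) - 2 * (p 4 * q 1) + (p 5 * q 2) - (p 6 * q 8) + (p 8 * q 6) + (p 9 * q 11) - (p 11 * q 9))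
    ring
  · change ((-p 4) * (-q 2) + p 4 * q 2 + p 2 * (-q 4) + 0 * q 3 + (-p 0) * 0 + (-p 6) * (-q 10) + (-p 13) * (-q 11) + (-p 11) * (q 12 + q 13) -
      ((-q 4) * (-p 2) + q 4 * p 2 + q 2 * (-p 4) + 0 * p 3 + (-q 0) * 0 + (-q 6) * (-p 10) + (-q 13) * (-p 11) + (-q 11) * (p 12 + p 13)) : ℝ) =
      -(3 * (p 2 * q 4) - 3 * (p 4 * q 2) - (p 6 * q 10) + (p 10 * q 6) + (p 11 * q 12) + 2 * (p 11 * q 13) - (p 12 * q 11) - 2 * (p 13 * q 11))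
    ring
  · change ((-p 5) * 0 + p 5 * 0 + (-p 1) * q 0 + p 0 * q 1 + 0 * q 2 + (-p 7) * (-q 3) + (-p 9) * (-q 4) + (p 12 + p 13) * (-q 5) -
      ((-q 5) * 0 + q 5 * 0 + (-q 1) * p 0 + q 0 * p 1 + 0 * p 2 + (-q 7) * (-p 3) + (-q 9) * (-p 4) + (q 12 + q 13) * (-p 5)) : ℝ) =
      -(- 2 * (p 0 * q 1) + 2 * (p 1 * q 0) + (p 3 * q 7) + (p 4 * q 9) - (p 5 * q 12) - (p 5 * q 13) - (p 7 * q 3) - (p 9 * q 4) + (p 12 * q 5) + (p 13 * q 5))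
    ring
  · change ((-p 5) * 0 + p 5 * 0 + (-p 1) * (-q 0) + p 0 * (-q 1) + 0 * (-q 2) + (-p 7) * q 3 + (-p 9) * q 4 + (p 12 + p 13) * q 5 -
      ((-q 5) * 0 + q 5 * 0 + (-q 1) * (-p 0) + q 0 * (-p 1) + 0 * (-p 2) + (-q 7) * p 3 + (-q 9) * p 4 + (q 12 + q 13) * p 5) : ℝ) =
      (- 2 * (p 0 * q 1) + 2 * (p 1 * q 0) + (p 3 * q 7) + (p 4 * q 9) - (p 5 * q 12) - (p 5 * q 13) - (p 7 * q 3) - (p 9 * q 4) + (p 12 * q 5) + (p 13 * q 5))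
    ring
  · change ((-p 5) * q 3 + p 5 * (-q 3) + (-p 1) * q 12 + p 0 * q 8 + 0 * q 10 + (-p 7) * 0 + (-p 9) * q 2 + (p 12 + p 13) * (-q 1) -
      ((-q 5) * p 3 + q 5 * (-p 3) + (-q 1) * p 12 + q 0 * p 8 + 0 * p 10 + (-q 7) * 0 + (-q 9) * p 2 + (q 12 + q 13) * (-p 1)) : ℝ) =
      -(- (p 0 * q 8) - (p 1 * q 13) - (p 2 * q 9) - 2 * (p 3 * q 5) + 2 * (p 5 * q 3) + (p 8 * q 0) + (p 9 * q 2) + (p 13 * q 1))
    ring
  · change ((-p 5) * q 4 + p 5 * (-q 4) + (-p 1) * q 6 + p 0 * q 13 + 0 * q 11 + (-p 7) * (-q 2) + (-p 9) * 0 + (p 12 + p 13) * q 0 -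
      ((-q 5) * p 4 + q 5 * (-p 4) + (-q 1) * p 6 + q 0 * p 13 + 0 * p 11 + (-q 7) * (-p 2) + (-q 9) * 0 + (q 12 + q 13) * p 0) : ℝ) =
      (- (p 0 * q 12) - (p 1 * q 6) - (p 2 * q 7) + 2 * (p 4 * q 5) - 2 * (p 5 * q 4) + (p 6 * q 1) + (p 7 * q 2) + (p 12 * q 0))
    ring
  · change ((-p 5) * q 5 + p 5 * (-q 5) + (-p 1) * q 7 + p 0 * q 9 + 0 * (-q 12 - q 13) + (-p 7) * q 1 + (-p 9) * (-q 0) + (p 12 + p 13) * 0 -
      ((-q 5) * p 5 + q 5 * (-p 5) + (-q 1) * p 7 + q 0 * p 9 + 0 * (-p 12 - p 13) + (-q 7) * p 1 + (-q 9) * (-p 0) + (q 12 + q 13) * 0) : ℝ) =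
      0
    ring
  · change ((-p 5) * (-q 0) + p 5 * q 0 + (-p 1) * 0 + p 0 * (-q 5) + 0 * q 4 + (-p 7) * (-q 12) + (-p 9) * (-q 6) + (p 12 + p 13) * (-q 7) -
      ((-q 5) * (-p 0) + q 5 * p 0 + (-q 1) * 0 + q 0 * (-p 5) + 0 * p 4 + (-q 7) * (-p 12) + (-q 9) * (-p 6) + (q 12 + q 13) * (-p 7)) : ℝ) =
      -(3 * (p 0 * q 5) - 3 * (p 5 * q 0) + (p 6 * q 9) - 2 * (p 7 * q 12) - (p 7 * q 13) - (p 9 * q 6) + 2 * (p 12 * q 7) + (p 13 * q 7))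
    ring
  · change ((-p 5) * (-q 1) + p 5 * q 1 + (-p 1) * q 5 + p 0 * 0 + 0 * (-q 3) + (-p 7) * (-q 8) + (-p 9) * (-q 13) + (p 12 + p 13) * (-q 9) -
      ((-q 5) * (-p 1) + q 5 * p 1 + (-q 1) * p 5 + q 0 * 0 + 0 * (-p 3) + (-q 7) * (-p 8) + (-q 9) * (-p 13) + (q 12 + q 13) * (-p 9)) : ℝ) =
      -(3 * (p 1 * q 5) - 3 * (p 5 * q 1) - (p 7 * q 8) + (p 8 * q 7) - (p 9 * q 12) - 2 * (p 9 * q 13) + (p 12 * q 9) + 2 * (p 13 * q 9))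
    ring
  · change ((-p 5) * (-q 2) + p 5 * q 2 + (-p 1) * (-q 4) + p 0 * q 3 + 0 * 0 + (-p 7) * (-q 10) + (-p 9) * (-q 11) + (p 12 + p 13) * (q 12 + q 13) -
      ((-q 5) * (-p 2) + q 5 * p 2 + (-q 1) * (-p 4) + q 0 * p 3 + 0 * 0 + (-q 7) * (-p 10) + (-q 9) * (-p 11) + (q 12 + q 13) * (p 12 + p 13)) : ℝ) =
      (2 * (p 0 * q 3) - (p 1 * q 4) - (p 2 * q 5) - 2 * (p 3 * q 0) + (p 4 * q 1) + (p 5 * q 2) + (p 6 * q 8) + (p 7 * q 10) - (p 8 * q 6) - (p 10 * q 7)) + (- (p 0 * q 3) + 2 * (p 1 * q 4) - (p 2 * q 5) + (p 3 * q 0) - 2 * (p 4 * q 1) + (p 5 * q 2) - (p 6 * q 8) + (p 8 * q 6) + (p 9 * q 11) - (p 11 * q 9))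
    ring

end Vale.Agent.P092.H41.Re.G2
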