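import Vale.Agent.P092.H41.Re.G2a
import Vale.Agent.P092.H720.Re.Had

/-!
P092, project RE, row [RE-EX] (helper41), part 5: the derivations of the split octonions are the
matrices `gm p`. (The entrywise verifications are generated.)
-/

set_option linter.all false

open Matrix Filter Topology

namespace Vale.Agent.P092.H41.Re.G2

open Vale.Agent.P092.H793.Re


theorem gm_mulVec (p : Fin 14 → ℝ) (x : Fin 8 → ℝ) : gm p *ᵥ x =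
    ![0 * x 0 + 0 * x 1 + p 3 * x 2 + p 4 * x 3 + p 5 * x 4 + (-p 0) * x 5 + (-p 1) * x 6 + (-p 2) * x 7,
      0 * x 0 + 0 * x 1 + (-p 3) * x 2 + (-p 4) * x 3 + (-p 5) * x 4 + p 0 * x 5 + p 1 * x 6 + p 2 * x 7,
      p 0 * x 0 + (-p 0) * x 1 + p 12 * x 2 + p 6 * x 3 + p 7 * x 4 + 0 * x 5 + p 5 * x 6 + (-p 4) * x 7,
      p 1 * x 0 + (-p 1) * x 1 + p 8 * x 2 + p 13 * x 3 + p 9 * x 4 + (-p 5) * x 5 + 0 * x 6 + p 3 * x 7,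
      p 2 * x 0 + (-p 2) * x 1 + p 10 * x 2 + p 11 * x 3 + (-p 12 - p 13) * x 4 + p 4 * x 5 + (-p 3) * x 6 + 0 * x 7,
      (-p 3) * x 0 + p 3 * x 1 + 0 * x 2 + (-p 2) * x 3 + p 1 * x 4 + (-p 12) * x 5 + (-p 8) * x 6 + (-p 10) * x 7,
      (-p 4) * x 0 + p 4 * x 1 + p 2 * x 2 + 0 * x 3 + (-p 0) * x 4 + (-p 6) * x 5 + (-p 13) * x 6 + (-p 11) * x 7,
      (-p 5) * x 0 + p 5 * x 1 + (-p 1) * x 2 + p 0 * x 3 + 0 * x 4 + (-p 7) * x 5 + (-p 9) * x 6 + (p 12 + p 13) * x 7] := by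
  funext k
  rw [Matrix.mulVec, dotProduct, Fin.sum_univ_eight]
  fin_cases k <;> rfl

/-- the elements `gm p` are derivations -/
theorem gm_der (p : Fin 14 → ℝ) (x : Fin 8 → ℝ) :
    gm p * om x - om x * gm p = om (gm p *ᵥ x) := by
  ext i j
  rw [gm_mulVec]
  rw [Matrix.sub_apply, Matrix.mul_apply, Matrix.mul_apply, Fin.sum_univ_eight,
    Fin.sum_univ_eight]
  fin_cases i <;> fin_cases j
  · change (0 * x 0 + 0 * 0 + p 3 * 0 + p 4 * 0 + p 5 * 0 + (-p 0) * x 5 + (-p 1) * x 6 + (-p 2) * x 7 -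
      (x 0 * 0 + 0 * 0 + 0 * p 0 + 0 * p 1 + 0 * p 2 + x 2 * (-p 3) + x 3 * (-p 4) + x 4 * (-p 5)) : ℝ) =
      (0 * x 0 + 0 * x 1 + p 3 * x 2 + p 4 * x 3 + p 5 * x 4 + (-p 0) * x 5 + (-p 1) * x 6 + (-p 2) * x 7)
    ring
  · change (0 * 0 + 0 * x 1 + p 3 * x 2 + p 4 * x 3 + p 5 * x 4 + (-p 0) * 0 + (-p 1) * 0 + (-p 2) * 0 -
      (x 0 * 0 + 0 * 0 + 0 * (-p 0) + 0 * (-p 1) + 0 * (-p 2) + x 2 * p 3 + x 3 * p 4 + x 4 * p 5) : ℝ) =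
      0
    ring
  · change (0 * 0 + 0 * x 5 + p 3 * x 0 + p 4 * 0 + p 5 * 0 + (-p 0) * 0 + (-p 1) * x 4 + (-p 2) * (-x 3) -
      (x 0 * p 3 + 0 * (-p 3) + 0 * p 12 + 0 * p 8 + 0 * p 10 + x 2 * 0 + x 3 * p 2 + x 4 * (-p 1)) : ℝ) =
      0
    ring
  · change (0 * 0 + 0 * x 6 + p 3 * 0 + p 4 * x 0 + p 5 * 0 + (-p 0) * (-x 4) + (-p 1) * 0 + (-p 2) * x 2 -
      (x 0 * p 4 + 0 * (-p 4) + 0 * p 6 + 0 * p 13 + 0 * p 11 + x 2 * (-p 2) + x 3 * 0 + x 4 * p 0) : ℝ) =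
      0
    ring
  · change (0 * 0 + 0 * x 7 + p 3 * 0 + p 4 * 0 + p 5 * x 0 + (-p 0) * x 3 + (-p 1) * (-x 2) + (-p 2) * 0 -
      (x 0 * p 5 + 0 * (-p 5) + 0 * p 7 + 0 * p 9 + 0 * (-p 12 - p 13) + x 2 * p 1 + x 3 * (-p 0) + x 4 * 0) : ℝ) =
      0
    ring
  · change (0 * x 2 + 0 * 0 + p 3 * 0 + p 4 * (-x 7) + p 5 * x 6 + (-p 0) * x 1 + (-p 1) * 0 + (-p 2) * 0 -
      (x 0 * (-p 0) + 0 * p 0 + 0 * 0 + 0 * (-p 5) + 0 * p 4 + x 2 * (-p 12) + x 3 * (-p 6) + x 4 * (-p 7)) : ℝ) =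
      (p 0 * x 0 + (-p 0) * x 1 + p 12 * x 2 + p 6 * x 3 + p 7 * x 4 + 0 * x 5 + p 5 * x 6 + (-p 4) * x 7)
    ring
  · change (0 * x 3 + 0 * 0 + p 3 * x 7 + p 4 * 0 + p 5 * (-x 5) + (-p 0) * 0 + (-p 1) * x 1 + (-p 2) * 0 -
      (x 0 * (-p 1) + 0 * p 1 + 0 * p 5 + 0 * 0 + 0 * (-p 3) + x 2 * (-p 8) + x 3 * (-p 13) + x 4 * (-p 9)) : ℝ) =
      (p 1 * x 0 + (-p 1) * x 1 + p 8 * x 2 + p 13 * x 3 + p 9 * x 4 + (-p 5) * x 5 + 0 * x 6 + p 3 * x 7)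
    ring
  · change (0 * x 4 + 0 * 0 + p 3 * (-x 6) + p 4 * x 5 + p 5 * 0 + (-p 0) * 0 + (-p 1) * 0 + (-p 2) * x 1 -
      (x 0 * (-p 2) + 0 * p 2 + 0 * (-p 4) + 0 * p 3 + 0 * 0 + x 2 * (-p 10) + x 3 * (-p 11) + x 4 * (p 12 + p 13)) : ℝ) =
      (p 2 * x 0 + (-p 2) * x 1 + p 10 * x 2 + p 11 * x 3 + (-p 12 - p 13) * x 4 + p 4 * x 5 + (-p 3) * x 6 + 0 * x 7)
    ring
  · change (0 * x 0 + 0 * 0 + (-p 3) * 0 + (-p 4) * 0 + (-p 5) * 0 + p 0 * x 5 + p 1 * x 6 + p 2 * x 7 -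
      (0 * 0 + x 1 * 0 + x 5 * p 0 + x 6 * p 1 + x 7 * p 2 + 0 * (-p 3) + 0 * (-p 4) + 0 * (-p 5)) : ℝ) =
      0
    ring
  · change (0 * 0 + 0 * x 1 + (-p 3) * x 2 + (-p 4) * x 3 + (-p 5) * x 4 + p 0 * 0 + p 1 * 0 + p 2 * 0 -
      (0 * 0 + x 1 * 0 + x 5 * (-p 0) + x 6 * (-p 1) + x 7 * (-p 2) + 0 * p 3 + 0 * p 4 + 0 * p 5) : ℝ) =
      (0 * x 0 + 0 * x 1 + (-p 3) * x 2 + (-p 4) * x 3 + (-p 5) * x 4 + p 0 * x 5 + p 1 * x 6 + p 2 * x 7)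
    ring
  · change (0 * 0 + 0 * x 5 + (-p 3) * x 0 + (-p 4) * 0 + (-p 5) * 0 + p 0 * 0 + p 1 * x 4 + p 2 * (-x 3) -
      (0 * p 3 + x 1 * (-p 3) + x 5 * p 12 + x 6 * p 8 + x 7 * p 10 + 0 * 0 + 0 * p 2 + 0 * (-p 1)) : ℝ) =
      ((-p 3) * x 0 + p 3 * x 1 + 0 * x 2 + (-p 2) * x 3 + p 1 * x 4 + (-p 12) * x 5 + (-p 8) * x 6 + (-p 10) * x 7)
    ring
  · change (0 * 0 + 0 * x 6 + (-p 3) * 0 + (-p 4) * x 0 + (-p 5) * 0 + p 0 * (-x 4) + p 1 * 0 + p 2 * x 2 -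
      (0 * p 4 + x 1 * (-p 4) + x 5 * p 6 + x 6 * p 13 + x 7 * p 11 + 0 * (-p 2) + 0 * 0 + 0 * p 0) : ℝ) =
      ((-p 4) * x 0 + p 4 * x 1 + p 2 * x 2 + 0 * x 3 + (-p 0) * x 4 + (-p 6) * x 5 + (-p 13) * x 6 + (-p 11) * x 7)
    ring
  · change (0 * 0 + 0 * x 7 + (-p 3) * 0 + (-p 4) * 0 + (-p 5) * x 0 + p 0 * x 3 + p 1 * (-x 2) + p 2 * 0 -
      (0 * p 5 + x 1 * (-p 5) + x 5 * p 7 + x 6 * p 9 + x 7 * (-p 12 - p 13) + 0 * p 1 + 0 * (-p 0) + 0 * 0) : ℝ) =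
      ((-p 5) * x 0 + p 5 * x 1 + (-p 1) * x 2 + p 0 * x 3 + 0 * x 4 + (-p 7) * x 5 + (-p 9) * x 6 + (p 12 + p 13) * x 7)
    ring
  · change (0 * x 2 + 0 * 0 + (-p 3) * 0 + (-p 4) * (-x 7) + (-p 5) * x 6 + p 0 * x 1 + p 1 * 0 + p 2 * 0 -
      (0 * (-p 0) + x 1 * p 0 + x 5 * 0 + x 6 * (-p 5) + x 7 * p 4 + 0 * (-p 12) + 0 * (-p 6) + 0 * (-p 7)) : ℝ) =
      0
    ring
  · change (0 * x 3 + 0 * 0 + (-p 3) * x 7 + (-p 4) * 0 + (-p 5) * (-x 5) + p 0 * 0 + p 1 * x 1 + p 2 * 0 -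
      (0 * (-p 1) + x 1 * p 1 + x 5 * p 5 + x 6 * 0 + x 7 * (-p 3) + 0 * (-p 8) + 0 * (-p 13) + 0 * (-p 9)) : ℝ) =
      0
    ring
  · change (0 * x 4 + 0 * 0 + (-p 3) * (-x 6) + (-p 4) * x 5 + (-p 5) * 0 + p 0 * 0 + p 1 * 0 + p 2 * x 1 -
      (0 * (-p 2) + x 1 * p 2 + x 5 * (-p 4) + x 6 * p 3 + x 7 * 0 + 0 * (-p 10) + 0 * (-p 11) + 0 * (p 12 + p 13)) : ℝ) =
      0
    ring
  · change (p 0 * x 0 + (-p 0) * 0 + p 12 * 0 + p 6 * 0 + p 7 * 0 + 0 * x 5 + p 5 * x 6 + (-p 4) * x 7 -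
      (0 * 0 + x 2 * 0 + x 0 * p 0 + 0 * p 1 + 0 * p 2 + 0 * (-p 3) + x 7 * (-p 4) + (-x 6) * (-p 5)) : ℝ) =
      0
    ring
  · change (p 0 * 0 + (-p 0) * x 1 + p 12 * x 2 + p 6 * x 3 + p 7 * x 4 + 0 * 0 + p 5 * 0 + (-p 4) * 0 -
      (0 * 0 + x 2 * 0 + x 0 * (-p 0) + 0 * (-p 1) + 0 * (-p 2) + 0 * p 3 + x 7 * p 4 + (-x 6) * p 5) : ℝ) =
      (p 0 * x 0 + (-p 0) * x 1 + p 12 * x 2 + p 6 * x 3 + p 7 * x 4 + 0 * x 5 + p 5 * x 6 + (-p 4) * x 7)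
    ring
  · change (p 0 * 0 + (-p 0) * x 5 + p 12 * x 0 + p 6 * 0 + p 7 * 0 + 0 * 0 + p 5 * x 4 + (-p 4) * (-x 3) -
      (0 * p 3 + x 2 * (-p 3) + x 0 * p 12 + 0 * p 8 + 0 * p 10 + 0 * 0 + x 7 * p 2 + (-x 6) * (-p 1)) : ℝ) =
      (0 * x 0 + 0 * x 1 + p 3 * x 2 + p 4 * x 3 + p 5 * x 4 + (-p 0) * x 5 + (-p 1) * x 6 + (-p 2) * x 7)
    ring
  · change (p 0 * 0 + (-p 0) * x 6 + p 12 * 0 + p 6 * x 0 + p 7 * 0 + 0 * (-x 4) + p 5 * 0 + (-p 4) * x 2 -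
      (0 * p 4 + x 2 * (-p 4) + x 0 * p 6 + 0 * p 13 + 0 * p 11 + 0 * (-p 2) + x 7 * 0 + (-x 6) * p 0) : ℝ) =
      0
    ring
  · change (p 0 * 0 + (-p 0) * x 7 + p 12 * 0 + p 6 * 0 + p 7 * x 0 + 0 * x 3 + p 5 * (-x 2) + (-p 4) * 0 -
      (0 * p 5 + x 2 * (-p 5) + x 0 * p 7 + 0 * p 9 + 0 * (-p 12 - p 13) + 0 * p 1 + x 7 * (-p 0) + (-x 6) * 0) : ℝ) =
      0
    ring
  · change (p 0 * x 2 + (-p 0) * 0 + p 12 * 0 + p 6 * (-x 7) + p 7 * x 6 + 0 * x 1 + p 5 * 0 + (-p 4) * 0 -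
      (0 * (-p 0) + x 2 * p 0 + x 0 * 0 + 0 * (-p 5) + 0 * p 4 + 0 * (-p 12) + x 7 * (-p 6) + (-x 6) * (-p 7)) : ℝ) =
      0
    ring
  · change (p 0 * x 3 + (-p 0) * 0 + p 12 * x 7 + p 6 * 0 + p 7 * (-x 5) + 0 * 0 + p 5 * x 1 + (-p 4) * 0 -
      (0 * (-p 1) + x 2 * p 1 + x 0 * p 5 + 0 * 0 + 0 * (-p 3) + 0 * (-p 8) + x 7 * (-p 13) + (-x 6) * (-p 9)) : ℝ) =
      ((-p 5) * x 0 + p 5 * x 1 + (-p 1) * x 2 + p 0 * x 3 + 0 * x 4 + (-p 7) * x 5 + (-p 9) * x 6 + (p 12 + p 13) * x 7)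
    ring
  · change (p 0 * x 4 + (-p 0) * 0 + p 12 * (-x 6) + p 6 * x 5 + p 7 * 0 + 0 * 0 + p 5 * 0 + (-p 4) * x 1 -
      (0 * (-p 2) + x 2 * p 2 + x 0 * (-p 4) + 0 * p 3 + 0 * 0 + 0 * (-p 10) + x 7 * (-p 11) + (-x 6) * (p 12 + p 13)) : ℝ) =
      -((-p 4) * x 0 + p 4 * x 1 + p 2 * x 2 + 0 * x 3 + (-p 0) * x 4 + (-p 6) * x 5 + (-p 13) * x 6 + (-p 11) * x 7)
    ring
  · change (p 1 * x 0 + (-p 1) * 0 + p 8 * 0 + p 13 * 0 + p 9 * 0 + (-p 5) * x 5 + 0 * x 6 + p 3 * x 7 -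
      (0 * 0 + x 3 * 0 + 0 * p 0 + x 0 * p 1 + 0 * p 2 + (-x 7) * (-p 3) + 0 * (-p 4) + x 5 * (-p 5)) : ℝ) =
      0
    ring
  · change (p 1 * 0 + (-p 1) * x 1 + p 8 * x 2 + p 13 * x 3 + p 9 * x 4 + (-p 5) * 0 + 0 * 0 + p 3 * 0 -
      (0 * 0 + x 3 * 0 + 0 * (-p 0) + x 0 * (-p 1) + 0 * (-p 2) + (-x 7) * p 3 + 0 * p 4 + x 5 * p 5) : ℝ) =
      (p 1 * x 0 + (-p 1) * x 1 + p 8 * x 2 + p 13 * x 3 + p 9 * x 4 + (-p 5) * x 5 + 0 * x 6 + p 3 * x 7)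
    ring
  · change (p 1 * 0 + (-p 1) * x 5 + p 8 * x 0 + p 13 * 0 + p 9 * 0 + (-p 5) * 0 + 0 * x 4 + p 3 * (-x 3) -
      (0 * p 3 + x 3 * (-p 3) + 0 * p 12 + x 0 * p 8 + 0 * p 10 + (-x 7) * 0 + 0 * p 2 + x 5 * (-p 1)) : ℝ) =
      0
    ring
  · change (p 1 * 0 + (-p 1) * x 6 + p 8 * 0 + p 13 * x 0 + p 9 * 0 + (-p 5) * (-x 4) + 0 * 0 + p 3 * x 2 -
      (0 * p 4 + x 3 * (-p 4) + 0 * p 6 + x 0 * p 13 + 0 * p 11 + (-x 7) * (-p 2) + 0 * 0 + x 5 * p 0) : ℝ) =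
      (0 * x 0 + 0 * x 1 + p 3 * x 2 + p 4 * x 3 + p 5 * x 4 + (-p 0) * x 5 + (-p 1) * x 6 + (-p 2) * x 7)
    ring
  · change (p 1 * 0 + (-p 1) * x 7 + p 8 * 0 + p 13 * 0 + p 9 * x 0 + (-p 5) * x 3 + 0 * (-x 2) + p 3 * 0 -
      (0 * p 5 + x 3 * (-p 5) + 0 * p 7 + x 0 * p 9 + 0 * (-p 12 - p 13) + (-x 7) * p 1 + 0 * (-p 0) + x 5 * 0) : ℝ) =
      0
    ring
  · change (p 1 * x 2 + (-p 1) * 0 + p 8 * 0 + p 13 * (-x 7) + p 9 * x 6 + (-p 5) * x 1 + 0 * 0 + p 3 * 0 -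
      (0 * (-p 0) + x 3 * p 0 + 0 * 0 + x 0 * (-p 5) + 0 * p 4 + (-x 7) * (-p 12) + 0 * (-p 6) + x 5 * (-p 7)) : ℝ) =
      -((-p 5) * x 0 + p 5 * x 1 + (-p 1) * x 2 + p 0 * x 3 + 0 * x 4 + (-p 7) * x 5 + (-p 9) * x 6 + (p 12 + p 13) * x 7)
    ring
  · change (p 1 * x 3 + (-p 1) * 0 + p 8 * x 7 + p 13 * 0 + p 9 * (-x 5) + (-p 5) * 0 + 0 * x 1 + p 3 * 0 -
      (0 * (-p 1) + x 3 * p 1 + 0 * p 5 + x 0 * 0 + 0 * (-p 3) + (-x 7) * (-p 8) + 0 * (-p 13) + x 5 * (-p 9)) : ℝ) =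
      0
    ring
  · change (p 1 * x 4 + (-p 1) * 0 + p 8 * (-x 6) + p 13 * x 5 + p 9 * 0 + (-p 5) * 0 + 0 * 0 + p 3 * x 1 -
      (0 * (-p 2) + x 3 * p 2 + 0 * (-p 4) + x 0 * p 3 + 0 * 0 + (-x 7) * (-p 10) + 0 * (-p 11) + x 5 * (p 12 + p 13)) : ℝ) =
      ((-p 3) * x 0 + p 3 * x 1 + 0 * x 2 + (-p 2) * x 3 + p 1 * x 4 + (-p 12) * x 5 + (-p 8) * x 6 + (-p 10) * x 7)
    ring
  · change (p 2 * x 0 + (-p 2) * 0 + p 10 * 0 + p 11 * 0 + (-p 12 - p 13) * 0 + p 4 * x 5 + (-p 3) * x 6 + 0 * x 7 -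
      (0 * 0 + x 4 * 0 + 0 * p 0 + 0 * p 1 + x 0 * p 2 + x 6 * (-p 3) + (-x 5) * (-p 4) + 0 * (-p 5)) : ℝ) =
      0
    ring
  · change (p 2 * 0 + (-p 2) * x 1 + p 10 * x 2 + p 11 * x 3 + (-p 12 - p 13) * x 4 + p 4 * 0 + (-p 3) * 0 + 0 * 0 -
      (0 * 0 + x 4 * 0 + 0 * (-p 0) + 0 * (-p 1) + x 0 * (-p 2) + x 6 * p 3 + (-x 5) * p 4 + 0 * p 5) : ℝ) =
      (p 2 * x 0 + (-p 2) * x 1 + p 10 * x 2 + p 11 * x 3 + (-p 12 - p 13) * x 4 + p 4 * x 5 + (-p 3) * x 6 + 0 * x 7)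
    ring
  · change (p 2 * 0 + (-p 2) * x 5 + p 10 * x 0 + p 11 * 0 + (-p 12 - p 13) * 0 + p 4 * 0 + (-p 3) * x 4 + 0 * (-x 3) -
      (0 * p 3 + x 4 * (-p 3) + 0 * p 12 + 0 * p 8 + x 0 * p 10 + x 6 * 0 + (-x 5) * p 2 + 0 * (-p 1)) : ℝ) =
      0
    ring
  · change (p 2 * 0 + (-p 2) * x 6 + p 10 * 0 + p 11 * x 0 + (-p 12 - p 13) * 0 + p 4 * (-x 4) + (-p 3) * 0 + 0 * x 2 -
      (0 * p 4 + x 4 * (-p 4) + 0 * p 6 + 0 * p 13 + x 0 * p 11 + x 6 * (-p 2) + (-x 5) * 0 + 0 * p 0) : ℝ) =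
      0
    ring
  · change (p 2 * 0 + (-p 2) * x 7 + p 10 * 0 + p 11 * 0 + (-p 12 - p 13) * x 0 + p 4 * x 3 + (-p 3) * (-x 2) + 0 * 0 -
      (0 * p 5 + x 4 * (-p 5) + 0 * p 7 + 0 * p 9 + x 0 * (-p 12 - p 13) + x 6 * p 1 + (-x 5) * (-p 0) + 0 * 0) : ℝ) =
      (0 * x 0 + 0 * x 1 + p 3 * x 2 + p 4 * x 3 + p 5 * x 4 + (-p 0) * x 5 + (-p 1) * x 6 + (-p 2) * x 7)
    ring
  · change (p 2 * x 2 + (-p 2) * 0 + p 10 * 0 + p 11 * (-x 7) + (-p 12 - p 13) * x 6 + p 4 * x 1 + (-p 3) * 0 + 0 * 0 -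
      (0 * (-p 0) + x 4 * p 0 + 0 * 0 + 0 * (-p 5) + x 0 * p 4 + x 6 * (-p 12) + (-x 5) * (-p 6) + 0 * (-p 7)) : ℝ) =
      ((-p 4) * x 0 + p 4 * x 1 + p 2 * x 2 + 0 * x 3 + (-p 0) * x 4 + (-p 6) * x 5 + (-p 13) * x 6 + (-p 11) * x 7)
    ring
  · change (p 2 * x 3 + (-p 2) * 0 + p 10 * x 7 + p 11 * 0 + (-p 12 - p 13) * (-x 5) + p 4 * 0 + (-p 3) * x 1 + 0 * 0 -
      (0 * (-p 1) + x 4 * p 1 + 0 * p 5 + 0 * 0 + x 0 * (-p 3) + x 6 * (-p 8) + (-x 5) * (-p 13) + 0 * (-p 9)) : ℝ) =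
      -((-p 3) * x 0 + p 3 * x 1 + 0 * x 2 + (-p 2) * x 3 + p 1 * x 4 + (-p 12) * x 5 + (-p 8) * x 6 + (-p 10) * x 7)
    ring
  · change (p 2 * x 4 + (-p 2) * 0 + p 10 * (-x 6) + p 11 * x 5 + (-p 12 - p 13) * 0 + p 4 * 0 + (-p 3) * 0 + 0 * x 1 -
      (0 * (-p 2) + x 4 * p 2 + 0 * (-p 4) + 0 * p 3 + x 0 * 0 + x 6 * (-p 10) + (-x 5) * (-p 11) + 0 * (p 12 + p 13)) : ℝ) =
      0
    ring
  · change ((-p 3) * x 0 + p 3 * 0 + 0 * 0 + (-p 2) * 0 + p 1 * 0 + (-p 12) * x 5 + (-p 8) * x 6 + (-p 10) * x 7 -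
      (x 5 * 0 + 0 * 0 + 0 * p 0 + (-x 4) * p 1 + x 3 * p 2 + x 1 * (-p 3) + 0 * (-p 4) + 0 * (-p 5)) : ℝ) =
      ((-p 3) * x 0 + p 3 * x 1 + 0 * x 2 + (-p 2) * x 3 + p 1 * x 4 + (-p 12) * x 5 + (-p 8) * x 6 + (-p 10) * x 7)
    ring
  · change ((-p 3) * 0 + p 3 * x 1 + 0 * x 2 + (-p 2) * x 3 + p 1 * x 4 + (-p 12) * 0 + (-p 8) * 0 + (-p 10) * 0 -
      (x 5 * 0 + 0 * 0 + 0 * (-p 0) + (-x 4) * (-p 1) + x 3 * (-p 2) + x 1 * p 3 + 0 * p 4 + 0 * p 5) : ℝ) =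
      0
    ring
  · change ((-p 3) * 0 + p 3 * x 5 + 0 * x 0 + (-p 2) * 0 + p 1 * 0 + (-p 12) * 0 + (-p 8) * x 4 + (-p 10) * (-x 3) -
      (x 5 * p 3 + 0 * (-p 3) + 0 * p 12 + (-x 4) * p 8 + x 3 * p 10 + x 1 * 0 + 0 * p 2 + 0 * (-p 1)) : ℝ) =
      0
    ring
  · change ((-p 3) * 0 + p 3 * x 6 + 0 * 0 + (-p 2) * x 0 + p 1 * 0 + (-p 12) * (-x 4) + (-p 8) * 0 + (-p 10) * x 2 -
      (x 5 * p 4 + 0 * (-p 4) + 0 * p 6 + (-x 4) * p 13 + x 3 * p 11 + x 1 * (-p 2) + 0 * 0 + 0 * p 0) : ℝ) =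
      -(p 2 * x 0 + (-p 2) * x 1 + p 10 * x 2 + p 11 * x 3 + (-p 12 - p 13) * x 4 + p 4 * x 5 + (-p 3) * x 6 + 0 * x 7)
    ring
  · change ((-p 3) * 0 + p 3 * x 7 + 0 * 0 + (-p 2) * 0 + p 1 * x 0 + (-p 12) * x 3 + (-p 8) * (-x 2) + (-p 10) * 0 -
      (x 5 * p 5 + 0 * (-p 5) + 0 * p 7 + (-x 4) * p 9 + x 3 * (-p 12 - p 13) + x 1 * p 1 + 0 * (-p 0) + 0 * 0) : ℝ) =
      (p 1 * x 0 + (-p 1) * x 1 + p 8 * x 2 + p 13 * x 3 + p 9 * x 4 + (-p 5) * x 5 + 0 * x 6 + p 3 * x 7)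
    ring
  · change ((-p 3) * x 2 + p 3 * 0 + 0 * 0 + (-p 2) * (-x 7) + p 1 * x 6 + (-p 12) * x 1 + (-p 8) * 0 + (-p 10) * 0 -
      (x 5 * (-p 0) + 0 * p 0 + 0 * 0 + (-x 4) * (-p 5) + x 3 * p 4 + x 1 * (-p 12) + 0 * (-p 6) + 0 * (-p 7)) : ℝ) =
      (0 * x 0 + 0 * x 1 + (-p 3) * x 2 + (-p 4) * x 3 + (-p 5) * x 4 + p 0 * x 5 + p 1 * x 6 + p 2 * x 7)
    ring
  · change ((-p 3) * x 3 + p 3 * 0 + 0 * x 7 + (-p 2) * 0 + p 1 * (-x 5) + (-p 12) * 0 + (-p 8) * x 1 + (-p 10) * 0 -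
      (x 5 * (-p 1) + 0 * p 1 + 0 * p 5 + (-x 4) * 0 + x 3 * (-p 3) + x 1 * (-p 8) + 0 * (-p 13) + 0 * (-p 9)) : ℝ) =
      0
    ring
  · change ((-p 3) * x 4 + p 3 * 0 + 0 * (-x 6) + (-p 2) * x 5 + p 1 * 0 + (-p 12) * 0 + (-p 8) * 0 + (-p 10) * x 1 -
      (x 5 * (-p 2) + 0 * p 2 + 0 * (-p 4) + (-x 4) * p 3 + x 3 * 0 + x 1 * (-p 10) + 0 * (-p 11) + 0 * (p 12 + p 13)) : ℝ) =
      0
    ring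
  · change ((-p 4) * x 0 + p 4 * 0 + p 2 * 0 + 0 * 0 + (-p 0) * 0 + (-p 6) * x 5 + (-p 13) * x 6 + (-p 11) * x 7 -
      (x 6 * 0 + 0 * 0 + x 4 * p 0 + 0 * p 1 + (-x 2) * p 2 + 0 * (-p 3) + x 1 * (-p 4) + 0 * (-p 5)) : ℝ) =
      ((-p 4) * x 0 + p 4 * x 1 + p 2 * x 2 + 0 * x 3 + (-p 0) * x 4 + (-p 6) * x 5 + (-p 13) * x 6 + (-p 11) * x 7)
    ring
  · change ((-p 4) * 0 + p 4 * x 1 + p 2 * x 2 + 0 * x 3 + (-p 0) * x 4 + (-p 6) * 0 + (-p 13) * 0 + (-p 11) * 0 -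
      (x 6 * 0 + 0 * 0 + x 4 * (-p 0) + 0 * (-p 1) + (-x 2) * (-p 2) + 0 * p 3 + x 1 * p 4 + 0 * p 5) : ℝ) =
      0
    ring
  · change ((-p 4) * 0 + p 4 * x 5 + p 2 * x 0 + 0 * 0 + (-p 0) * 0 + (-p 6) * 0 + (-p 13) * x 4 + (-p 11) * (-x 3) -
      (x 6 * p 3 + 0 * (-p 3) + x 4 * p 12 + 0 * p 8 + (-x 2) * p 10 + 0 * 0 + x 1 * p 2 + 0 * (-p 1)) : ℝ) =
      (p 2 * x 0 + (-p 2) * x 1 + p 10 * x 2 + p 11 * x 3 + (-p 12 - p 13) * x 4 + p 4 * x 5 + (-p 3) * x 6 + 0 * x 7)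
    ring
  · change ((-p 4) * 0 + p 4 * x 6 + p 2 * 0 + 0 * x 0 + (-p 0) * 0 + (-p 6) * (-x 4) + (-p 13) * 0 + (-p 11) * x 2 -
      (x 6 * p 4 + 0 * (-p 4) + x 4 * p 6 + 0 * p 13 + (-x 2) * p 11 + 0 * (-p 2) + x 1 * 0 + 0 * p 0) : ℝ) =
      0
    ring
  · change ((-p 4) * 0 + p 4 * x 7 + p 2 * 0 + 0 * 0 + (-p 0) * x 0 + (-p 6) * x 3 + (-p 13) * (-x 2) + (-p 11) * 0 -
      (x 6 * p 5 + 0 * (-p 5) + x 4 * p 7 + 0 * p 9 + (-x 2) * (-p 12 - p 13) + 0 * p 1 + x 1 * (-p 0) + 0 * 0) : ℝ) =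
      -(p 0 * x 0 + (-p 0) * x 1 + p 12 * x 2 + p 6 * x 3 + p 7 * x 4 + 0 * x 5 + p 5 * x 6 + (-p 4) * x 7)
    ring
  · change ((-p 4) * x 2 + p 4 * 0 + p 2 * 0 + 0 * (-x 7) + (-p 0) * x 6 + (-p 6) * x 1 + (-p 13) * 0 + (-p 11) * 0 -
      (x 6 * (-p 0) + 0 * p 0 + x 4 * 0 + 0 * (-p 5) + (-x 2) * p 4 + 0 * (-p 12) + x 1 * (-p 6) + 0 * (-p 7)) : ℝ) =
      0
    ring
  · change ((-p 4) * x 3 + p 4 * 0 + p 2 * x 7 + 0 * 0 + (-p 0) * (-x 5) + (-p 6) * 0 + (-p 13) * x 1 + (-p 11) * 0 -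
      (x 6 * (-p 1) + 0 * p 1 + x 4 * p 5 + 0 * 0 + (-x 2) * (-p 3) + 0 * (-p 8) + x 1 * (-p 13) + 0 * (-p 9)) : ℝ) =
      (0 * x 0 + 0 * x 1 + (-p 3) * x 2 + (-p 4) * x 3 + (-p 5) * x 4 + p 0 * x 5 + p 1 * x 6 + p 2 * x 7)
    ring
  · change ((-p 4) * x 4 + p 4 * 0 + p 2 * (-x 6) + 0 * x 5 + (-p 0) * 0 + (-p 6) * 0 + (-p 13) * 0 + (-p 11) * x 1 -
      (x 6 * (-p 2) + 0 * p 2 + x 4 * (-p 4) + 0 * p 3 + (-x 2) * 0 + 0 * (-p 10) + x 1 * (-p 11) + 0 * (p 12 + p 13)) : ℝ) =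
      0
    ring
  · change ((-p 5) * x 0 + p 5 * 0 + (-p 1) * 0 + p 0 * 0 + 0 * 0 + (-p 7) * x 5 + (-p 9) * x 6 + (p 12 + p 13) * x 7 -
      (x 7 * 0 + 0 * 0 + (-x 3) * p 0 + x 2 * p 1 + 0 * p 2 + 0 * (-p 3) + 0 * (-p 4) + x 1 * (-p 5)) : ℝ) =
      ((-p 5) * x 0 + p 5 * x 1 + (-p 1) * x 2 + p 0 * x 3 + 0 * x 4 + (-p 7) * x 5 + (-p 9) * x 6 + (p 12 + p 13) * x 7)
    ring
  · change ((-p 5) * 0 + p 5 * x 1 + (-p 1) * x 2 + p 0 * x 3 + 0 * x 4 + (-p 7) * 0 + (-p 9) * 0 + (p 12 + p 13) * 0 -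
      (x 7 * 0 + 0 * 0 + (-x 3) * (-p 0) + x 2 * (-p 1) + 0 * (-p 2) + 0 * p 3 + 0 * p 4 + x 1 * p 5) : ℝ) =
      0
    ring
  · change ((-p 5) * 0 + p 5 * x 5 + (-p 1) * x 0 + p 0 * 0 + 0 * 0 + (-p 7) * 0 + (-p 9) * x 4 + (p 12 + p 13) * (-x 3) -
      (x 7 * p 3 + 0 * (-p 3) + (-x 3) * p 12 + x 2 * p 8 + 0 * p 10 + 0 * 0 + 0 * p 2 + x 1 * (-p 1)) : ℝ) =
      -(p 1 * x 0 + (-p 1) * x 1 + p 8 * x 2 + p 13 * x 3 + p 9 * x 4 + (-p 5) * x 5 + 0 * x 6 + p 3 * x 7)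
    ring
  · change ((-p 5) * 0 + p 5 * x 6 + (-p 1) * 0 + p 0 * x 0 + 0 * 0 + (-p 7) * (-x 4) + (-p 9) * 0 + (p 12 + p 13) * x 2 -
      (x 7 * p 4 + 0 * (-p 4) + (-x 3) * p 6 + x 2 * p 13 + 0 * p 11 + 0 * (-p 2) + 0 * 0 + x 1 * p 0) : ℝ) =
      (p 0 * x 0 + (-p 0) * x 1 + p 12 * x 2 + p 6 * x 3 + p 7 * x 4 + 0 * x 5 + p 5 * x 6 + (-p 4) * x 7)
    ring
  · change ((-p 5) * 0 + p 5 * x 7 + (-p 1) * 0 + p 0 * 0 + 0 * x 0 + (-p 7) * x 3 + (-p 9) * (-x 2) + (p 12 + p 13) * 0 -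
      (x 7 * p 5 + 0 * (-p 5) + (-x 3) * p 7 + x 2 * p 9 + 0 * (-p 12 - p 13) + 0 * p 1 + 0 * (-p 0) + x 1 * 0) : ℝ) =
      0
    ring
  · change ((-p 5) * x 2 + p 5 * 0 + (-p 1) * 0 + p 0 * (-x 7) + 0 * x 6 + (-p 7) * x 1 + (-p 9) * 0 + (p 12 + p 13) * 0 -
      (x 7 * (-p 0) + 0 * p 0 + (-x 3) * 0 + x 2 * (-p 5) + 0 * p 4 + 0 * (-p 12) + 0 * (-p 6) + x 1 * (-p 7)) : ℝ) =
      0
    ring
  · change ((-p 5) * x 3 + p 5 * 0 + (-p 1) * x 7 + p 0 * 0 + 0 * (-x 5) + (-p 7) * 0 + (-p 9) * x 1 + (p 12 + p 13) * 0 -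
      (x 7 * (-p 1) + 0 * p 1 + (-x 3) * p 5 + x 2 * 0 + 0 * (-p 3) + 0 * (-p 8) + 0 * (-p 13) + x 1 * (-p 9)) : ℝ) =
      0
    ring
  · change ((-p 5) * x 4 + p 5 * 0 + (-p 1) * (-x 6) + p 0 * x 5 + 0 * 0 + (-p 7) * 0 + (-p 9) * 0 + (p 12 + p 13) * x 1 -
      (x 7 * (-p 2) + 0 * p 2 + (-x 3) * (-p 4) + x 2 * p 3 + 0 * 0 + 0 * (-p 10) + 0 * (-p 11) + x 1 * (p 12 + p 13)) : ℝ) =
      (0 * x 0 + 0 * x 1 + (-p 3) * x 2 + (-p 4) * x 3 + (-p 5) * x 4 + p 0 * x 5 + p 1 * x 6 + p 2 * x 7)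
    ring

theorem der_entry {X : Mat 8} (h : ∀ x, X * om x - om x * X = om (X *ᵥ x)) (x : Fin 8 → ℝ)
    (i j : Fin 8) : (X i 0 * om x 0 j + X i 1 * om x 1 j + X i 2 * om x 2 j + X i 3 * om x 3 j +
      X i 4 * om x 4 j + X i 5 * om x 5 j + X i 6 * om x 6 j + X i 7 * om x 7 j) -
    (om x i 0 * X 0 j + om x i 1 * X 1 j + om x i 2 * X 2 j + om x i 3 * X 3 j +
      om x i 4 * X 4 j + om x i 5 * X 5 j + om x i 6 * X 6 j + om x i 7 * X 7 j) =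
    om (fun k => X k 0 * x 0 + X k 1 * x 1 + X k 2 * x 2 + X k 3 * x 3 + X k 4 * x 4 +
      X k 5 * x 5 + X k 6 * x 6 + X k 7 * x 7) i j := by
  have h1 := congrFun (congrFun (h x) i) j
  rw [Matrix.sub_apply, Matrix.mul_apply, Matrix.mul_apply, Fin.sum_univ_eight,
    Fin.sum_univ_eight] at h1
  have h2 : X *ᵥ x = fun k => X k 0 * x 0 + X k 1 * x 1 + X k 2 * x 2 + X k 3 * x 3 +
      X k 4 * x 4 + X k 5 * x 5 + X k 6 * x 6 + X k 7 * x 7 := by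
    funext k
    rw [Matrix.mulVec, dotProduct, Fin.sum_univ_eight]
  rw [h2] at h1
  exact h1

theorem e000 {X : Mat 8} (h : ∀ x, X * om x - om x * X = om (X *ᵥ x)) :
    - X 0 0 = 0 := by
  have e := der_entry h ![1, 0, 0, 0, 0, 0, 0, 0] 0 0
  change (((X 0 0) * 1 + (X 0 1) * 0 + (X 0 2) * 0 + (X 0 3) * 0 + (X 0 4) * 0 + (X 0 5) * 0 + (X 0 6) * 0 + (X 0 7) * 0) -
    (1 * (X 0 0) + 0 * (X 1 0) + 0 * (X 2 0) + 0 * (X 3 0) + 0 * (X 4 0) + 0 * (X 5 0) + 0 * (X 6 0) + 0 * (X 7 0)) : ℝ) =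
    (X 0 0 * 1 + X 0 1 * 0 + X 0 2 * 0 + X 0 3 * 0 + X 0 4 * 0 + X 0 5 * 0 + X 0 6 * 0 + X 0 7 * 0) at e
  linarith

theorem e001 {X : Mat 8} (h : ∀ x, X * om x - om x * X = om (X *ᵥ x)) :
    - X 0 1 = 0 := by
  have e := der_entry h ![1, 0, 0, 0, 0, 0, 0, 0] 0 1
  change (((X 0 0) * 0 + (X 0 1) * 0 + (X 0 2) * 0 + (X 0 3) * 0 + (X 0 4) * 0 + (X 0 5) * 0 + (X 0 6) * 0 + (X 0 7) * 0) -
    (1 * (X 0 1) + 0 * (X 1 1) + 0 * (X 2 1) + 0 * (X 3 1) + 0 * (X 4 1) + 0 * (X 5 1) + 0 * (X 6 1) + 0 * (X 7 1)) : ℝ) =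
    0 at e
  linarith

theorem e005 {X : Mat 8} (h : ∀ x, X * om x - om x * X = om (X *ᵥ x)) :
    - X 0 5 - X 2 0 = 0 := by
  have e := der_entry h ![1, 0, 0, 0, 0, 0, 0, 0] 0 5
  change (((X 0 0) * 0 + (X 0 1) * 0 + (X 0 2) * 0 + (X 0 3) * (-0) + (X 0 4) * 0 + (X 0 5) * 0 + (X 0 6) * 0 + (X 0 7) * 0) -
    (1 * (X 0 5) + 0 * (X 1 5) + 0 * (X 2 5) + 0 * (X 3 5) + 0 * (X 4 5) + 0 * (X 5 5) + 0 * (X 6 5) + 0 * (X 7 5)) : ℝ) =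
    (X 2 0 * 1 + X 2 1 * 0 + X 2 2 * 0 + X 2 3 * 0 + X 2 4 * 0 + X 2 5 * 0 + X 2 6 * 0 + X 2 7 * 0) at e
  linarith

theorem e006 {X : Mat 8} (h : ∀ x, X * om x - om x * X = om (X *ᵥ x)) :
    - X 0 6 - X 3 0 = 0 := by
  have e := der_entry h ![1, 0, 0, 0, 0, 0, 0, 0] 0 6
  change (((X 0 0) * 0 + (X 0 1) * 0 + (X 0 2) * 0 + (X 0 3) * 0 + (X 0 4) * (-0) + (X 0 5) * 0 + (X 0 6) * 0 + (X 0 7) * 0) -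
    (1 * (X 0 6) + 0 * (X 1 6) + 0 * (X 2 6) + 0 * (X 3 6) + 0 * (X 4 6) + 0 * (X 5 6) + 0 * (X 6 6) + 0 * (X 7 6)) : ℝ) =
    (X 3 0 * 1 + X 3 1 * 0 + X 3 2 * 0 + X 3 3 * 0 + X 3 4 * 0 + X 3 5 * 0 + X 3 6 * 0 + X 3 7 * 0) at e
  linarith

theorem e007 {X : Mat 8} (h : ∀ x, X * om x - om x * X = om (X *ᵥ x)) :
    - X 0 7 - X 4 0 = 0 := by
  have e := der_entry h ![1, 0, 0, 0, 0, 0, 0, 0] 0 7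
  change (((X 0 0) * 0 + (X 0 1) * 0 + (X 0 2) * (-0) + (X 0 3) * 0 + (X 0 4) * 0 + (X 0 5) * 0 + (X 0 6) * 0 + (X 0 7) * 0) -
    (1 * (X 0 7) + 0 * (X 1 7) + 0 * (X 2 7) + 0 * (X 3 7) + 0 * (X 4 7) + 0 * (X 5 7) + 0 * (X 6 7) + 0 * (X 7 7)) : ℝ) =
    (X 4 0 * 1 + X 4 1 * 0 + X 4 2 * 0 + X 4 3 * 0 + X 4 4 * 0 + X 4 5 * 0 + X 4 6 * 0 + X 4 7 * 0) at e
  linarith

theorem e010 {X : Mat 8} (h : ∀ x, X * om x - om x * X = om (X *ᵥ x)) :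
    X 1 0 = 0 := by
  have e := der_entry h ![1, 0, 0, 0, 0, 0, 0, 0] 1 0
  change (((X 1 0) * 1 + (X 1 1) * 0 + (X 1 2) * 0 + (X 1 3) * 0 + (X 1 4) * 0 + (X 1 5) * 0 + (X 1 6) * 0 + (X 1 7) * 0) -
    (0 * (X 0 0) + 0 * (X 1 0) + 0 * (X 2 0) + 0 * (X 3 0) + 0 * (X 4 0) + 0 * (X 5 0) + 0 * (X 6 0) + 0 * (X 7 0)) : ℝ) =
    0 at e
  linarith

theorem e021 {X : Mat 8} (h : ∀ x, X * om x - om x * X = om (X *ᵥ x)) :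
    - X 2 0 - X 2 1 = 0 := by
  have e := der_entry h ![1, 0, 0, 0, 0, 0, 0, 0] 2 1
  change (((X 2 0) * 0 + (X 2 1) * 0 + (X 2 2) * 0 + (X 2 3) * 0 + (X 2 4) * 0 + (X 2 5) * 0 + (X 2 6) * 0 + (X 2 7) * 0) -
    (0 * (X 0 1) + 0 * (X 1 1) + 1 * (X 2 1) + 0 * (X 3 1) + 0 * (X 4 1) + 0 * (X 5 1) + 0 * (X 6 1) + (-0) * (X 7 1)) : ℝ) =
    (X 2 0 * 1 + X 2 1 * 0 + X 2 2 * 0 + X 2 3 * 0 + X 2 4 * 0 + X 2 5 * 0 + X 2 6 * 0 + X 2 7 * 0) at e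
  linarith

theorem e025 {X : Mat 8} (h : ∀ x, X * om x - om x * X = om (X *ᵥ x)) :
    - X 2 5 = 0 := by
  have e := der_entry h ![1, 0, 0, 0, 0, 0, 0, 0] 2 5
  change (((X 2 0) * 0 + (X 2 1) * 0 + (X 2 2) * 0 + (X 2 3) * (-0) + (X 2 4) * 0 + (X 2 5) * 0 + (X 2 6) * 0 + (X 2 7) * 0) -
    (0 * (X 0 5) + 0 * (X 1 5) + 1 * (X 2 5) + 0 * (X 3 5) + 0 * (X 4 5) + 0 * (X 5 5) + 0 * (X 6 5) + (-0) * (X 7 5)) : ℝ) =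
    0 at e
  linarith

theorem e031 {X : Mat 8} (h : ∀ x, X * om x - om x * X = om (X *ᵥ x)) :
    - X 3 0 - X 3 1 = 0 := by
  have e := der_entry h ![1, 0, 0, 0, 0, 0, 0, 0] 3 1
  change (((X 3 0) * 0 + (X 3 1) * 0 + (X 3 2) * 0 + (X 3 3) * 0 + (X 3 4) * 0 + (X 3 5) * 0 + (X 3 6) * 0 + (X 3 7) * 0) -
    (0 * (X 0 1) + 0 * (X 1 1) + 0 * (X 2 1) + 1 * (X 3 1) + 0 * (X 4 1) + (-0) * (X 5 1) + 0 * (X 6 1) + 0 * (X 7 1)) : ℝ) =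
    (X 3 0 * 1 + X 3 1 * 0 + X 3 2 * 0 + X 3 3 * 0 + X 3 4 * 0 + X 3 5 * 0 + X 3 6 * 0 + X 3 7 * 0) at e
  linarith

theorem e036 {X : Mat 8} (h : ∀ x, X * om x - om x * X = om (X *ᵥ x)) :
    - X 3 6 = 0 := by
  have e := der_entry h ![1, 0, 0, 0, 0, 0, 0, 0] 3 6
  change (((X 3 0) * 0 + (X 3 1) * 0 + (X 3 2) * 0 + (X 3 3) * 0 + (X 3 4) * (-0) + (X 3 5) * 0 + (X 3 6) * 0 + (X 3 7) * 0) -
    (0 * (X 0 6) + 0 * (X 1 6) + 0 * (X 2 6) + 1 * (X 3 6) + 0 * (X 4 6) + (-0) * (X 5 6) + 0 * (X 6 6) + 0 * (X 7 6)) : ℝ) =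
    0 at e
  linarith

theorem e041 {X : Mat 8} (h : ∀ x, X * om x - om x * X = om (X *ᵥ x)) :
    - X 4 0 - X 4 1 = 0 := by
  have e := der_entry h ![1, 0, 0, 0, 0, 0, 0, 0] 4 1
  change (((X 4 0) * 0 + (X 4 1) * 0 + (X 4 2) * 0 + (X 4 3) * 0 + (X 4 4) * 0 + (X 4 5) * 0 + (X 4 6) * 0 + (X 4 7) * 0) -
    (0 * (X 0 1) + 0 * (X 1 1) + 0 * (X 2 1) + 0 * (X 3 1) + 1 * (X 4 1) + 0 * (X 5 1) + (-0) * (X 6 1) + 0 * (X 7 1)) : ℝ) =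
    (X 4 0 * 1 + X 4 1 * 0 + X 4 2 * 0 + X 4 3 * 0 + X 4 4 * 0 + X 4 5 * 0 + X 4 6 * 0 + X 4 7 * 0) at e
  linarith

theorem e047 {X : Mat 8} (h : ∀ x, X * om x - om x * X = om (X *ᵥ x)) :
    - X 4 7 = 0 := by
  have e := der_entry h ![1, 0, 0, 0, 0, 0, 0, 0] 4 7
  change (((X 4 0) * 0 + (X 4 1) * 0 + (X 4 2) * (-0) + (X 4 3) * 0 + (X 4 4) * 0 + (X 4 5) * 0 + (X 4 6) * 0 + (X 4 7) * 0) -
    (0 * (X 0 7) + 0 * (X 1 7) + 0 * (X 2 7) + 0 * (X 3 7) + 1 * (X 4 7) + 0 * (X 5 7) + (-0) * (X 6 7) + 0 * (X 7 7)) : ℝ) =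
    0 at e
  linarith

theorem e052 {X : Mat 8} (h : ∀ x, X * om x - om x * X = om (X *ᵥ x)) :
    X 5 2 = 0 := by
  have e := der_entry h ![1, 0, 0, 0, 0, 0, 0, 0] 5 2
  change (((X 5 0) * 0 + (X 5 1) * 0 + (X 5 2) * 1 + (X 5 3) * 0 + (X 5 4) * 0 + (X 5 5) * 0 + (X 5 6) * 0 + (X 5 7) * (-0)) -
    (0 * (X 0 2) + 0 * (X 1 2) + 0 * (X 2 2) + (-0) * (X 3 2) + 0 * (X 4 2) + 0 * (X 5 2) + 0 * (X 6 2) + 0 * (X 7 2)) : ℝ) =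
    0 at e
  linarith

theorem e053 {X : Mat 8} (h : ∀ x, X * om x - om x * X = om (X *ᵥ x)) :
    X 4 0 + X 5 3 = 0 := by
  have e := der_entry h ![1, 0, 0, 0, 0, 0, 0, 0] 5 3
  change (((X 5 0) * 0 + (X 5 1) * 0 + (X 5 2) * 0 + (X 5 3) * 1 + (X 5 4) * 0 + (X 5 5) * (-0) + (X 5 6) * 0 + (X 5 7) * 0) -
    (0 * (X 0 3) + 0 * (X 1 3) + 0 * (X 2 3) + (-0) * (X 3 3) + 0 * (X 4 3) + 0 * (X 5 3) + 0 * (X 6 3) + 0 * (X 7 3)) : ℝ) =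
    -(X 4 0 * 1 + X 4 1 * 0 + X 4 2 * 0 + X 4 3 * 0 + X 4 4 * 0 + X 4 5 * 0 + X 4 6 * 0 + X 4 7 * 0) at e
  linarith

theorem e054 {X : Mat 8} (h : ∀ x, X * om x - om x * X = om (X *ᵥ x)) :
    - X 3 0 + X 5 4 = 0 := by
  have e := der_entry h ![1, 0, 0, 0, 0, 0, 0, 0] 5 4
  change (((X 5 0) * 0 + (X 5 1) * 0 + (X 5 2) * 0 + (X 5 3) * 0 + (X 5 4) * 1 + (X 5 5) * 0 + (X 5 6) * (-0) + (X 5 7) * 0) -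
    (0 * (X 0 4) + 0 * (X 1 4) + 0 * (X 2 4) + (-0) * (X 3 4) + 0 * (X 4 4) + 0 * (X 5 4) + 0 * (X 6 4) + 0 * (X 7 4)) : ℝ) =
    (X 3 0 * 1 + X 3 1 * 0 + X 3 2 * 0 + X 3 3 * 0 + X 3 4 * 0 + X 3 5 * 0 + X 3 6 * 0 + X 3 7 * 0) at e
  linarith

theorem e062 {X : Mat 8} (h : ∀ x, X * om x - om x * X = om (X *ᵥ x)) :
    - X 4 0 + X 6 2 = 0 := by
  have e := der_entry h ![1, 0, 0, 0, 0, 0, 0, 0] 6 2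
  change (((X 6 0) * 0 + (X 6 1) * 0 + (X 6 2) * 1 + (X 6 3) * 0 + (X 6 4) * 0 + (X 6 5) * 0 + (X 6 6) * 0 + (X 6 7) * (-0)) -
    (0 * (X 0 2) + 0 * (X 1 2) + 0 * (X 2 2) + 0 * (X 3 2) + (-0) * (X 4 2) + 0 * (X 5 2) + 0 * (X 6 2) + 0 * (X 7 2)) : ℝ) =
    (X 4 0 * 1 + X 4 1 * 0 + X 4 2 * 0 + X 4 3 * 0 + X 4 4 * 0 + X 4 5 * 0 + X 4 6 * 0 + X 4 7 * 0) at e
  linarith

theorem e063 {X : Mat 8} (h : ∀ x, X * om x - om x * X = om (X *ᵥ x)) :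
    X 6 3 = 0 := by
  have e := der_entry h ![1, 0, 0, 0, 0, 0, 0, 0] 6 3
  change (((X 6 0) * 0 + (X 6 1) * 0 + (X 6 2) * 0 + (X 6 3) * 1 + (X 6 4) * 0 + (X 6 5) * (-0) + (X 6 6) * 0 + (X 6 7) * 0) -
    (0 * (X 0 3) + 0 * (X 1 3) + 0 * (X 2 3) + 0 * (X 3 3) + (-0) * (X 4 3) + 0 * (X 5 3) + 0 * (X 6 3) + 0 * (X 7 3)) : ℝ) =
    0 at e
  linarith

theorem e064 {X : Mat 8} (h : ∀ x, X * om x - om x * X = om (X *ᵥ x)) :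
    X 2 0 + X 6 4 = 0 := by
  have e := der_entry h ![1, 0, 0, 0, 0, 0, 0, 0] 6 4
  change (((X 6 0) * 0 + (X 6 1) * 0 + (X 6 2) * 0 + (X 6 3) * 0 + (X 6 4) * 1 + (X 6 5) * 0 + (X 6 6) * (-0) + (X 6 7) * 0) -
    (0 * (X 0 4) + 0 * (X 1 4) + 0 * (X 2 4) + 0 * (X 3 4) + (-0) * (X 4 4) + 0 * (X 5 4) + 0 * (X 6 4) + 0 * (X 7 4)) : ℝ) =
    -(X 2 0 * 1 + X 2 1 * 0 + X 2 2 * 0 + X 2 3 * 0 + X 2 4 * 0 + X 2 5 * 0 + X 2 6 * 0 + X 2 7 * 0) at e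
  linarith

theorem e072 {X : Mat 8} (h : ∀ x, X * om x - om x * X = om (X *ᵥ x)) :
    X 3 0 + X 7 2 = 0 := by
  have e := der_entry h ![1, 0, 0, 0, 0, 0, 0, 0] 7 2
  change (((X 7 0) * 0 + (X 7 1) * 0 + (X 7 2) * 1 + (X 7 3) * 0 + (X 7 4) * 0 + (X 7 5) * 0 + (X 7 6) * 0 + (X 7 7) * (-0)) -
    (0 * (X 0 2) + 0 * (X 1 2) + (-0) * (X 2 2) + 0 * (X 3 2) + 0 * (X 4 2) + 0 * (X 5 2) + 0 * (X 6 2) + 0 * (X 7 2)) : ℝ) =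
    -(X 3 0 * 1 + X 3 1 * 0 + X 3 2 * 0 + X 3 3 * 0 + X 3 4 * 0 + X 3 5 * 0 + X 3 6 * 0 + X 3 7 * 0) at e
  linarith

theorem e073 {X : Mat 8} (h : ∀ x, X * om x - om x * X = om (X *ᵥ x)) :
    - X 2 0 + X 7 3 = 0 := by
  have e := der_entry h ![1, 0, 0, 0, 0, 0, 0, 0] 7 3
  change (((X 7 0) * 0 + (X 7 1) * 0 + (X 7 2) * 0 + (X 7 3) * 1 + (X 7 4) * 0 + (X 7 5) * (-0) + (X 7 6) * 0 + (X 7 7) * 0) -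
    (0 * (X 0 3) + 0 * (X 1 3) + (-0) * (X 2 3) + 0 * (X 3 3) + 0 * (X 4 3) + 0 * (X 5 3) + 0 * (X 6 3) + 0 * (X 7 3)) : ℝ) =
    (X 2 0 * 1 + X 2 1 * 0 + X 2 2 * 0 + X 2 3 * 0 + X 2 4 * 0 + X 2 5 * 0 + X 2 6 * 0 + X 2 7 * 0) at e
  linarith

theorem e074 {X : Mat 8} (h : ∀ x, X * om x - om x * X = om (X *ᵥ x)) :
    X 7 4 = 0 := by
  have e := der_entry h ![1, 0, 0, 0, 0, 0, 0, 0] 7 4
  change (((X 7 0) * 0 + (X 7 1) * 0 + (X 7 2) * 0 + (X 7 3) * 0 + (X 7 4) * 1 + (X 7 5) * 0 + (X 7 6) * (-0) + (X 7 7) * 0) -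
    (0 * (X 0 4) + 0 * (X 1 4) + (-0) * (X 2 4) + 0 * (X 3 4) + 0 * (X 4 4) + 0 * (X 5 4) + 0 * (X 6 4) + 0 * (X 7 4)) : ℝ) =
    0 at e
  linarith

theorem e111 {X : Mat 8} (h : ∀ x, X * om x - om x * X = om (X *ᵥ x)) :
    - X 1 1 = 0 := by
  have e := der_entry h ![0, 1, 0, 0, 0, 0, 0, 0] 1 1
  change (((X 1 0) * 0 + (X 1 1) * 1 + (X 1 2) * 0 + (X 1 3) * 0 + (X 1 4) * 0 + (X 1 5) * 0 + (X 1 6) * 0 + (X 1 7) * 0) -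
    (0 * (X 0 1) + 1 * (X 1 1) + 0 * (X 2 1) + 0 * (X 3 1) + 0 * (X 4 1) + 0 * (X 5 1) + 0 * (X 6 1) + 0 * (X 7 1)) : ℝ) =
    (X 1 0 * 0 + X 1 1 * 1 + X 1 2 * 0 + X 1 3 * 0 + X 1 4 * 0 + X 1 5 * 0 + X 1 6 * 0 + X 1 7 * 0) at e
  linarith

theorem e112 {X : Mat 8} (h : ∀ x, X * om x - om x * X = om (X *ᵥ x)) :
    - X 1 2 - X 5 1 = 0 := by
  have e := der_entry h ![0, 1, 0, 0, 0, 0, 0, 0] 1 2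
  change (((X 1 0) * 0 + (X 1 1) * 0 + (X 1 2) * 0 + (X 1 3) * 0 + (X 1 4) * 0 + (X 1 5) * 0 + (X 1 6) * 0 + (X 1 7) * (-0)) -
    (0 * (X 0 2) + 1 * (X 1 2) + 0 * (X 2 2) + 0 * (X 3 2) + 0 * (X 4 2) + 0 * (X 5 2) + 0 * (X 6 2) + 0 * (X 7 2)) : ℝ) =
    (X 5 0 * 0 + X 5 1 * 1 + X 5 2 * 0 + X 5 3 * 0 + X 5 4 * 0 + X 5 5 * 0 + X 5 6 * 0 + X 5 7 * 0) at e
  linarith

theorem e113 {X : Mat 8} (h : ∀ x, X * om x - om x * X = om (X *ᵥ x)) :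
    - X 1 3 - X 6 1 = 0 := by
  have e := der_entry h ![0, 1, 0, 0, 0, 0, 0, 0] 1 3
  change (((X 1 0) * 0 + (X 1 1) * 0 + (X 1 2) * 0 + (X 1 3) * 0 + (X 1 4) * 0 + (X 1 5) * (-0) + (X 1 6) * 0 + (X 1 7) * 0) -
    (0 * (X 0 3) + 1 * (X 1 3) + 0 * (X 2 3) + 0 * (X 3 3) + 0 * (X 4 3) + 0 * (X 5 3) + 0 * (X 6 3) + 0 * (X 7 3)) : ℝ) =
    (X 6 0 * 0 + X 6 1 * 1 + X 6 2 * 0 + X 6 3 * 0 + X 6 4 * 0 + X 6 5 * 0 + X 6 6 * 0 + X 6 7 * 0) at e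
  linarith

theorem e114 {X : Mat 8} (h : ∀ x, X * om x - om x * X = om (X *ᵥ x)) :
    - X 1 4 - X 7 1 = 0 := by
  have e := der_entry h ![0, 1, 0, 0, 0, 0, 0, 0] 1 4
  change (((X 1 0) * 0 + (X 1 1) * 0 + (X 1 2) * 0 + (X 1 3) * 0 + (X 1 4) * 0 + (X 1 5) * 0 + (X 1 6) * (-0) + (X 1 7) * 0) -
    (0 * (X 0 4) + 1 * (X 1 4) + 0 * (X 2 4) + 0 * (X 3 4) + 0 * (X 4 4) + 0 * (X 5 4) + 0 * (X 6 4) + 0 * (X 7 4)) : ℝ) =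
    (X 7 0 * 0 + X 7 1 * 1 + X 7 2 * 0 + X 7 3 * 0 + X 7 4 * 0 + X 7 5 * 0 + X 7 6 * 0 + X 7 7 * 0) at e
  linarith

theorem e126 {X : Mat 8} (h : ∀ x, X * om x - om x * X = om (X *ᵥ x)) :
    X 2 6 - X 7 1 = 0 := by
  have e := der_entry h ![0, 1, 0, 0, 0, 0, 0, 0] 2 6
  change (((X 2 0) * 0 + (X 2 1) * 0 + (X 2 2) * 0 + (X 2 3) * 0 + (X 2 4) * (-0) + (X 2 5) * 0 + (X 2 6) * 1 + (X 2 7) * 0) -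
    (0 * (X 0 6) + 0 * (X 1 6) + 0 * (X 2 6) + 0 * (X 3 6) + 0 * (X 4 6) + 0 * (X 5 6) + 0 * (X 6 6) + (-0) * (X 7 6)) : ℝ) =
    (X 7 0 * 0 + X 7 1 * 1 + X 7 2 * 0 + X 7 3 * 0 + X 7 4 * 0 + X 7 5 * 0 + X 7 6 * 0 + X 7 7 * 0) at e
  linarith

theorem e127 {X : Mat 8} (h : ∀ x, X * om x - om x * X = om (X *ᵥ x)) :
    X 2 7 + X 6 1 = 0 := by
  have e := der_entry h ![0, 1, 0, 0, 0, 0, 0, 0] 2 7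
  change (((X 2 0) * 0 + (X 2 1) * 0 + (X 2 2) * (-0) + (X 2 3) * 0 + (X 2 4) * 0 + (X 2 5) * 0 + (X 2 6) * 0 + (X 2 7) * 1) -
    (0 * (X 0 7) + 0 * (X 1 7) + 0 * (X 2 7) + 0 * (X 3 7) + 0 * (X 4 7) + 0 * (X 5 7) + 0 * (X 6 7) + (-0) * (X 7 7)) : ℝ) =
    -(X 6 0 * 0 + X 6 1 * 1 + X 6 2 * 0 + X 6 3 * 0 + X 6 4 * 0 + X 6 5 * 0 + X 6 6 * 0 + X 6 7 * 0) at e
  linarith

theorem e135 {X : Mat 8} (h : ∀ x, X * om x - om x * X = om (X *ᵥ x)) :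
    X 3 5 + X 7 1 = 0 := by
  have e := der_entry h ![0, 1, 0, 0, 0, 0, 0, 0] 3 5
  change (((X 3 0) * 0 + (X 3 1) * 0 + (X 3 2) * 0 + (X 3 3) * (-0) + (X 3 4) * 0 + (X 3 5) * 1 + (X 3 6) * 0 + (X 3 7) * 0) -
    (0 * (X 0 5) + 0 * (X 1 5) + 0 * (X 2 5) + 0 * (X 3 5) + 0 * (X 4 5) + (-0) * (X 5 5) + 0 * (X 6 5) + 0 * (X 7 5)) : ℝ) =
    -(X 7 0 * 0 + X 7 1 * 1 + X 7 2 * 0 + X 7 3 * 0 + X 7 4 * 0 + X 7 5 * 0 + X 7 6 * 0 + X 7 7 * 0) at e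
  linarith

theorem e137 {X : Mat 8} (h : ∀ x, X * om x - om x * X = om (X *ᵥ x)) :
    X 3 7 - X 5 1 = 0 := by
  have e := der_entry h ![0, 1, 0, 0, 0, 0, 0, 0] 3 7
  change (((X 3 0) * 0 + (X 3 1) * 0 + (X 3 2) * (-0) + (X 3 3) * 0 + (X 3 4) * 0 + (X 3 5) * 0 + (X 3 6) * 0 + (X 3 7) * 1) -
    (0 * (X 0 7) + 0 * (X 1 7) + 0 * (X 2 7) + 0 * (X 3 7) + 0 * (X 4 7) + (-0) * (X 5 7) + 0 * (X 6 7) + 0 * (X 7 7)) : ℝ) =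
    (X 5 0 * 0 + X 5 1 * 1 + X 5 2 * 0 + X 5 3 * 0 + X 5 4 * 0 + X 5 5 * 0 + X 5 6 * 0 + X 5 7 * 0) at e
  linarith

theorem e145 {X : Mat 8} (h : ∀ x, X * om x - om x * X = om (X *ᵥ x)) :
    X 4 5 - X 6 1 = 0 := by
  have e := der_entry h ![0, 1, 0, 0, 0, 0, 0, 0] 4 5
  change (((X 4 0) * 0 + (X 4 1) * 0 + (X 4 2) * 0 + (X 4 3) * (-0) + (X 4 4) * 0 + (X 4 5) * 1 + (X 4 6) * 0 + (X 4 7) * 0) -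
    (0 * (X 0 5) + 0 * (X 1 5) + 0 * (X 2 5) + 0 * (X 3 5) + 0 * (X 4 5) + 0 * (X 5 5) + (-0) * (X 6 5) + 0 * (X 7 5)) : ℝ) =
    (X 6 0 * 0 + X 6 1 * 1 + X 6 2 * 0 + X 6 3 * 0 + X 6 4 * 0 + X 6 5 * 0 + X 6 6 * 0 + X 6 7 * 0) at e
  linarith

theorem e146 {X : Mat 8} (h : ∀ x, X * om x - om x * X = om (X *ᵥ x)) :
    X 4 6 + X 5 1 = 0 := by
  have e := der_entry h ![0, 1, 0, 0, 0, 0, 0, 0] 4 6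
  change (((X 4 0) * 0 + (X 4 1) * 0 + (X 4 2) * 0 + (X 4 3) * 0 + (X 4 4) * (-0) + (X 4 5) * 0 + (X 4 6) * 1 + (X 4 7) * 0) -
    (0 * (X 0 6) + 0 * (X 1 6) + 0 * (X 2 6) + 0 * (X 3 6) + 0 * (X 4 6) + 0 * (X 5 6) + (-0) * (X 6 6) + 0 * (X 7 6)) : ℝ) =
    -(X 5 0 * 0 + X 5 1 * 1 + X 5 2 * 0 + X 5 3 * 0 + X 5 4 * 0 + X 5 5 * 0 + X 5 6 * 0 + X 5 7 * 0) at e
  linarith

theorem e150 {X : Mat 8} (h : ∀ x, X * om x - om x * X = om (X *ᵥ x)) :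
    - X 5 0 - X 5 1 = 0 := by
  have e := der_entry h ![0, 1, 0, 0, 0, 0, 0, 0] 5 0
  change (((X 5 0) * 0 + (X 5 1) * 0 + (X 5 2) * 0 + (X 5 3) * 0 + (X 5 4) * 0 + (X 5 5) * 0 + (X 5 6) * 0 + (X 5 7) * 0) -
    (0 * (X 0 0) + 0 * (X 1 0) + 0 * (X 2 0) + (-0) * (X 3 0) + 0 * (X 4 0) + 1 * (X 5 0) + 0 * (X 6 0) + 0 * (X 7 0)) : ℝ) =
    (X 5 0 * 0 + X 5 1 * 1 + X 5 2 * 0 + X 5 3 * 0 + X 5 4 * 0 + X 5 5 * 0 + X 5 6 * 0 + X 5 7 * 0) at e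
  linarith

theorem e160 {X : Mat 8} (h : ∀ x, X * om x - om x * X = om (X *ᵥ x)) :
    - X 6 0 - X 6 1 = 0 := by
  have e := der_entry h ![0, 1, 0, 0, 0, 0, 0, 0] 6 0
  change (((X 6 0) * 0 + (X 6 1) * 0 + (X 6 2) * 0 + (X 6 3) * 0 + (X 6 4) * 0 + (X 6 5) * 0 + (X 6 6) * 0 + (X 6 7) * 0) -
    (0 * (X 0 0) + 0 * (X 1 0) + 0 * (X 2 0) + 0 * (X 3 0) + (-0) * (X 4 0) + 0 * (X 5 0) + 1 * (X 6 0) + 0 * (X 7 0)) : ℝ) =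
    (X 6 0 * 0 + X 6 1 * 1 + X 6 2 * 0 + X 6 3 * 0 + X 6 4 * 0 + X 6 5 * 0 + X 6 6 * 0 + X 6 7 * 0) at e
  linarith

theorem e170 {X : Mat 8} (h : ∀ x, X * om x - om x * X = om (X *ᵥ x)) :
    - X 7 0 - X 7 1 = 0 := by
  have e := der_entry h ![0, 1, 0, 0, 0, 0, 0, 0] 7 0
  change (((X 7 0) * 0 + (X 7 1) * 0 + (X 7 2) * 0 + (X 7 3) * 0 + (X 7 4) * 0 + (X 7 5) * 0 + (X 7 6) * 0 + (X 7 7) * 0) -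
    (0 * (X 0 0) + 0 * (X 1 0) + (-0) * (X 2 0) + 0 * (X 3 0) + 0 * (X 4 0) + 0 * (X 5 0) + 0 * (X 6 0) + 1 * (X 7 0)) : ℝ) =
    (X 7 0 * 0 + X 7 1 * 1 + X 7 2 * 0 + X 7 3 * 0 + X 7 4 * 0 + X 7 5 * 0 + X 7 6 * 0 + X 7 7 * 0) at e
  linarith

theorem e201 {X : Mat 8} (h : ∀ x, X * om x - om x * X = om (X *ᵥ x)) :
    X 0 2 - X 5 1 = 0 := by
  have e := der_entry h ![0, 0, 1, 0, 0, 0, 0, 0] 0 1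
  change (((X 0 0) * 0 + (X 0 1) * 0 + (X 0 2) * 1 + (X 0 3) * 0 + (X 0 4) * 0 + (X 0 5) * 0 + (X 0 6) * 0 + (X 0 7) * 0) -
    (0 * (X 0 1) + 0 * (X 1 1) + 0 * (X 2 1) + 0 * (X 3 1) + 0 * (X 4 1) + 1 * (X 5 1) + 0 * (X 6 1) + 0 * (X 7 1)) : ℝ) =
    0 at e
  linarith

theorem e205 {X : Mat 8} (h : ∀ x, X * om x - om x * X = om (X *ᵥ x)) :
    X 0 0 - X 2 2 - X 5 5 = 0 := by
  have e := der_entry h ![0, 0, 1, 0, 0, 0, 0, 0] 0 5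
  change (((X 0 0) * 1 + (X 0 1) * 0 + (X 0 2) * 0 + (X 0 3) * (-0) + (X 0 4) * 0 + (X 0 5) * 0 + (X 0 6) * 0 + (X 0 7) * 0) -
    (0 * (X 0 5) + 0 * (X 1 5) + 0 * (X 2 5) + 0 * (X 3 5) + 0 * (X 4 5) + 1 * (X 5 5) + 0 * (X 6 5) + 0 * (X 7 5)) : ℝ) =
    (X 2 0 * 0 + X 2 1 * 0 + X 2 2 * 1 + X 2 3 * 0 + X 2 4 * 0 + X 2 5 * 0 + X 2 6 * 0 + X 2 7 * 0) at e
  linarith

theorem e206 {X : Mat 8} (h : ∀ x, X * om x - om x * X = om (X *ᵥ x)) :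
    - X 3 2 - X 5 6 = 0 := by
  have e := der_entry h ![0, 0, 1, 0, 0, 0, 0, 0] 0 6
  change (((X 0 0) * 0 + (X 0 1) * 0 + (X 0 2) * 0 + (X 0 3) * 0 + (X 0 4) * (-0) + (X 0 5) * 0 + (X 0 6) * 0 + (X 0 7) * 0) -
    (0 * (X 0 6) + 0 * (X 1 6) + 0 * (X 2 6) + 0 * (X 3 6) + 0 * (X 4 6) + 1 * (X 5 6) + 0 * (X 6 6) + 0 * (X 7 6)) : ℝ) =
    (X 3 0 * 0 + X 3 1 * 0 + X 3 2 * 1 + X 3 3 * 0 + X 3 4 * 0 + X 3 5 * 0 + X 3 6 * 0 + X 3 7 * 0) at e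
  linarith

theorem e207 {X : Mat 8} (h : ∀ x, X * om x - om x * X = om (X *ᵥ x)) :
    - X 4 2 - X 5 7 = 0 := by
  have e := der_entry h ![0, 0, 1, 0, 0, 0, 0, 0] 0 7
  change (((X 0 0) * 0 + (X 0 1) * 0 + (X 0 2) * (-0) + (X 0 3) * 0 + (X 0 4) * 0 + (X 0 5) * 0 + (X 0 6) * 0 + (X 0 7) * 0) -
    (0 * (X 0 7) + 0 * (X 1 7) + 0 * (X 2 7) + 0 * (X 3 7) + 0 * (X 4 7) + 1 * (X 5 7) + 0 * (X 6 7) + 0 * (X 7 7)) : ℝ) =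
    (X 4 0 * 0 + X 4 1 * 0 + X 4 2 * 1 + X 4 3 * 0 + X 4 4 * 0 + X 4 5 * 0 + X 4 6 * 0 + X 4 7 * 0) at e
  linarith

theorem e225 {X : Mat 8} (h : ∀ x, X * om x - om x * X = om (X *ᵥ x)) :
    - X 1 5 + X 2 0 = 0 := by
  have e := der_entry h ![0, 0, 1, 0, 0, 0, 0, 0] 2 5
  change (((X 2 0) * 1 + (X 2 1) * 0 + (X 2 2) * 0 + (X 2 3) * (-0) + (X 2 4) * 0 + (X 2 5) * 0 + (X 2 6) * 0 + (X 2 7) * 0) -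
    (0 * (X 0 5) + 1 * (X 1 5) + 0 * (X 2 5) + 0 * (X 3 5) + 0 * (X 4 5) + 0 * (X 5 5) + 0 * (X 6 5) + (-0) * (X 7 5)) : ℝ) =
    0 at e
  linarith

theorem e263 {X : Mat 8} (h : ∀ x, X * om x - om x * X = om (X *ᵥ x)) :
    X 4 3 + X 6 7 = 0 := by
  have e := der_entry h ![0, 0, 1, 0, 0, 0, 0, 0] 6 3
  change (((X 6 0) * 0 + (X 6 1) * 0 + (X 6 2) * 0 + (X 6 3) * 0 + (X 6 4) * 0 + (X 6 5) * (-0) + (X 6 6) * 0 + (X 6 7) * 1) -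
    (0 * (X 0 3) + 0 * (X 1 3) + 0 * (X 2 3) + 0 * (X 3 3) + (-1) * (X 4 3) + 0 * (X 5 3) + 0 * (X 6 3) + 0 * (X 7 3)) : ℝ) =
    0 at e
  linarith

theorem e264 {X : Mat 8} (h : ∀ x, X * om x - om x * X = om (X *ᵥ x)) :
    X 2 2 + X 4 4 - X 6 6 = 0 := by
  have e := der_entry h ![0, 0, 1, 0, 0, 0, 0, 0] 6 4
  change (((X 6 0) * 0 + (X 6 1) * 0 + (X 6 2) * 0 + (X 6 3) * 0 + (X 6 4) * 0 + (X 6 5) * 0 + (X 6 6) * (-1) + (X 6 7) * 0) -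
    (0 * (X 0 4) + 0 * (X 1 4) + 0 * (X 2 4) + 0 * (X 3 4) + (-1) * (X 4 4) + 0 * (X 5 4) + 0 * (X 6 4) + 0 * (X 7 4)) : ℝ) =
    -(X 2 0 * 0 + X 2 1 * 0 + X 2 2 * 1 + X 2 3 * 0 + X 2 4 * 0 + X 2 5 * 0 + X 2 6 * 0 + X 2 7 * 0) at e
  linarith

theorem e274 {X : Mat 8} (h : ∀ x, X * om x - om x * X = om (X *ᵥ x)) :
    - X 3 4 - X 7 6 = 0 := by
  have e := der_entry h ![0, 0, 1, 0, 0, 0, 0, 0] 7 4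
  change (((X 7 0) * 0 + (X 7 1) * 0 + (X 7 2) * 0 + (X 7 3) * 0 + (X 7 4) * 0 + (X 7 5) * 0 + (X 7 6) * (-1) + (X 7 7) * 0) -
    (0 * (X 0 4) + 0 * (X 1 4) + (-0) * (X 2 4) + 1 * (X 3 4) + 0 * (X 4 4) + 0 * (X 5 4) + 0 * (X 6 4) + 0 * (X 7 4)) : ℝ) =
    0 at e
  linarith

theorem e301 {X : Mat 8} (h : ∀ x, X * om x - om x * X = om (X *ᵥ x)) :
    X 0 3 - X 6 1 = 0 := by
  have e := der_entry h ![0, 0, 0, 1, 0, 0, 0, 0] 0 1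
  change (((X 0 0) * 0 + (X 0 1) * 0 + (X 0 2) * 0 + (X 0 3) * 1 + (X 0 4) * 0 + (X 0 5) * 0 + (X 0 6) * 0 + (X 0 7) * 0) -
    (0 * (X 0 1) + 0 * (X 1 1) + 0 * (X 2 1) + 0 * (X 3 1) + 0 * (X 4 1) + 0 * (X 5 1) + 1 * (X 6 1) + 0 * (X 7 1)) : ℝ) =
    0 at e
  linarith

theorem e305 {X : Mat 8} (h : ∀ x, X * om x - om x * X = om (X *ᵥ x)) :
    - X 2 3 - X 6 5 = 0 := by
  have e := der_entry h ![0, 0, 0, 1, 0, 0, 0, 0] 0 5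
  change (((X 0 0) * 0 + (X 0 1) * 0 + (X 0 2) * 0 + (X 0 3) * (-0) + (X 0 4) * 0 + (X 0 5) * 0 + (X 0 6) * 0 + (X 0 7) * 0) -
    (0 * (X 0 5) + 0 * (X 1 5) + 0 * (X 2 5) + 0 * (X 3 5) + 0 * (X 4 5) + 0 * (X 5 5) + 1 * (X 6 5) + 0 * (X 7 5)) : ℝ) =
    (X 2 0 * 0 + X 2 1 * 0 + X 2 2 * 0 + X 2 3 * 1 + X 2 4 * 0 + X 2 5 * 0 + X 2 6 * 0 + X 2 7 * 0) at e
  linarith

theorem e306 {X : Mat 8} (h : ∀ x, X * om x - om x * X = om (X *ᵥ x)) :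
    X 0 0 - X 3 3 - X 6 6 = 0 := by
  have e := der_entry h ![0, 0, 0, 1, 0, 0, 0, 0] 0 6
  change (((X 0 0) * 1 + (X 0 1) * 0 + (X 0 2) * 0 + (X 0 3) * 0 + (X 0 4) * (-0) + (X 0 5) * 0 + (X 0 6) * 0 + (X 0 7) * 0) -
    (0 * (X 0 6) + 0 * (X 1 6) + 0 * (X 2 6) + 0 * (X 3 6) + 0 * (X 4 6) + 0 * (X 5 6) + 1 * (X 6 6) + 0 * (X 7 6)) : ℝ) =
    (X 3 0 * 0 + X 3 1 * 0 + X 3 2 * 0 + X 3 3 * 1 + X 3 4 * 0 + X 3 5 * 0 + X 3 6 * 0 + X 3 7 * 0) at e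
  linarith

theorem e336 {X : Mat 8} (h : ∀ x, X * om x - om x * X = om (X *ᵥ x)) :
    - X 1 6 + X 3 0 = 0 := by
  have e := der_entry h ![0, 0, 0, 1, 0, 0, 0, 0] 3 6
  change (((X 3 0) * 1 + (X 3 1) * 0 + (X 3 2) * 0 + (X 3 3) * 0 + (X 3 4) * (-0) + (X 3 5) * 0 + (X 3 6) * 0 + (X 3 7) * 0) -
    (0 * (X 0 6) + 1 * (X 1 6) + 0 * (X 2 6) + 0 * (X 3 6) + 0 * (X 4 6) + (-0) * (X 5 6) + 0 * (X 6 6) + 0 * (X 7 6)) : ℝ) =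
    0 at e
  linarith

theorem e374 {X : Mat 8} (h : ∀ x, X * om x - om x * X = om (X *ᵥ x)) :
    X 2 4 + X 7 5 = 0 := by
  have e := der_entry h ![0, 0, 0, 1, 0, 0, 0, 0] 7 4
  change (((X 7 0) * 0 + (X 7 1) * 0 + (X 7 2) * 0 + (X 7 3) * 0 + (X 7 4) * 0 + (X 7 5) * 1 + (X 7 6) * (-0) + (X 7 7) * 0) -
    (0 * (X 0 4) + 0 * (X 1 4) + (-1) * (X 2 4) + 0 * (X 3 4) + 0 * (X 4 4) + 0 * (X 5 4) + 0 * (X 6 4) + 0 * (X 7 4)) : ℝ) =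
    0 at e
  linarith

theorem e401 {X : Mat 8} (h : ∀ x, X * om x - om x * X = om (X *ᵥ x)) :
    X 0 4 - X 7 1 = 0 := by
  have e := der_entry h ![0, 0, 0, 0, 1, 0, 0, 0] 0 1
  change (((X 0 0) * 0 + (X 0 1) * 0 + (X 0 2) * 0 + (X 0 3) * 0 + (X 0 4) * 1 + (X 0 5) * 0 + (X 0 6) * 0 + (X 0 7) * 0) -
    (0 * (X 0 1) + 0 * (X 1 1) + 0 * (X 2 1) + 0 * (X 3 1) + 0 * (X 4 1) + 0 * (X 5 1) + 0 * (X 6 1) + 1 * (X 7 1)) : ℝ) =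
    0 at e
  linarith

theorem e407 {X : Mat 8} (h : ∀ x, X * om x - om x * X = om (X *ᵥ x)) :
    X 0 0 - X 4 4 - X 7 7 = 0 := by
  have e := der_entry h ![0, 0, 0, 0, 1, 0, 0, 0] 0 7
  change (((X 0 0) * 1 + (X 0 1) * 0 + (X 0 2) * (-0) + (X 0 3) * 0 + (X 0 4) * 0 + (X 0 5) * 0 + (X 0 6) * 0 + (X 0 7) * 0) -
    (0 * (X 0 7) + 0 * (X 1 7) + 0 * (X 2 7) + 0 * (X 3 7) + 0 * (X 4 7) + 0 * (X 5 7) + 0 * (X 6 7) + 1 * (X 7 7)) : ℝ) =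
    (X 4 0 * 0 + X 4 1 * 0 + X 4 2 * 0 + X 4 3 * 0 + X 4 4 * 1 + X 4 5 * 0 + X 4 6 * 0 + X 4 7 * 0) at e
  linarith

theorem e447 {X : Mat 8} (h : ∀ x, X * om x - om x * X = om (X *ᵥ x)) :
    - X 1 7 + X 4 0 = 0 := by
  have e := der_entry h ![0, 0, 0, 0, 1, 0, 0, 0] 4 7
  change (((X 4 0) * 1 + (X 4 1) * 0 + (X 4 2) * (-0) + (X 4 3) * 0 + (X 4 4) * 0 + (X 4 5) * 0 + (X 4 6) * 0 + (X 4 7) * 0) -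
    (0 * (X 0 7) + 1 * (X 1 7) + 0 * (X 2 7) + 0 * (X 3 7) + 0 * (X 4 7) + 0 * (X 5 7) + (-0) * (X 6 7) + 0 * (X 7 7)) : ℝ) =
    0 at e
  linarith

theorem gm_of_der {X : Mat 8} (h : ∀ x, X * om x - om x * X = om (X *ᵥ x)) :
    X = gm ![X 2 0, X 3 0, X 4 0, X 5 1, X 6 1, X 7 1, X 2 3, X 2 4, X 3 2, X 3 4, X 4 2, X 4 3,
      X 2 2, X 3 3] := by
  ext i j
  fin_cases i <;> fin_cases j
  · change (X 0 0 : ℝ) = 0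
    linarith [e000 h]
  · change (X 0 1 : ℝ) = 0
    linarith [e001 h]
  · change (X 0 2 : ℝ) = X 5 1
    linarith [e201 h]
  · change (X 0 3 : ℝ) = X 6 1
    linarith [e301 h]
  · change (X 0 4 : ℝ) = X 7 1
    linarith [e401 h]
  · change (X 0 5 : ℝ) = -X 2 0
    linarith [e005 h]
  · change (X 0 6 : ℝ) = -X 3 0
    linarith [e006 h]
  · change (X 0 7 : ℝ) = -X 4 0
    linarith [e007 h]
  · change (X 1 0 : ℝ) = 0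
    linarith [e010 h]
  · change (X 1 1 : ℝ) = 0
    linarith [e111 h]
  · change (X 1 2 : ℝ) = -X 5 1
    linarith [e112 h]
  · change (X 1 3 : ℝ) = -X 6 1
    linarith [e113 h]
  · change (X 1 4 : ℝ) = -X 7 1
    linarith [e114 h]
  · change (X 1 5 : ℝ) = X 2 0
    linarith [e225 h]
  · change (X 1 6 : ℝ) = X 3 0
    linarith [e336 h]
  · change (X 1 7 : ℝ) = X 4 0
    linarith [e447 h]
  · change (X 2 0 : ℝ) = X 2 0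
    rfl
  · change (X 2 1 : ℝ) = -X 2 0
    linarith [e021 h]
  · change (X 2 2 : ℝ) = X 2 2
    rfl
  · change (X 2 3 : ℝ) = X 2 3
    rfl
  · change (X 2 4 : ℝ) = X 2 4
    rfl
  · change (X 2 5 : ℝ) = 0
    linarith [e025 h]
  · change (X 2 6 : ℝ) = X 7 1
    linarith [e126 h]
  · change (X 2 7 : ℝ) = -X 6 1
    linarith [e127 h]
  · change (X 3 0 : ℝ) = X 3 0
    rfl
  · change (X 3 1 : ℝ) = -X 3 0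
    linarith [e031 h]
  · change (X 3 2 : ℝ) = X 3 2
    rfl
  · change (X 3 3 : ℝ) = X 3 3
    rfl
  · change (X 3 4 : ℝ) = X 3 4
    rfl
  · change (X 3 5 : ℝ) = -X 7 1
    linarith [e135 h]
  · change (X 3 6 : ℝ) = 0
    linarith [e036 h]
  · change (X 3 7 : ℝ) = X 5 1
    linarith [e137 h]
  · change (X 4 0 : ℝ) = X 4 0
    rfl
  · change (X 4 1 : ℝ) = -X 4 0
    linarith [e041 h]
  · change (X 4 2 : ℝ) = X 4 2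
    rfl
  · change (X 4 3 : ℝ) = X 4 3
    rfl
  · change (X 4 4 : ℝ) = -X 2 2 - X 3 3
    linarith [e264 h, e306 h, e000 h]
  · change (X 4 5 : ℝ) = X 6 1
    linarith [e145 h]
  · change (X 4 6 : ℝ) = -X 5 1
    linarith [e146 h]
  · change (X 4 7 : ℝ) = 0
    linarith [e047 h]
  · change (X 5 0 : ℝ) = -X 5 1
    linarith [e150 h]
  · change (X 5 1 : ℝ) = X 5 1
    rfl
  · change (X 5 2 : ℝ) = 0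
    linarith [e052 h]
  · change (X 5 3 : ℝ) = -X 4 0
    linarith [e053 h]
  · change (X 5 4 : ℝ) = X 3 0
    linarith [e054 h]
  · change (X 5 5 : ℝ) = -X 2 2
    linarith [e205 h, e000 h]
  · change (X 5 6 : ℝ) = -X 3 2
    linarith [e206 h]
  · change (X 5 7 : ℝ) = -X 4 2
    linarith [e207 h]
  · change (X 6 0 : ℝ) = -X 6 1
    linarith [e160 h]
  · change (X 6 1 : ℝ) = X 6 1
    rfl
  · change (X 6 2 : ℝ) = X 4 0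
    linarith [e062 h]
  · change (X 6 3 : ℝ) = 0
    linarith [e063 h]
  · change (X 6 4 : ℝ) = -X 2 0
    linarith [e064 h]
  · change (X 6 5 : ℝ) = -X 2 3
    linarith [e305 h]
  · change (X 6 6 : ℝ) = -X 3 3
    linarith [e306 h, e000 h]
  · change (X 6 7 : ℝ) = -X 4 3
    linarith [e263 h]
  · change (X 7 0 : ℝ) = -X 7 1
    linarith [e170 h]
  · change (X 7 1 : ℝ) = X 7 1
    rfl
  · change (X 7 2 : ℝ) = -X 3 0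
    linarith [e072 h]
  · change (X 7 3 : ℝ) = X 2 0
    linarith [e073 h]
  · change (X 7 4 : ℝ) = 0
    linarith [e074 h]
  · change (X 7 5 : ℝ) = -X 2 4
    linarith [e374 h]
  · change (X 7 6 : ℝ) = -X 3 4
    linarith [e274 h]
  · change (X 7 7 : ℝ) = X 2 2 + X 3 3
    linarith [e407 h, e264 h, e306 h, e000 h]

/-- a generic diagonal element -/
def hh : Fin 8 → ℝ := ![0, 0, 1, 3, -4, -1, -3, 4]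

/-- the weights -/
def lm : Fin 14 → ℝ := ![1, 3, -4, -1, -3, 4, -2, 5, 2, 7, -5, -7, 0, 0]

theorem had_gm (φ : ℝ → ℝ) (p : Fin 14 → ℝ) :
    H720.Re.had hh φ (gm p) = gm fun k => φ (lm k) * p k := by
  ext i j
  rw [H720.Re.had_apply]
  fin_cases i <;> fin_cases j
  · change (φ ((0 : ℝ) - 0) * 0 : ℝ) = 0
    ring
  · change (φ ((0 : ℝ) - 0) * 0 : ℝ) = 0
    ring
  · change (φ ((0 : ℝ) - 1) * p 3 : ℝ) = (φ (-1) * p 3)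
    rw [show (((0 : ℝ) - 1) : ℝ) = (-1) by norm_num]
    try ring
  · change (φ ((0 : ℝ) - 3) * p 4 : ℝ) = (φ (-3) * p 4)
    rw [show (((0 : ℝ) - 3) : ℝ) = (-3) by norm_num]
    try ring
  · change (φ ((0 : ℝ) - (-4)) * p 5 : ℝ) = (φ 4 * p 5)
    rw [show (((0 : ℝ) - (-4)) : ℝ) = 4 by norm_num]
    try ring
  · change (φ ((0 : ℝ) - (-1)) * (-p 0) : ℝ) = -(φ 1 * p 0)
    rw [show (((0 : ℝ) - (-1)) : ℝ) = 1 by norm_num]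
    try ring
  · change (φ ((0 : ℝ) - (-3)) * (-p 1) : ℝ) = -(φ 3 * p 1)
    rw [show (((0 : ℝ) - (-3)) : ℝ) = 3 by norm_num]
    try ring
  · change (φ ((0 : ℝ) - 4) * (-p 2) : ℝ) = -(φ (-4) * p 2)
    rw [show (((0 : ℝ) - 4) : ℝ) = (-4) by norm_num]
    try ring
  · change (φ ((0 : ℝ) - 0) * 0 : ℝ) = 0
    ring
  · change (φ ((0 : ℝ) - 0) * 0 : ℝ) = 0
    ring
  · change (φ ((0 : ℝ) - 1) * (-p 3) : ℝ) = -(φ (-1) * p 3)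
    rw [show (((0 : ℝ) - 1) : ℝ) = (-1) by norm_num]
    try ring
  · change (φ ((0 : ℝ) - 3) * (-p 4) : ℝ) = -(φ (-3) * p 4)
    rw [show (((0 : ℝ) - 3) : ℝ) = (-3) by norm_num]
    try ring
  · change (φ ((0 : ℝ) - (-4)) * (-p 5) : ℝ) = -(φ 4 * p 5)
    rw [show (((0 : ℝ) - (-4)) : ℝ) = 4 by norm_num]
    try ring
  · change (φ ((0 : ℝ) - (-1)) * p 0 : ℝ) = (φ 1 * p 0)
    rw [show (((0 : ℝ) - (-1)) : ℝ) = 1 by norm_num]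
    try ring
  · change (φ ((0 : ℝ) - (-3)) * p 1 : ℝ) = (φ 3 * p 1)
    rw [show (((0 : ℝ) - (-3)) : ℝ) = 3 by norm_num]
    try ring
  · change (φ ((0 : ℝ) - 4) * p 2 : ℝ) = (φ (-4) * p 2)
    rw [show (((0 : ℝ) - 4) : ℝ) = (-4) by norm_num]
    try ring
  · change (φ ((1 : ℝ) - 0) * p 0 : ℝ) = (φ 1 * p 0)
    rw [show (((1 : ℝ) - 0) : ℝ) = 1 by norm_num]
    try ring
  · change (φ ((1 : ℝ) - 0) * (-p 0) : ℝ) = -(φ 1 * p 0)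
    rw [show (((1 : ℝ) - 0) : ℝ) = 1 by norm_num]
    try ring
  · change (φ ((1 : ℝ) - 1) * p 12 : ℝ) = (φ 0 * p 12)
    rw [show (((1 : ℝ) - 1) : ℝ) = 0 by norm_num]
    try ring
  · change (φ ((1 : ℝ) - 3) * p 6 : ℝ) = (φ (-2) * p 6)
    rw [show (((1 : ℝ) - 3) : ℝ) = (-2) by norm_num]
    try ring
  · change (φ ((1 : ℝ) - (-4)) * p 7 : ℝ) = (φ 5 * p 7)
    rw [show (((1 : ℝ) - (-4)) : ℝ) = 5 by norm_num]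
    try ring
  · change (φ ((1 : ℝ) - (-1)) * 0 : ℝ) = 0
    ring
  · change (φ ((1 : ℝ) - (-3)) * p 5 : ℝ) = (φ 4 * p 5)
    rw [show (((1 : ℝ) - (-3)) : ℝ) = 4 by norm_num]
    try ring
  · change (φ ((1 : ℝ) - 4) * (-p 4) : ℝ) = -(φ (-3) * p 4)
    rw [show (((1 : ℝ) - 4) : ℝ) = (-3) by norm_num]
    try ring
  · change (φ ((3 : ℝ) - 0) * p 1 : ℝ) = (φ 3 * p 1)
    rw [show (((3 : ℝ) - 0) : ℝ) = 3 by norm_num]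
    try ring
  · change (φ ((3 : ℝ) - 0) * (-p 1) : ℝ) = -(φ 3 * p 1)
    rw [show (((3 : ℝ) - 0) : ℝ) = 3 by norm_num]
    try ring
  · change (φ ((3 : ℝ) - 1) * p 8 : ℝ) = (φ 2 * p 8)
    rw [show (((3 : ℝ) - 1) : ℝ) = 2 by norm_num]
    try ring
  · change (φ ((3 : ℝ) - 3) * p 13 : ℝ) = (φ 0 * p 13)
    rw [show (((3 : ℝ) - 3) : ℝ) = 0 by norm_num]
    try ring
  · change (φ ((3 : ℝ) - (-4)) * p 9 : ℝ) = (φ 7 * p 9)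
    rw [show (((3 : ℝ) - (-4)) : ℝ) = 7 by norm_num]
    try ring
  · change (φ ((3 : ℝ) - (-1)) * (-p 5) : ℝ) = -(φ 4 * p 5)
    rw [show (((3 : ℝ) - (-1)) : ℝ) = 4 by norm_num]
    try ring
  · change (φ ((3 : ℝ) - (-3)) * 0 : ℝ) = 0
    ring
  · change (φ ((3 : ℝ) - 4) * p 3 : ℝ) = (φ (-1) * p 3)
    rw [show (((3 : ℝ) - 4) : ℝ) = (-1) by norm_num]
    try ring
  · change (φ ((-4 : ℝ) - 0) * p 2 : ℝ) = (φ (-4) * p 2)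
    rw [show (((-4 : ℝ) - 0) : ℝ) = (-4) by norm_num]
    try ring
  · change (φ ((-4 : ℝ) - 0) * (-p 2) : ℝ) = -(φ (-4) * p 2)
    rw [show (((-4 : ℝ) - 0) : ℝ) = (-4) by norm_num]
    try ring
  · change (φ ((-4 : ℝ) - 1) * p 10 : ℝ) = (φ (-5) * p 10)
    rw [show (((-4 : ℝ) - 1) : ℝ) = (-5) by norm_num]
    try ring
  · change (φ ((-4 : ℝ) - 3) * p 11 : ℝ) = (φ (-7) * p 11)
    rw [show (((-4 : ℝ) - 3) : ℝ) = (-7) by norm_num]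
    try ring
  · change (φ ((-4 : ℝ) - (-4)) * (-p 12 - p 13) : ℝ) = -(φ 0 * p 12) - (φ 0 * p 13)
    rw [show (((-4 : ℝ) - (-4)) : ℝ) = 0 by norm_num]
    try ring
  · change (φ ((-4 : ℝ) - (-1)) * p 4 : ℝ) = (φ (-3) * p 4)
    rw [show (((-4 : ℝ) - (-1)) : ℝ) = (-3) by norm_num]
    try ring
  · change (φ ((-4 : ℝ) - (-3)) * (-p 3) : ℝ) = -(φ (-1) * p 3)
    rw [show (((-4 : ℝ) - (-3)) : ℝ) = (-1) by norm_num]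
    try ring
  · change (φ ((-4 : ℝ) - 4) * 0 : ℝ) = 0
    ring
  · change (φ ((-1 : ℝ) - 0) * (-p 3) : ℝ) = -(φ (-1) * p 3)
    rw [show (((-1 : ℝ) - 0) : ℝ) = (-1) by norm_num]
    try ring
  · change (φ ((-1 : ℝ) - 0) * p 3 : ℝ) = (φ (-1) * p 3)
    rw [show (((-1 : ℝ) - 0) : ℝ) = (-1) by norm_num]
    try ring
  · change (φ ((-1 : ℝ) - 1) * 0 : ℝ) = 0
    ring
  · change (φ ((-1 : ℝ) - 3) * (-p 2) : ℝ) = -(φ (-4) * p 2)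
    rw [show (((-1 : ℝ) - 3) : ℝ) = (-4) by norm_num]
    try ring
  · change (φ ((-1 : ℝ) - (-4)) * p 1 : ℝ) = (φ 3 * p 1)
    rw [show (((-1 : ℝ) - (-4)) : ℝ) = 3 by norm_num]
    try ring
  · change (φ ((-1 : ℝ) - (-1)) * (-p 12) : ℝ) = -(φ 0 * p 12)
    rw [show (((-1 : ℝ) - (-1)) : ℝ) = 0 by norm_num]
    try ring
  · change (φ ((-1 : ℝ) - (-3)) * (-p 8) : ℝ) = -(φ 2 * p 8)
    rw [show (((-1 : ℝ) - (-3)) : ℝ) = 2 by norm_num]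
    try ring
  · change (φ ((-1 : ℝ) - 4) * (-p 10) : ℝ) = -(φ (-5) * p 10)
    rw [show (((-1 : ℝ) - 4) : ℝ) = (-5) by norm_num]
    try ring
  · change (φ ((-3 : ℝ) - 0) * (-p 4) : ℝ) = -(φ (-3) * p 4)
    rw [show (((-3 : ℝ) - 0) : ℝ) = (-3) by norm_num]
    try ring
  · change (φ ((-3 : ℝ) - 0) * p 4 : ℝ) = (φ (-3) * p 4)
    rw [show (((-3 : ℝ) - 0) : ℝ) = (-3) by norm_num]
    try ring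
  · change (φ ((-3 : ℝ) - 1) * p 2 : ℝ) = (φ (-4) * p 2)
    rw [show (((-3 : ℝ) - 1) : ℝ) = (-4) by norm_num]
    try ring
  · change (φ ((-3 : ℝ) - 3) * 0 : ℝ) = 0
    ring
  · change (φ ((-3 : ℝ) - (-4)) * (-p 0) : ℝ) = -(φ 1 * p 0)
    rw [show (((-3 : ℝ) - (-4)) : ℝ) = 1 by norm_num]
    try ring
  · change (φ ((-3 : ℝ) - (-1)) * (-p 6) : ℝ) = -(φ (-2) * p 6)
    rw [show (((-3 : ℝ) - (-1)) : ℝ) = (-2) by norm_num]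
    try ring
  · change (φ ((-3 : ℝ) - (-3)) * (-p 13) : ℝ) = -(φ 0 * p 13)
    rw [show (((-3 : ℝ) - (-3)) : ℝ) = 0 by norm_num]
    try ring
  · change (φ ((-3 : ℝ) - 4) * (-p 11) : ℝ) = -(φ (-7) * p 11)
    rw [show (((-3 : ℝ) - 4) : ℝ) = (-7) by norm_num]
    try ring
  · change (φ ((4 : ℝ) - 0) * (-p 5) : ℝ) = -(φ 4 * p 5)
    rw [show (((4 : ℝ) - 0) : ℝ) = 4 by norm_num]
    try ring
  · change (φ ((4 : ℝ) - 0) * p 5 : ℝ) = (φ 4 * p 5)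
    rw [show (((4 : ℝ) - 0) : ℝ) = 4 by norm_num]
    try ring
  · change (φ ((4 : ℝ) - 1) * (-p 1) : ℝ) = -(φ 3 * p 1)
    rw [show (((4 : ℝ) - 1) : ℝ) = 3 by norm_num]
    try ring
  · change (φ ((4 : ℝ) - 3) * p 0 : ℝ) = (φ 1 * p 0)
    rw [show (((4 : ℝ) - 3) : ℝ) = 1 by norm_num]
    try ring
  · change (φ ((4 : ℝ) - (-4)) * 0 : ℝ) = 0
    ring
  · change (φ ((4 : ℝ) - (-1)) * (-p 7) : ℝ) = -(φ 5 * p 7)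
    rw [show (((4 : ℝ) - (-1)) : ℝ) = 5 by norm_num]
    try ring
  · change (φ ((4 : ℝ) - (-3)) * (-p 9) : ℝ) = -(φ 7 * p 9)
    rw [show (((4 : ℝ) - (-3)) : ℝ) = 7 by norm_num]
    try ring
  · change (φ ((4 : ℝ) - 4) * (p 12 + p 13) : ℝ) = (φ 0 * p 12) + (φ 0 * p 13)
    rw [show (((4 : ℝ) - 4) : ℝ) = 0 by norm_num]
    try ring

end Vale.Agent.P092.H41.Re.G2
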