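import Vale.Agent.P092.H41.Re.G2b

/-!
P092, project RE, row [RE-EX] (helper41), part 6: the norm form of the split octonions; the
automorphism group is stable under transposition. (The entrywise verifications are generated.)
-/

set_option linter.all false

open Matrix Filter Topology

namespace Vale.Agent.P092.H41.Re.G2

open Vale.Agent.P092.H793.Re

/-- the norm form -/
def Bm : Mat 8 :=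
  !![0, 1, 0, 0, 0, 0, 0, 0;
     1, 0, 0, 0, 0, 0, 0, 0;
     0, 0, 0, 0, 0, -1, 0, 0;
     0, 0, 0, 0, 0, 0, -1, 0;
     0, 0, 0, 0, 0, 0, 0, -1;
     0, 0, -1, 0, 0, 0, 0, 0;
     0, 0, 0, -1, 0, 0, 0, 0;
     0, 0, 0, 0, -1, 0, 0, 0]

theorem Bm_sq : Bm * Bm = 1 := by
  ext i j
  rw [Matrix.mul_apply, Fin.sum_univ_eight]
  fin_cases i <;> fin_cases j
  · change (0 * 0 + 1 * 1 + 0 * 0 + 0 * 0 + 0 * 0 + 0 * 0 + 0 * 0 + 0 * 0 : ℝ) =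
      1
    norm_num
  · change (0 * 1 + 1 * 0 + 0 * 0 + 0 * 0 + 0 * 0 + 0 * 0 + 0 * 0 + 0 * 0 : ℝ) =
      0
    norm_num
  · change (0 * 0 + 1 * 0 + 0 * 0 + 0 * 0 + 0 * 0 + 0 * (-1) + 0 * 0 + 0 * 0 : ℝ) =
      0
    norm_num
  · change (0 * 0 + 1 * 0 + 0 * 0 + 0 * 0 + 0 * 0 + 0 * 0 + 0 * (-1) + 0 * 0 : ℝ) =
      0
    norm_num
  · change (0 * 0 + 1 * 0 + 0 * 0 + 0 * 0 + 0 * 0 + 0 * 0 + 0 * 0 + 0 * (-1) : ℝ) =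
      0
    norm_num
  · change (0 * 0 + 1 * 0 + 0 * (-1) + 0 * 0 + 0 * 0 + 0 * 0 + 0 * 0 + 0 * 0 : ℝ) =
      0
    norm_num
  · change (0 * 0 + 1 * 0 + 0 * 0 + 0 * (-1) + 0 * 0 + 0 * 0 + 0 * 0 + 0 * 0 : ℝ) =
      0
    norm_num
  · change (0 * 0 + 1 * 0 + 0 * 0 + 0 * 0 + 0 * (-1) + 0 * 0 + 0 * 0 + 0 * 0 : ℝ) =
      0
    norm_num
  · change (1 * 0 + 0 * 1 + 0 * 0 + 0 * 0 + 0 * 0 + 0 * 0 + 0 * 0 + 0 * 0 : ℝ) =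
      0
    norm_num
  · change (1 * 1 + 0 * 0 + 0 * 0 + 0 * 0 + 0 * 0 + 0 * 0 + 0 * 0 + 0 * 0 : ℝ) =
      1
    norm_num
  · change (1 * 0 + 0 * 0 + 0 * 0 + 0 * 0 + 0 * 0 + 0 * (-1) + 0 * 0 + 0 * 0 : ℝ) =
      0
    norm_num
  · change (1 * 0 + 0 * 0 + 0 * 0 + 0 * 0 + 0 * 0 + 0 * 0 + 0 * (-1) + 0 * 0 : ℝ) =
      0
    norm_num
  · change (1 * 0 + 0 * 0 + 0 * 0 + 0 * 0 + 0 * 0 + 0 * 0 + 0 * 0 + 0 * (-1) : ℝ) =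
      0
    norm_num
  · change (1 * 0 + 0 * 0 + 0 * (-1) + 0 * 0 + 0 * 0 + 0 * 0 + 0 * 0 + 0 * 0 : ℝ) =
      0
    norm_num
  · change (1 * 0 + 0 * 0 + 0 * 0 + 0 * (-1) + 0 * 0 + 0 * 0 + 0 * 0 + 0 * 0 : ℝ) =
      0
    norm_num
  · change (1 * 0 + 0 * 0 + 0 * 0 + 0 * 0 + 0 * (-1) + 0 * 0 + 0 * 0 + 0 * 0 : ℝ) =
      0
    norm_num
  · change (0 * 0 + 0 * 1 + 0 * 0 + 0 * 0 + 0 * 0 + (-1) * 0 + 0 * 0 + 0 * 0 : ℝ) =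
      0
    norm_num
  · change (0 * 1 + 0 * 0 + 0 * 0 + 0 * 0 + 0 * 0 + (-1) * 0 + 0 * 0 + 0 * 0 : ℝ) =
      0
    norm_num
  · change (0 * 0 + 0 * 0 + 0 * 0 + 0 * 0 + 0 * 0 + (-1) * (-1) + 0 * 0 + 0 * 0 : ℝ) =
      1
    norm_num
  · change (0 * 0 + 0 * 0 + 0 * 0 + 0 * 0 + 0 * 0 + (-1) * 0 + 0 * (-1) + 0 * 0 : ℝ) =
      0
    norm_num
  · change (0 * 0 + 0 * 0 + 0 * 0 + 0 * 0 + 0 * 0 + (-1) * 0 + 0 * 0 + 0 * (-1) : ℝ) =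
      0
    norm_num
  · change (0 * 0 + 0 * 0 + 0 * (-1) + 0 * 0 + 0 * 0 + (-1) * 0 + 0 * 0 + 0 * 0 : ℝ) =
      0
    norm_num
  · change (0 * 0 + 0 * 0 + 0 * 0 + 0 * (-1) + 0 * 0 + (-1) * 0 + 0 * 0 + 0 * 0 : ℝ) =
      0
    norm_num
  · change (0 * 0 + 0 * 0 + 0 * 0 + 0 * 0 + 0 * (-1) + (-1) * 0 + 0 * 0 + 0 * 0 : ℝ) =
      0
    norm_num
  · change (0 * 0 + 0 * 1 + 0 * 0 + 0 * 0 + 0 * 0 + 0 * 0 + (-1) * 0 + 0 * 0 : ℝ) =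
      0
    norm_num
  · change (0 * 1 + 0 * 0 + 0 * 0 + 0 * 0 + 0 * 0 + 0 * 0 + (-1) * 0 + 0 * 0 : ℝ) =
      0
    norm_num
  · change (0 * 0 + 0 * 0 + 0 * 0 + 0 * 0 + 0 * 0 + 0 * (-1) + (-1) * 0 + 0 * 0 : ℝ) =
      0
    norm_num
  · change (0 * 0 + 0 * 0 + 0 * 0 + 0 * 0 + 0 * 0 + 0 * 0 + (-1) * (-1) + 0 * 0 : ℝ) =
      1
    norm_num
  · change (0 * 0 + 0 * 0 + 0 * 0 + 0 * 0 + 0 * 0 + 0 * 0 + (-1) * 0 + 0 * (-1) : ℝ) =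
      0
    norm_num
  · change (0 * 0 + 0 * 0 + 0 * (-1) + 0 * 0 + 0 * 0 + 0 * 0 + (-1) * 0 + 0 * 0 : ℝ) =
      0
    norm_num
  · change (0 * 0 + 0 * 0 + 0 * 0 + 0 * (-1) + 0 * 0 + 0 * 0 + (-1) * 0 + 0 * 0 : ℝ) =
      0
    norm_num
  · change (0 * 0 + 0 * 0 + 0 * 0 + 0 * 0 + 0 * (-1) + 0 * 0 + (-1) * 0 + 0 * 0 : ℝ) =
      0
    norm_num
  · change (0 * 0 + 0 * 1 + 0 * 0 + 0 * 0 + 0 * 0 + 0 * 0 + 0 * 0 + (-1) * 0 : ℝ) =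
      0
    norm_num
  · change (0 * 1 + 0 * 0 + 0 * 0 + 0 * 0 + 0 * 0 + 0 * 0 + 0 * 0 + (-1) * 0 : ℝ) =
      0
    norm_num
  · change (0 * 0 + 0 * 0 + 0 * 0 + 0 * 0 + 0 * 0 + 0 * (-1) + 0 * 0 + (-1) * 0 : ℝ) =
      0
    norm_num
  · change (0 * 0 + 0 * 0 + 0 * 0 + 0 * 0 + 0 * 0 + 0 * 0 + 0 * (-1) + (-1) * 0 : ℝ) =
      0
    norm_num
  · change (0 * 0 + 0 * 0 + 0 * 0 + 0 * 0 + 0 * 0 + 0 * 0 + 0 * 0 + (-1) * (-1) : ℝ) =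
      1
    norm_num
  · change (0 * 0 + 0 * 0 + 0 * (-1) + 0 * 0 + 0 * 0 + 0 * 0 + 0 * 0 + (-1) * 0 : ℝ) =
      0
    norm_num
  · change (0 * 0 + 0 * 0 + 0 * 0 + 0 * (-1) + 0 * 0 + 0 * 0 + 0 * 0 + (-1) * 0 : ℝ) =
      0
    norm_num
  · change (0 * 0 + 0 * 0 + 0 * 0 + 0 * 0 + 0 * (-1) + 0 * 0 + 0 * 0 + (-1) * 0 : ℝ) =
      0
    norm_num
  · change (0 * 0 + 0 * 1 + (-1) * 0 + 0 * 0 + 0 * 0 + 0 * 0 + 0 * 0 + 0 * 0 : ℝ) =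
      0
    norm_num
  · change (0 * 1 + 0 * 0 + (-1) * 0 + 0 * 0 + 0 * 0 + 0 * 0 + 0 * 0 + 0 * 0 : ℝ) =
      0
    norm_num
  · change (0 * 0 + 0 * 0 + (-1) * 0 + 0 * 0 + 0 * 0 + 0 * (-1) + 0 * 0 + 0 * 0 : ℝ) =
      0
    norm_num
  · change (0 * 0 + 0 * 0 + (-1) * 0 + 0 * 0 + 0 * 0 + 0 * 0 + 0 * (-1) + 0 * 0 : ℝ) =
      0
    norm_num
  · change (0 * 0 + 0 * 0 + (-1) * 0 + 0 * 0 + 0 * 0 + 0 * 0 + 0 * 0 + 0 * (-1) : ℝ) =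
      0
    norm_num
  · change (0 * 0 + 0 * 0 + (-1) * (-1) + 0 * 0 + 0 * 0 + 0 * 0 + 0 * 0 + 0 * 0 : ℝ) =
      1
    norm_num
  · change (0 * 0 + 0 * 0 + (-1) * 0 + 0 * (-1) + 0 * 0 + 0 * 0 + 0 * 0 + 0 * 0 : ℝ) =
      0
    norm_num
  · change (0 * 0 + 0 * 0 + (-1) * 0 + 0 * 0 + 0 * (-1) + 0 * 0 + 0 * 0 + 0 * 0 : ℝ) =
      0
    norm_num
  · change (0 * 0 + 0 * 1 + 0 * 0 + (-1) * 0 + 0 * 0 + 0 * 0 + 0 * 0 + 0 * 0 : ℝ) =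
      0
    norm_num
  · change (0 * 1 + 0 * 0 + 0 * 0 + (-1) * 0 + 0 * 0 + 0 * 0 + 0 * 0 + 0 * 0 : ℝ) =
      0
    norm_num
  · change (0 * 0 + 0 * 0 + 0 * 0 + (-1) * 0 + 0 * 0 + 0 * (-1) + 0 * 0 + 0 * 0 : ℝ) =
      0
    norm_num
  · change (0 * 0 + 0 * 0 + 0 * 0 + (-1) * 0 + 0 * 0 + 0 * 0 + 0 * (-1) + 0 * 0 : ℝ) =
      0
    norm_num
  · change (0 * 0 + 0 * 0 + 0 * 0 + (-1) * 0 + 0 * 0 + 0 * 0 + 0 * 0 + 0 * (-1) : ℝ) =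
      0
    norm_num
  · change (0 * 0 + 0 * 0 + 0 * (-1) + (-1) * 0 + 0 * 0 + 0 * 0 + 0 * 0 + 0 * 0 : ℝ) =
      0
    norm_num
  · change (0 * 0 + 0 * 0 + 0 * 0 + (-1) * (-1) + 0 * 0 + 0 * 0 + 0 * 0 + 0 * 0 : ℝ) =
      1
    norm_num
  · change (0 * 0 + 0 * 0 + 0 * 0 + (-1) * 0 + 0 * (-1) + 0 * 0 + 0 * 0 + 0 * 0 : ℝ) =
      0
    norm_num
  · change (0 * 0 + 0 * 1 + 0 * 0 + 0 * 0 + (-1) * 0 + 0 * 0 + 0 * 0 + 0 * 0 : ℝ) =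
      0
    norm_num
  · change (0 * 1 + 0 * 0 + 0 * 0 + 0 * 0 + (-1) * 0 + 0 * 0 + 0 * 0 + 0 * 0 : ℝ) =
      0
    norm_num
  · change (0 * 0 + 0 * 0 + 0 * 0 + 0 * 0 + (-1) * 0 + 0 * (-1) + 0 * 0 + 0 * 0 : ℝ) =
      0
    norm_num
  · change (0 * 0 + 0 * 0 + 0 * 0 + 0 * 0 + (-1) * 0 + 0 * 0 + 0 * (-1) + 0 * 0 : ℝ) =
      0
    norm_num
  · change (0 * 0 + 0 * 0 + 0 * 0 + 0 * 0 + (-1) * 0 + 0 * 0 + 0 * 0 + 0 * (-1) : ℝ) =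
      0
    norm_num
  · change (0 * 0 + 0 * 0 + 0 * (-1) + 0 * 0 + (-1) * 0 + 0 * 0 + 0 * 0 + 0 * 0 : ℝ) =
      0
    norm_num
  · change (0 * 0 + 0 * 0 + 0 * 0 + 0 * (-1) + (-1) * 0 + 0 * 0 + 0 * 0 + 0 * 0 : ℝ) =
      0
    norm_num
  · change (0 * 0 + 0 * 0 + 0 * 0 + 0 * 0 + (-1) * (-1) + 0 * 0 + 0 * 0 + 0 * 0 : ℝ) =
      1
    norm_num

theorem Bm_mulVec (x : Fin 8 → ℝ) : Bm *ᵥ x = ![x 1, x 0, -x 5, -x 6, -x 7, -x 2, -x 3, -x 4] := by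
  funext k
  rw [Matrix.mulVec, dotProduct, Fin.sum_univ_eight]
  fin_cases k
  · change (0 * x 0 + 1 * x 1 + 0 * x 2 + 0 * x 3 + 0 * x 4 + 0 * x 5 + 0 * x 6 + 0 * x 7 : ℝ) = x 1
    ring
  · change (1 * x 0 + 0 * x 1 + 0 * x 2 + 0 * x 3 + 0 * x 4 + 0 * x 5 + 0 * x 6 + 0 * x 7 : ℝ) = x 0
    ring
  · change (0 * x 0 + 0 * x 1 + 0 * x 2 + 0 * x 3 + 0 * x 4 + (-1) * x 5 + 0 * x 6 + 0 * x 7 : ℝ) = -x 5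
    ring
  · change (0 * x 0 + 0 * x 1 + 0 * x 2 + 0 * x 3 + 0 * x 4 + 0 * x 5 + (-1) * x 6 + 0 * x 7 : ℝ) = -x 6
    ring
  · change (0 * x 0 + 0 * x 1 + 0 * x 2 + 0 * x 3 + 0 * x 4 + 0 * x 5 + 0 * x 6 + (-1) * x 7 : ℝ) = -x 7
    ring
  · change (0 * x 0 + 0 * x 1 + (-1) * x 2 + 0 * x 3 + 0 * x 4 + 0 * x 5 + 0 * x 6 + 0 * x 7 : ℝ) = -x 2
    ring
  · change (0 * x 0 + 0 * x 1 + 0 * x 2 + (-1) * x 3 + 0 * x 4 + 0 * x 5 + 0 * x 6 + 0 * x 7 : ℝ) = -x 3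
    ring
  · change (0 * x 0 + 0 * x 1 + 0 * x 2 + 0 * x 3 + (-1) * x 4 + 0 * x 5 + 0 * x 6 + 0 * x 7 : ℝ) = -x 4
    ring

/-- the norm form is an automorphism -/
theorem Bm_om (x : Fin 8 → ℝ) : Bm * om x = om (Bm *ᵥ x) * Bm := by
  ext i j
  rw [Bm_mulVec, Matrix.mul_apply, Matrix.mul_apply, Fin.sum_univ_eight, Fin.sum_univ_eight]
  fin_cases i <;> fin_cases j
  · change (0 * x 0 + 1 * 0 + 0 * 0 + 0 * 0 + 0 * 0 + 0 * x 5 + 0 * x 6 + 0 * x 7 : ℝ) =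
      x 1 * 0 + 0 * 1 + 0 * 0 + 0 * 0 + 0 * 0 + ((-x 5)) * 0 + ((-x 6)) * 0 + ((-x 7)) * 0
    ring
  · change (0 * 0 + 1 * x 1 + 0 * x 2 + 0 * x 3 + 0 * x 4 + 0 * 0 + 0 * 0 + 0 * 0 : ℝ) =
      x 1 * 1 + 0 * 0 + 0 * 0 + 0 * 0 + 0 * 0 + ((-x 5)) * 0 + ((-x 6)) * 0 + ((-x 7)) * 0
    ring
  · change (0 * 0 + 1 * x 5 + 0 * x 0 + 0 * 0 + 0 * 0 + 0 * 0 + 0 * x 4 + 0 * (-x 3) : ℝ) =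
      x 1 * 0 + 0 * 0 + 0 * 0 + 0 * 0 + 0 * 0 + ((-x 5)) * (-1) + ((-x 6)) * 0 + ((-x 7)) * 0
    ring
  · change (0 * 0 + 1 * x 6 + 0 * 0 + 0 * x 0 + 0 * 0 + 0 * (-x 4) + 0 * 0 + 0 * x 2 : ℝ) =
      x 1 * 0 + 0 * 0 + 0 * 0 + 0 * 0 + 0 * 0 + ((-x 5)) * 0 + ((-x 6)) * (-1) + ((-x 7)) * 0
    ring
  · change (0 * 0 + 1 * x 7 + 0 * 0 + 0 * 0 + 0 * x 0 + 0 * x 3 + 0 * (-x 2) + 0 * 0 : ℝ) =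
      x 1 * 0 + 0 * 0 + 0 * 0 + 0 * 0 + 0 * 0 + ((-x 5)) * 0 + ((-x 6)) * 0 + ((-x 7)) * (-1)
    ring
  · change (0 * x 2 + 1 * 0 + 0 * 0 + 0 * (-x 7) + 0 * x 6 + 0 * x 1 + 0 * 0 + 0 * 0 : ℝ) =
      x 1 * 0 + 0 * 0 + 0 * (-1) + 0 * 0 + 0 * 0 + ((-x 5)) * 0 + ((-x 6)) * 0 + ((-x 7)) * 0
    ring
  · change (0 * x 3 + 1 * 0 + 0 * x 7 + 0 * 0 + 0 * (-x 5) + 0 * 0 + 0 * x 1 + 0 * 0 : ℝ) =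
      x 1 * 0 + 0 * 0 + 0 * 0 + 0 * (-1) + 0 * 0 + ((-x 5)) * 0 + ((-x 6)) * 0 + ((-x 7)) * 0
    ring
  · change (0 * x 4 + 1 * 0 + 0 * (-x 6) + 0 * x 5 + 0 * 0 + 0 * 0 + 0 * 0 + 0 * x 1 : ℝ) =
      x 1 * 0 + 0 * 0 + 0 * 0 + 0 * 0 + 0 * (-1) + ((-x 5)) * 0 + ((-x 6)) * 0 + ((-x 7)) * 0
    ring
  · change (1 * x 0 + 0 * 0 + 0 * 0 + 0 * 0 + 0 * 0 + 0 * x 5 + 0 * x 6 + 0 * x 7 : ℝ) =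
      0 * 0 + x 0 * 1 + ((-x 2)) * 0 + ((-x 3)) * 0 + ((-x 4)) * 0 + 0 * 0 + 0 * 0 + 0 * 0
    ring
  · change (1 * 0 + 0 * x 1 + 0 * x 2 + 0 * x 3 + 0 * x 4 + 0 * 0 + 0 * 0 + 0 * 0 : ℝ) =
      0 * 1 + x 0 * 0 + ((-x 2)) * 0 + ((-x 3)) * 0 + ((-x 4)) * 0 + 0 * 0 + 0 * 0 + 0 * 0
    ring
  · change (1 * 0 + 0 * x 5 + 0 * x 0 + 0 * 0 + 0 * 0 + 0 * 0 + 0 * x 4 + 0 * (-x 3) : ℝ) =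
      0 * 0 + x 0 * 0 + ((-x 2)) * 0 + ((-x 3)) * 0 + ((-x 4)) * 0 + 0 * (-1) + 0 * 0 + 0 * 0
    ring
  · change (1 * 0 + 0 * x 6 + 0 * 0 + 0 * x 0 + 0 * 0 + 0 * (-x 4) + 0 * 0 + 0 * x 2 : ℝ) =
      0 * 0 + x 0 * 0 + ((-x 2)) * 0 + ((-x 3)) * 0 + ((-x 4)) * 0 + 0 * 0 + 0 * (-1) + 0 * 0
    ring
  · change (1 * 0 + 0 * x 7 + 0 * 0 + 0 * 0 + 0 * x 0 + 0 * x 3 + 0 * (-x 2) + 0 * 0 : ℝ) =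
      0 * 0 + x 0 * 0 + ((-x 2)) * 0 + ((-x 3)) * 0 + ((-x 4)) * 0 + 0 * 0 + 0 * 0 + 0 * (-1)
    ring
  · change (1 * x 2 + 0 * 0 + 0 * 0 + 0 * (-x 7) + 0 * x 6 + 0 * x 1 + 0 * 0 + 0 * 0 : ℝ) =
      0 * 0 + x 0 * 0 + ((-x 2)) * (-1) + ((-x 3)) * 0 + ((-x 4)) * 0 + 0 * 0 + 0 * 0 + 0 * 0
    ring
  · change (1 * x 3 + 0 * 0 + 0 * x 7 + 0 * 0 + 0 * (-x 5) + 0 * 0 + 0 * x 1 + 0 * 0 : ℝ) =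
      0 * 0 + x 0 * 0 + ((-x 2)) * 0 + ((-x 3)) * (-1) + ((-x 4)) * 0 + 0 * 0 + 0 * 0 + 0 * 0
    ring
  · change (1 * x 4 + 0 * 0 + 0 * (-x 6) + 0 * x 5 + 0 * 0 + 0 * 0 + 0 * 0 + 0 * x 1 : ℝ) =
      0 * 0 + x 0 * 0 + ((-x 2)) * 0 + ((-x 3)) * 0 + ((-x 4)) * (-1) + 0 * 0 + 0 * 0 + 0 * 0
    ring
  · change (0 * x 0 + 0 * 0 + 0 * 0 + 0 * 0 + 0 * 0 + (-1) * x 5 + 0 * x 6 + 0 * x 7 : ℝ) =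
      0 * 0 + ((-x 5)) * 1 + x 1 * 0 + 0 * 0 + 0 * 0 + 0 * 0 + ((-x 4)) * 0 + (-(-x 3)) * 0
    ring
  · change (0 * 0 + 0 * x 1 + 0 * x 2 + 0 * x 3 + 0 * x 4 + (-1) * 0 + 0 * 0 + 0 * 0 : ℝ) =
      0 * 1 + ((-x 5)) * 0 + x 1 * 0 + 0 * 0 + 0 * 0 + 0 * 0 + ((-x 4)) * 0 + (-(-x 3)) * 0
    ring
  · change (0 * 0 + 0 * x 5 + 0 * x 0 + 0 * 0 + 0 * 0 + (-1) * 0 + 0 * x 4 + 0 * (-x 3) : ℝ) =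
      0 * 0 + ((-x 5)) * 0 + x 1 * 0 + 0 * 0 + 0 * 0 + 0 * (-1) + ((-x 4)) * 0 + (-(-x 3)) * 0
    ring
  · change (0 * 0 + 0 * x 6 + 0 * 0 + 0 * x 0 + 0 * 0 + (-1) * (-x 4) + 0 * 0 + 0 * x 2 : ℝ) =
      0 * 0 + ((-x 5)) * 0 + x 1 * 0 + 0 * 0 + 0 * 0 + 0 * 0 + ((-x 4)) * (-1) + (-(-x 3)) * 0
    ring
  · change (0 * 0 + 0 * x 7 + 0 * 0 + 0 * 0 + 0 * x 0 + (-1) * x 3 + 0 * (-x 2) + 0 * 0 : ℝ) =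
      0 * 0 + ((-x 5)) * 0 + x 1 * 0 + 0 * 0 + 0 * 0 + 0 * 0 + ((-x 4)) * 0 + (-(-x 3)) * (-1)
    ring
  · change (0 * x 2 + 0 * 0 + 0 * 0 + 0 * (-x 7) + 0 * x 6 + (-1) * x 1 + 0 * 0 + 0 * 0 : ℝ) =
      0 * 0 + ((-x 5)) * 0 + x 1 * (-1) + 0 * 0 + 0 * 0 + 0 * 0 + ((-x 4)) * 0 + (-(-x 3)) * 0
    ring
  · change (0 * x 3 + 0 * 0 + 0 * x 7 + 0 * 0 + 0 * (-x 5) + (-1) * 0 + 0 * x 1 + 0 * 0 : ℝ) =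
      0 * 0 + ((-x 5)) * 0 + x 1 * 0 + 0 * (-1) + 0 * 0 + 0 * 0 + ((-x 4)) * 0 + (-(-x 3)) * 0
    ring
  · change (0 * x 4 + 0 * 0 + 0 * (-x 6) + 0 * x 5 + 0 * 0 + (-1) * 0 + 0 * 0 + 0 * x 1 : ℝ) =
      0 * 0 + ((-x 5)) * 0 + x 1 * 0 + 0 * 0 + 0 * (-1) + 0 * 0 + ((-x 4)) * 0 + (-(-x 3)) * 0
    ring
  · change (0 * x 0 + 0 * 0 + 0 * 0 + 0 * 0 + 0 * 0 + 0 * x 5 + (-1) * x 6 + 0 * x 7 : ℝ) =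
      0 * 0 + ((-x 6)) * 1 + 0 * 0 + x 1 * 0 + 0 * 0 + (-(-x 4)) * 0 + 0 * 0 + ((-x 2)) * 0
    ring
  · change (0 * 0 + 0 * x 1 + 0 * x 2 + 0 * x 3 + 0 * x 4 + 0 * 0 + (-1) * 0 + 0 * 0 : ℝ) =
      0 * 1 + ((-x 6)) * 0 + 0 * 0 + x 1 * 0 + 0 * 0 + (-(-x 4)) * 0 + 0 * 0 + ((-x 2)) * 0
    ring
  · change (0 * 0 + 0 * x 5 + 0 * x 0 + 0 * 0 + 0 * 0 + 0 * 0 + (-1) * x 4 + 0 * (-x 3) : ℝ) =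
      0 * 0 + ((-x 6)) * 0 + 0 * 0 + x 1 * 0 + 0 * 0 + (-(-x 4)) * (-1) + 0 * 0 + ((-x 2)) * 0
    ring
  · change (0 * 0 + 0 * x 6 + 0 * 0 + 0 * x 0 + 0 * 0 + 0 * (-x 4) + (-1) * 0 + 0 * x 2 : ℝ) =
      0 * 0 + ((-x 6)) * 0 + 0 * 0 + x 1 * 0 + 0 * 0 + (-(-x 4)) * 0 + 0 * (-1) + ((-x 2)) * 0
    ring
  · change (0 * 0 + 0 * x 7 + 0 * 0 + 0 * 0 + 0 * x 0 + 0 * x 3 + (-1) * (-x 2) + 0 * 0 : ℝ) =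
      0 * 0 + ((-x 6)) * 0 + 0 * 0 + x 1 * 0 + 0 * 0 + (-(-x 4)) * 0 + 0 * 0 + ((-x 2)) * (-1)
    ring
  · change (0 * x 2 + 0 * 0 + 0 * 0 + 0 * (-x 7) + 0 * x 6 + 0 * x 1 + (-1) * 0 + 0 * 0 : ℝ) =
      0 * 0 + ((-x 6)) * 0 + 0 * (-1) + x 1 * 0 + 0 * 0 + (-(-x 4)) * 0 + 0 * 0 + ((-x 2)) * 0
    ring
  · change (0 * x 3 + 0 * 0 + 0 * x 7 + 0 * 0 + 0 * (-x 5) + 0 * 0 + (-1) * x 1 + 0 * 0 : ℝ) =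
      0 * 0 + ((-x 6)) * 0 + 0 * 0 + x 1 * (-1) + 0 * 0 + (-(-x 4)) * 0 + 0 * 0 + ((-x 2)) * 0
    ring
  · change (0 * x 4 + 0 * 0 + 0 * (-x 6) + 0 * x 5 + 0 * 0 + 0 * 0 + (-1) * 0 + 0 * x 1 : ℝ) =
      0 * 0 + ((-x 6)) * 0 + 0 * 0 + x 1 * 0 + 0 * (-1) + (-(-x 4)) * 0 + 0 * 0 + ((-x 2)) * 0
    ring
  · change (0 * x 0 + 0 * 0 + 0 * 0 + 0 * 0 + 0 * 0 + 0 * x 5 + 0 * x 6 + (-1) * x 7 : ℝ) =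
      0 * 0 + ((-x 7)) * 1 + 0 * 0 + 0 * 0 + x 1 * 0 + ((-x 3)) * 0 + (-(-x 2)) * 0 + 0 * 0
    ring
  · change (0 * 0 + 0 * x 1 + 0 * x 2 + 0 * x 3 + 0 * x 4 + 0 * 0 + 0 * 0 + (-1) * 0 : ℝ) =
      0 * 1 + ((-x 7)) * 0 + 0 * 0 + 0 * 0 + x 1 * 0 + ((-x 3)) * 0 + (-(-x 2)) * 0 + 0 * 0
    ring
  · change (0 * 0 + 0 * x 5 + 0 * x 0 + 0 * 0 + 0 * 0 + 0 * 0 + 0 * x 4 + (-1) * (-x 3) : ℝ) =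
      0 * 0 + ((-x 7)) * 0 + 0 * 0 + 0 * 0 + x 1 * 0 + ((-x 3)) * (-1) + (-(-x 2)) * 0 + 0 * 0
    ring
  · change (0 * 0 + 0 * x 6 + 0 * 0 + 0 * x 0 + 0 * 0 + 0 * (-x 4) + 0 * 0 + (-1) * x 2 : ℝ) =
      0 * 0 + ((-x 7)) * 0 + 0 * 0 + 0 * 0 + x 1 * 0 + ((-x 3)) * 0 + (-(-x 2)) * (-1) + 0 * 0
    ring
  · change (0 * 0 + 0 * x 7 + 0 * 0 + 0 * 0 + 0 * x 0 + 0 * x 3 + 0 * (-x 2) + (-1) * 0 : ℝ) =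
      0 * 0 + ((-x 7)) * 0 + 0 * 0 + 0 * 0 + x 1 * 0 + ((-x 3)) * 0 + (-(-x 2)) * 0 + 0 * (-1)
    ring
  · change (0 * x 2 + 0 * 0 + 0 * 0 + 0 * (-x 7) + 0 * x 6 + 0 * x 1 + 0 * 0 + (-1) * 0 : ℝ) =
      0 * 0 + ((-x 7)) * 0 + 0 * (-1) + 0 * 0 + x 1 * 0 + ((-x 3)) * 0 + (-(-x 2)) * 0 + 0 * 0
    ring
  · change (0 * x 3 + 0 * 0 + 0 * x 7 + 0 * 0 + 0 * (-x 5) + 0 * 0 + 0 * x 1 + (-1) * 0 : ℝ) =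
      0 * 0 + ((-x 7)) * 0 + 0 * 0 + 0 * (-1) + x 1 * 0 + ((-x 3)) * 0 + (-(-x 2)) * 0 + 0 * 0
    ring
  · change (0 * x 4 + 0 * 0 + 0 * (-x 6) + 0 * x 5 + 0 * 0 + 0 * 0 + 0 * 0 + (-1) * x 1 : ℝ) =
      0 * 0 + ((-x 7)) * 0 + 0 * 0 + 0 * 0 + x 1 * (-1) + ((-x 3)) * 0 + (-(-x 2)) * 0 + 0 * 0
    ring
  · change (0 * x 0 + 0 * 0 + (-1) * 0 + 0 * 0 + 0 * 0 + 0 * x 5 + 0 * x 6 + 0 * x 7 : ℝ) =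
      ((-x 2)) * 0 + 0 * 1 + 0 * 0 + (-(-x 7)) * 0 + ((-x 6)) * 0 + x 0 * 0 + 0 * 0 + 0 * 0
    ring
  · change (0 * 0 + 0 * x 1 + (-1) * x 2 + 0 * x 3 + 0 * x 4 + 0 * 0 + 0 * 0 + 0 * 0 : ℝ) =
      ((-x 2)) * 1 + 0 * 0 + 0 * 0 + (-(-x 7)) * 0 + ((-x 6)) * 0 + x 0 * 0 + 0 * 0 + 0 * 0
    ring
  · change (0 * 0 + 0 * x 5 + (-1) * x 0 + 0 * 0 + 0 * 0 + 0 * 0 + 0 * x 4 + 0 * (-x 3) : ℝ) =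
      ((-x 2)) * 0 + 0 * 0 + 0 * 0 + (-(-x 7)) * 0 + ((-x 6)) * 0 + x 0 * (-1) + 0 * 0 + 0 * 0
    ring
  · change (0 * 0 + 0 * x 6 + (-1) * 0 + 0 * x 0 + 0 * 0 + 0 * (-x 4) + 0 * 0 + 0 * x 2 : ℝ) =
      ((-x 2)) * 0 + 0 * 0 + 0 * 0 + (-(-x 7)) * 0 + ((-x 6)) * 0 + x 0 * 0 + 0 * (-1) + 0 * 0
    ring
  · change (0 * 0 + 0 * x 7 + (-1) * 0 + 0 * 0 + 0 * x 0 + 0 * x 3 + 0 * (-x 2) + 0 * 0 : ℝ) =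
      ((-x 2)) * 0 + 0 * 0 + 0 * 0 + (-(-x 7)) * 0 + ((-x 6)) * 0 + x 0 * 0 + 0 * 0 + 0 * (-1)
    ring
  · change (0 * x 2 + 0 * 0 + (-1) * 0 + 0 * (-x 7) + 0 * x 6 + 0 * x 1 + 0 * 0 + 0 * 0 : ℝ) =
      ((-x 2)) * 0 + 0 * 0 + 0 * (-1) + (-(-x 7)) * 0 + ((-x 6)) * 0 + x 0 * 0 + 0 * 0 + 0 * 0
    ring
  · change (0 * x 3 + 0 * 0 + (-1) * x 7 + 0 * 0 + 0 * (-x 5) + 0 * 0 + 0 * x 1 + 0 * 0 : ℝ) =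
      ((-x 2)) * 0 + 0 * 0 + 0 * 0 + (-(-x 7)) * (-1) + ((-x 6)) * 0 + x 0 * 0 + 0 * 0 + 0 * 0
    ring
  · change (0 * x 4 + 0 * 0 + (-1) * (-x 6) + 0 * x 5 + 0 * 0 + 0 * 0 + 0 * 0 + 0 * x 1 : ℝ) =
      ((-x 2)) * 0 + 0 * 0 + 0 * 0 + (-(-x 7)) * 0 + ((-x 6)) * (-1) + x 0 * 0 + 0 * 0 + 0 * 0
    ring
  · change (0 * x 0 + 0 * 0 + 0 * 0 + (-1) * 0 + 0 * 0 + 0 * x 5 + 0 * x 6 + 0 * x 7 : ℝ) =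
      ((-x 3)) * 0 + 0 * 1 + ((-x 7)) * 0 + 0 * 0 + (-(-x 5)) * 0 + 0 * 0 + x 0 * 0 + 0 * 0
    ring
  · change (0 * 0 + 0 * x 1 + 0 * x 2 + (-1) * x 3 + 0 * x 4 + 0 * 0 + 0 * 0 + 0 * 0 : ℝ) =
      ((-x 3)) * 1 + 0 * 0 + ((-x 7)) * 0 + 0 * 0 + (-(-x 5)) * 0 + 0 * 0 + x 0 * 0 + 0 * 0
    ring
  · change (0 * 0 + 0 * x 5 + 0 * x 0 + (-1) * 0 + 0 * 0 + 0 * 0 + 0 * x 4 + 0 * (-x 3) : ℝ) =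
      ((-x 3)) * 0 + 0 * 0 + ((-x 7)) * 0 + 0 * 0 + (-(-x 5)) * 0 + 0 * (-1) + x 0 * 0 + 0 * 0
    ring
  · change (0 * 0 + 0 * x 6 + 0 * 0 + (-1) * x 0 + 0 * 0 + 0 * (-x 4) + 0 * 0 + 0 * x 2 : ℝ) =
      ((-x 3)) * 0 + 0 * 0 + ((-x 7)) * 0 + 0 * 0 + (-(-x 5)) * 0 + 0 * 0 + x 0 * (-1) + 0 * 0
    ring
  · change (0 * 0 + 0 * x 7 + 0 * 0 + (-1) * 0 + 0 * x 0 + 0 * x 3 + 0 * (-x 2) + 0 * 0 : ℝ) =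
      ((-x 3)) * 0 + 0 * 0 + ((-x 7)) * 0 + 0 * 0 + (-(-x 5)) * 0 + 0 * 0 + x 0 * 0 + 0 * (-1)
    ring
  · change (0 * x 2 + 0 * 0 + 0 * 0 + (-1) * (-x 7) + 0 * x 6 + 0 * x 1 + 0 * 0 + 0 * 0 : ℝ) =
      ((-x 3)) * 0 + 0 * 0 + ((-x 7)) * (-1) + 0 * 0 + (-(-x 5)) * 0 + 0 * 0 + x 0 * 0 + 0 * 0
    ring
  · change (0 * x 3 + 0 * 0 + 0 * x 7 + (-1) * 0 + 0 * (-x 5) + 0 * 0 + 0 * x 1 + 0 * 0 : ℝ) =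
      ((-x 3)) * 0 + 0 * 0 + ((-x 7)) * 0 + 0 * (-1) + (-(-x 5)) * 0 + 0 * 0 + x 0 * 0 + 0 * 0
    ring
  · change (0 * x 4 + 0 * 0 + 0 * (-x 6) + (-1) * x 5 + 0 * 0 + 0 * 0 + 0 * 0 + 0 * x 1 : ℝ) =
      ((-x 3)) * 0 + 0 * 0 + ((-x 7)) * 0 + 0 * 0 + (-(-x 5)) * (-1) + 0 * 0 + x 0 * 0 + 0 * 0
    ring
  · change (0 * x 0 + 0 * 0 + 0 * 0 + 0 * 0 + (-1) * 0 + 0 * x 5 + 0 * x 6 + 0 * x 7 : ℝ) =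
      ((-x 4)) * 0 + 0 * 1 + (-(-x 6)) * 0 + ((-x 5)) * 0 + 0 * 0 + 0 * 0 + 0 * 0 + x 0 * 0
    ring
  · change (0 * 0 + 0 * x 1 + 0 * x 2 + 0 * x 3 + (-1) * x 4 + 0 * 0 + 0 * 0 + 0 * 0 : ℝ) =
      ((-x 4)) * 1 + 0 * 0 + (-(-x 6)) * 0 + ((-x 5)) * 0 + 0 * 0 + 0 * 0 + 0 * 0 + x 0 * 0
    ring
  · change (0 * 0 + 0 * x 5 + 0 * x 0 + 0 * 0 + (-1) * 0 + 0 * 0 + 0 * x 4 + 0 * (-x 3) : ℝ) =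
      ((-x 4)) * 0 + 0 * 0 + (-(-x 6)) * 0 + ((-x 5)) * 0 + 0 * 0 + 0 * (-1) + 0 * 0 + x 0 * 0
    ring
  · change (0 * 0 + 0 * x 6 + 0 * 0 + 0 * x 0 + (-1) * 0 + 0 * (-x 4) + 0 * 0 + 0 * x 2 : ℝ) =
      ((-x 4)) * 0 + 0 * 0 + (-(-x 6)) * 0 + ((-x 5)) * 0 + 0 * 0 + 0 * 0 + 0 * (-1) + x 0 * 0
    ring
  · change (0 * 0 + 0 * x 7 + 0 * 0 + 0 * 0 + (-1) * x 0 + 0 * x 3 + 0 * (-x 2) + 0 * 0 : ℝ) =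
      ((-x 4)) * 0 + 0 * 0 + (-(-x 6)) * 0 + ((-x 5)) * 0 + 0 * 0 + 0 * 0 + 0 * 0 + x 0 * (-1)
    ring
  · change (0 * x 2 + 0 * 0 + 0 * 0 + 0 * (-x 7) + (-1) * x 6 + 0 * x 1 + 0 * 0 + 0 * 0 : ℝ) =
      ((-x 4)) * 0 + 0 * 0 + (-(-x 6)) * (-1) + ((-x 5)) * 0 + 0 * 0 + 0 * 0 + 0 * 0 + x 0 * 0
    ring
  · change (0 * x 3 + 0 * 0 + 0 * x 7 + 0 * 0 + (-1) * (-x 5) + 0 * 0 + 0 * x 1 + 0 * 0 : ℝ) =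
      ((-x 4)) * 0 + 0 * 0 + (-(-x 6)) * 0 + ((-x 5)) * (-1) + 0 * 0 + 0 * 0 + 0 * 0 + x 0 * 0
    ring
  · change (0 * x 4 + 0 * 0 + 0 * (-x 6) + 0 * x 5 + (-1) * 0 + 0 * 0 + 0 * 0 + 0 * x 1 : ℝ) =
      ((-x 4)) * 0 + 0 * 0 + (-(-x 6)) * 0 + ((-x 5)) * 0 + 0 * (-1) + 0 * 0 + 0 * 0 + x 0 * 0
    ring

theorem gm_skew (p : Fin 14 → ℝ) : (gm p)ᵀ * Bm + Bm * gm p = 0 := by
  ext i j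
  rw [Matrix.add_apply, Matrix.mul_apply, Matrix.mul_apply, Fin.sum_univ_eight,
    Fin.sum_univ_eight]
  fin_cases i <;> fin_cases j
  · change ((0 * 0 + 0 * 1 + p 0 * 0 + p 1 * 0 + p 2 * 0 + (-p 3) * 0 + (-p 4) * 0 + (-p 5) * 0) +
      (0 * 0 + 1 * 0 + 0 * p 0 + 0 * p 1 + 0 * p 2 + 0 * (-p 3) + 0 * (-p 4) + 0 * (-p 5)) : ℝ) =
      0
    ring
  · change ((0 * 1 + 0 * 0 + p 0 * 0 + p 1 * 0 + p 2 * 0 + (-p 3) * 0 + (-p 4) * 0 + (-p 5) * 0) +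
      (0 * 0 + 1 * 0 + 0 * (-p 0) + 0 * (-p 1) + 0 * (-p 2) + 0 * p 3 + 0 * p 4 + 0 * p 5) : ℝ) =
      0
    ring
  · change ((0 * 0 + 0 * 0 + p 0 * 0 + p 1 * 0 + p 2 * 0 + (-p 3) * (-1) + (-p 4) * 0 + (-p 5) * 0) +
      (0 * p 3 + 1 * (-p 3) + 0 * p 12 + 0 * p 8 + 0 * p 10 + 0 * 0 + 0 * p 2 + 0 * (-p 1)) : ℝ) =
      0
    ring
  · change ((0 * 0 + 0 * 0 + p 0 * 0 + p 1 * 0 + p 2 * 0 + (-p 3) * 0 + (-p 4) * (-1) + (-p 5) * 0) +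
      (0 * p 4 + 1 * (-p 4) + 0 * p 6 + 0 * p 13 + 0 * p 11 + 0 * (-p 2) + 0 * 0 + 0 * p 0) : ℝ) =
      0
    ring
  · change ((0 * 0 + 0 * 0 + p 0 * 0 + p 1 * 0 + p 2 * 0 + (-p 3) * 0 + (-p 4) * 0 + (-p 5) * (-1)) +
      (0 * p 5 + 1 * (-p 5) + 0 * p 7 + 0 * p 9 + 0 * (-p 12 - p 13) + 0 * p 1 + 0 * (-p 0) + 0 * 0) : ℝ) =
      0
    ring
  · change ((0 * 0 + 0 * 0 + p 0 * (-1) + p 1 * 0 + p 2 * 0 + (-p 3) * 0 + (-p 4) * 0 + (-p 5) * 0) +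
      (0 * (-p 0) + 1 * p 0 + 0 * 0 + 0 * (-p 5) + 0 * p 4 + 0 * (-p 12) + 0 * (-p 6) + 0 * (-p 7)) : ℝ) =
      0
    ring
  · change ((0 * 0 + 0 * 0 + p 0 * 0 + p 1 * (-1) + p 2 * 0 + (-p 3) * 0 + (-p 4) * 0 + (-p 5) * 0) +
      (0 * (-p 1) + 1 * p 1 + 0 * p 5 + 0 * 0 + 0 * (-p 3) + 0 * (-p 8) + 0 * (-p 13) + 0 * (-p 9)) : ℝ) =
      0
    ring
  · change ((0 * 0 + 0 * 0 + p 0 * 0 + p 1 * 0 + p 2 * (-1) + (-p 3) * 0 + (-p 4) * 0 + (-p 5) * 0) +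
      (0 * (-p 2) + 1 * p 2 + 0 * (-p 4) + 0 * p 3 + 0 * 0 + 0 * (-p 10) + 0 * (-p 11) + 0 * (p 12 + p 13)) : ℝ) =
      0
    ring
  · change ((0 * 0 + 0 * 1 + (-p 0) * 0 + (-p 1) * 0 + (-p 2) * 0 + p 3 * 0 + p 4 * 0 + p 5 * 0) +
      (1 * 0 + 0 * 0 + 0 * p 0 + 0 * p 1 + 0 * p 2 + 0 * (-p 3) + 0 * (-p 4) + 0 * (-p 5)) : ℝ) =
      0
    ring
  · change ((0 * 1 + 0 * 0 + (-p 0) * 0 + (-p 1) * 0 + (-p 2) * 0 + p 3 * 0 + p 4 * 0 + p 5 * 0) +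
      (1 * 0 + 0 * 0 + 0 * (-p 0) + 0 * (-p 1) + 0 * (-p 2) + 0 * p 3 + 0 * p 4 + 0 * p 5) : ℝ) =
      0
    ring
  · change ((0 * 0 + 0 * 0 + (-p 0) * 0 + (-p 1) * 0 + (-p 2) * 0 + p 3 * (-1) + p 4 * 0 + p 5 * 0) +
      (1 * p 3 + 0 * (-p 3) + 0 * p 12 + 0 * p 8 + 0 * p 10 + 0 * 0 + 0 * p 2 + 0 * (-p 1)) : ℝ) =
      0
    ring
  · change ((0 * 0 + 0 * 0 + (-p 0) * 0 + (-p 1) * 0 + (-p 2) * 0 + p 3 * 0 + p 4 * (-1) + p 5 * 0) +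
      (1 * p 4 + 0 * (-p 4) + 0 * p 6 + 0 * p 13 + 0 * p 11 + 0 * (-p 2) + 0 * 0 + 0 * p 0) : ℝ) =
      0
    ring
  · change ((0 * 0 + 0 * 0 + (-p 0) * 0 + (-p 1) * 0 + (-p 2) * 0 + p 3 * 0 + p 4 * 0 + p 5 * (-1)) +
      (1 * p 5 + 0 * (-p 5) + 0 * p 7 + 0 * p 9 + 0 * (-p 12 - p 13) + 0 * p 1 + 0 * (-p 0) + 0 * 0) : ℝ) =
      0
    ring
  · change ((0 * 0 + 0 * 0 + (-p 0) * (-1) + (-p 1) * 0 + (-p 2) * 0 + p 3 * 0 + p 4 * 0 + p 5 * 0) +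
      (1 * (-p 0) + 0 * p 0 + 0 * 0 + 0 * (-p 5) + 0 * p 4 + 0 * (-p 12) + 0 * (-p 6) + 0 * (-p 7)) : ℝ) =
      0
    ring
  · change ((0 * 0 + 0 * 0 + (-p 0) * 0 + (-p 1) * (-1) + (-p 2) * 0 + p 3 * 0 + p 4 * 0 + p 5 * 0) +
      (1 * (-p 1) + 0 * p 1 + 0 * p 5 + 0 * 0 + 0 * (-p 3) + 0 * (-p 8) + 0 * (-p 13) + 0 * (-p 9)) : ℝ) =
      0
    ring
  · change ((0 * 0 + 0 * 0 + (-p 0) * 0 + (-p 1) * 0 + (-p 2) * (-1) + p 3 * 0 + p 4 * 0 + p 5 * 0) +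
      (1 * (-p 2) + 0 * p 2 + 0 * (-p 4) + 0 * p 3 + 0 * 0 + 0 * (-p 10) + 0 * (-p 11) + 0 * (p 12 + p 13)) : ℝ) =
      0
    ring
  · change ((p 3 * 0 + (-p 3) * 1 + p 12 * 0 + p 8 * 0 + p 10 * 0 + 0 * 0 + p 2 * 0 + (-p 1) * 0) +
      (0 * 0 + 0 * 0 + 0 * p 0 + 0 * p 1 + 0 * p 2 + (-1) * (-p 3) + 0 * (-p 4) + 0 * (-p 5)) : ℝ) =
      0
    ring
  · change ((p 3 * 1 + (-p 3) * 0 + p 12 * 0 + p 8 * 0 + p 10 * 0 + 0 * 0 + p 2 * 0 + (-p 1) * 0) +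
      (0 * 0 + 0 * 0 + 0 * (-p 0) + 0 * (-p 1) + 0 * (-p 2) + (-1) * p 3 + 0 * p 4 + 0 * p 5) : ℝ) =
      0
    ring
  · change ((p 3 * 0 + (-p 3) * 0 + p 12 * 0 + p 8 * 0 + p 10 * 0 + 0 * (-1) + p 2 * 0 + (-p 1) * 0) +
      (0 * p 3 + 0 * (-p 3) + 0 * p 12 + 0 * p 8 + 0 * p 10 + (-1) * 0 + 0 * p 2 + 0 * (-p 1)) : ℝ) =
      0
    ring
  · change ((p 3 * 0 + (-p 3) * 0 + p 12 * 0 + p 8 * 0 + p 10 * 0 + 0 * 0 + p 2 * (-1) + (-p 1) * 0) +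
      (0 * p 4 + 0 * (-p 4) + 0 * p 6 + 0 * p 13 + 0 * p 11 + (-1) * (-p 2) + 0 * 0 + 0 * p 0) : ℝ) =
      0
    ring
  · change ((p 3 * 0 + (-p 3) * 0 + p 12 * 0 + p 8 * 0 + p 10 * 0 + 0 * 0 + p 2 * 0 + (-p 1) * (-1)) +
      (0 * p 5 + 0 * (-p 5) + 0 * p 7 + 0 * p 9 + 0 * (-p 12 - p 13) + (-1) * p 1 + 0 * (-p 0) + 0 * 0) : ℝ) =
      0
    ring
  · change ((p 3 * 0 + (-p 3) * 0 + p 12 * (-1) + p 8 * 0 + p 10 * 0 + 0 * 0 + p 2 * 0 + (-p 1) * 0) +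
      (0 * (-p 0) + 0 * p 0 + 0 * 0 + 0 * (-p 5) + 0 * p 4 + (-1) * (-p 12) + 0 * (-p 6) + 0 * (-p 7)) : ℝ) =
      0
    ring
  · change ((p 3 * 0 + (-p 3) * 0 + p 12 * 0 + p 8 * (-1) + p 10 * 0 + 0 * 0 + p 2 * 0 + (-p 1) * 0) +
      (0 * (-p 1) + 0 * p 1 + 0 * p 5 + 0 * 0 + 0 * (-p 3) + (-1) * (-p 8) + 0 * (-p 13) + 0 * (-p 9)) : ℝ) =
      0
    ring
  · change ((p 3 * 0 + (-p 3) * 0 + p 12 * 0 + p 8 * 0 + p 10 * (-1) + 0 * 0 + p 2 * 0 + (-p 1) * 0) +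
      (0 * (-p 2) + 0 * p 2 + 0 * (-p 4) + 0 * p 3 + 0 * 0 + (-1) * (-p 10) + 0 * (-p 11) + 0 * (p 12 + p 13)) : ℝ) =
      0
    ring
  · change ((p 4 * 0 + (-p 4) * 1 + p 6 * 0 + p 13 * 0 + p 11 * 0 + (-p 2) * 0 + 0 * 0 + p 0 * 0) +
      (0 * 0 + 0 * 0 + 0 * p 0 + 0 * p 1 + 0 * p 2 + 0 * (-p 3) + (-1) * (-p 4) + 0 * (-p 5)) : ℝ) =
      0
    ring
  · change ((p 4 * 1 + (-p 4) * 0 + p 6 * 0 + p 13 * 0 + p 11 * 0 + (-p 2) * 0 + 0 * 0 + p 0 * 0) +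
      (0 * 0 + 0 * 0 + 0 * (-p 0) + 0 * (-p 1) + 0 * (-p 2) + 0 * p 3 + (-1) * p 4 + 0 * p 5) : ℝ) =
      0
    ring
  · change ((p 4 * 0 + (-p 4) * 0 + p 6 * 0 + p 13 * 0 + p 11 * 0 + (-p 2) * (-1) + 0 * 0 + p 0 * 0) +
      (0 * p 3 + 0 * (-p 3) + 0 * p 12 + 0 * p 8 + 0 * p 10 + 0 * 0 + (-1) * p 2 + 0 * (-p 1)) : ℝ) =
      0
    ring
  · change ((p 4 * 0 + (-p 4) * 0 + p 6 * 0 + p 13 * 0 + p 11 * 0 + (-p 2) * 0 + 0 * (-1) + p 0 * 0) +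
      (0 * p 4 + 0 * (-p 4) + 0 * p 6 + 0 * p 13 + 0 * p 11 + 0 * (-p 2) + (-1) * 0 + 0 * p 0) : ℝ) =
      0
    ring
  · change ((p 4 * 0 + (-p 4) * 0 + p 6 * 0 + p 13 * 0 + p 11 * 0 + (-p 2) * 0 + 0 * 0 + p 0 * (-1)) +
      (0 * p 5 + 0 * (-p 5) + 0 * p 7 + 0 * p 9 + 0 * (-p 12 - p 13) + 0 * p 1 + (-1) * (-p 0) + 0 * 0) : ℝ) =
      0
    ring
  · change ((p 4 * 0 + (-p 4) * 0 + p 6 * (-1) + p 13 * 0 + p 11 * 0 + (-p 2) * 0 + 0 * 0 + p 0 * 0) +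
      (0 * (-p 0) + 0 * p 0 + 0 * 0 + 0 * (-p 5) + 0 * p 4 + 0 * (-p 12) + (-1) * (-p 6) + 0 * (-p 7)) : ℝ) =
      0
    ring
  · change ((p 4 * 0 + (-p 4) * 0 + p 6 * 0 + p 13 * (-1) + p 11 * 0 + (-p 2) * 0 + 0 * 0 + p 0 * 0) +
      (0 * (-p 1) + 0 * p 1 + 0 * p 5 + 0 * 0 + 0 * (-p 3) + 0 * (-p 8) + (-1) * (-p 13) + 0 * (-p 9)) : ℝ) =
      0
    ring
  · change ((p 4 * 0 + (-p 4) * 0 + p 6 * 0 + p 13 * 0 + p 11 * (-1) + (-p 2) * 0 + 0 * 0 + p 0 * 0) +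
      (0 * (-p 2) + 0 * p 2 + 0 * (-p 4) + 0 * p 3 + 0 * 0 + 0 * (-p 10) + (-1) * (-p 11) + 0 * (p 12 + p 13)) : ℝ) =
      0
    ring
  · change ((p 5 * 0 + (-p 5) * 1 + p 7 * 0 + p 9 * 0 + (-p 12 - p 13) * 0 + p 1 * 0 + (-p 0) * 0 + 0 * 0) +
      (0 * 0 + 0 * 0 + 0 * p 0 + 0 * p 1 + 0 * p 2 + 0 * (-p 3) + 0 * (-p 4) + (-1) * (-p 5)) : ℝ) =
      0
    ring
  · change ((p 5 * 1 + (-p 5) * 0 + p 7 * 0 + p 9 * 0 + (-p 12 - p 13) * 0 + p 1 * 0 + (-p 0) * 0 + 0 * 0) +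
      (0 * 0 + 0 * 0 + 0 * (-p 0) + 0 * (-p 1) + 0 * (-p 2) + 0 * p 3 + 0 * p 4 + (-1) * p 5) : ℝ) =
      0
    ring
  · change ((p 5 * 0 + (-p 5) * 0 + p 7 * 0 + p 9 * 0 + (-p 12 - p 13) * 0 + p 1 * (-1) + (-p 0) * 0 + 0 * 0) +
      (0 * p 3 + 0 * (-p 3) + 0 * p 12 + 0 * p 8 + 0 * p 10 + 0 * 0 + 0 * p 2 + (-1) * (-p 1)) : ℝ) =
      0
    ring
  · change ((p 5 * 0 + (-p 5) * 0 + p 7 * 0 + p 9 * 0 + (-p 12 - p 13) * 0 + p 1 * 0 + (-p 0) * (-1) + 0 * 0) +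
      (0 * p 4 + 0 * (-p 4) + 0 * p 6 + 0 * p 13 + 0 * p 11 + 0 * (-p 2) + 0 * 0 + (-1) * p 0) : ℝ) =
      0
    ring
  · change ((p 5 * 0 + (-p 5) * 0 + p 7 * 0 + p 9 * 0 + (-p 12 - p 13) * 0 + p 1 * 0 + (-p 0) * 0 + 0 * (-1)) +
      (0 * p 5 + 0 * (-p 5) + 0 * p 7 + 0 * p 9 + 0 * (-p 12 - p 13) + 0 * p 1 + 0 * (-p 0) + (-1) * 0) : ℝ) =
      0
    ring
  · change ((p 5 * 0 + (-p 5) * 0 + p 7 * (-1) + p 9 * 0 + (-p 12 - p 13) * 0 + p 1 * 0 + (-p 0) * 0 + 0 * 0) +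
      (0 * (-p 0) + 0 * p 0 + 0 * 0 + 0 * (-p 5) + 0 * p 4 + 0 * (-p 12) + 0 * (-p 6) + (-1) * (-p 7)) : ℝ) =
      0
    ring
  · change ((p 5 * 0 + (-p 5) * 0 + p 7 * 0 + p 9 * (-1) + (-p 12 - p 13) * 0 + p 1 * 0 + (-p 0) * 0 + 0 * 0) +
      (0 * (-p 1) + 0 * p 1 + 0 * p 5 + 0 * 0 + 0 * (-p 3) + 0 * (-p 8) + 0 * (-p 13) + (-1) * (-p 9)) : ℝ) =
      0
    ring
  · change ((p 5 * 0 + (-p 5) * 0 + p 7 * 0 + p 9 * 0 + (-p 12 - p 13) * (-1) + p 1 * 0 + (-p 0) * 0 + 0 * 0) +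
      (0 * (-p 2) + 0 * p 2 + 0 * (-p 4) + 0 * p 3 + 0 * 0 + 0 * (-p 10) + 0 * (-p 11) + (-1) * (p 12 + p 13)) : ℝ) =
      0
    ring
  · change (((-p 0) * 0 + p 0 * 1 + 0 * 0 + (-p 5) * 0 + p 4 * 0 + (-p 12) * 0 + (-p 6) * 0 + (-p 7) * 0) +
      (0 * 0 + 0 * 0 + (-1) * p 0 + 0 * p 1 + 0 * p 2 + 0 * (-p 3) + 0 * (-p 4) + 0 * (-p 5)) : ℝ) =
      0
    ring
  · change (((-p 0) * 1 + p 0 * 0 + 0 * 0 + (-p 5) * 0 + p 4 * 0 + (-p 12) * 0 + (-p 6) * 0 + (-p 7) * 0) +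
      (0 * 0 + 0 * 0 + (-1) * (-p 0) + 0 * (-p 1) + 0 * (-p 2) + 0 * p 3 + 0 * p 4 + 0 * p 5) : ℝ) =
      0
    ring
  · change (((-p 0) * 0 + p 0 * 0 + 0 * 0 + (-p 5) * 0 + p 4 * 0 + (-p 12) * (-1) + (-p 6) * 0 + (-p 7) * 0) +
      (0 * p 3 + 0 * (-p 3) + (-1) * p 12 + 0 * p 8 + 0 * p 10 + 0 * 0 + 0 * p 2 + 0 * (-p 1)) : ℝ) =
      0
    ring
  · change (((-p 0) * 0 + p 0 * 0 + 0 * 0 + (-p 5) * 0 + p 4 * 0 + (-p 12) * 0 + (-p 6) * (-1) + (-p 7) * 0) +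
      (0 * p 4 + 0 * (-p 4) + (-1) * p 6 + 0 * p 13 + 0 * p 11 + 0 * (-p 2) + 0 * 0 + 0 * p 0) : ℝ) =
      0
    ring
  · change (((-p 0) * 0 + p 0 * 0 + 0 * 0 + (-p 5) * 0 + p 4 * 0 + (-p 12) * 0 + (-p 6) * 0 + (-p 7) * (-1)) +
      (0 * p 5 + 0 * (-p 5) + (-1) * p 7 + 0 * p 9 + 0 * (-p 12 - p 13) + 0 * p 1 + 0 * (-p 0) + 0 * 0) : ℝ) =
      0
    ring
  · change (((-p 0) * 0 + p 0 * 0 + 0 * (-1) + (-p 5) * 0 + p 4 * 0 + (-p 12) * 0 + (-p 6) * 0 + (-p 7) * 0) +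
      (0 * (-p 0) + 0 * p 0 + (-1) * 0 + 0 * (-p 5) + 0 * p 4 + 0 * (-p 12) + 0 * (-p 6) + 0 * (-p 7)) : ℝ) =
      0
    ring
  · change (((-p 0) * 0 + p 0 * 0 + 0 * 0 + (-p 5) * (-1) + p 4 * 0 + (-p 12) * 0 + (-p 6) * 0 + (-p 7) * 0) +
      (0 * (-p 1) + 0 * p 1 + (-1) * p 5 + 0 * 0 + 0 * (-p 3) + 0 * (-p 8) + 0 * (-p 13) + 0 * (-p 9)) : ℝ) =
      0
    ring
  · change (((-p 0) * 0 + p 0 * 0 + 0 * 0 + (-p 5) * 0 + p 4 * (-1) + (-p 12) * 0 + (-p 6) * 0 + (-p 7) * 0) +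
      (0 * (-p 2) + 0 * p 2 + (-1) * (-p 4) + 0 * p 3 + 0 * 0 + 0 * (-p 10) + 0 * (-p 11) + 0 * (p 12 + p 13)) : ℝ) =
      0
    ring
  · change (((-p 1) * 0 + p 1 * 1 + p 5 * 0 + 0 * 0 + (-p 3) * 0 + (-p 8) * 0 + (-p 13) * 0 + (-p 9) * 0) +
      (0 * 0 + 0 * 0 + 0 * p 0 + (-1) * p 1 + 0 * p 2 + 0 * (-p 3) + 0 * (-p 4) + 0 * (-p 5)) : ℝ) =
      0
    ring
  · change (((-p 1) * 1 + p 1 * 0 + p 5 * 0 + 0 * 0 + (-p 3) * 0 + (-p 8) * 0 + (-p 13) * 0 + (-p 9) * 0) +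
      (0 * 0 + 0 * 0 + 0 * (-p 0) + (-1) * (-p 1) + 0 * (-p 2) + 0 * p 3 + 0 * p 4 + 0 * p 5) : ℝ) =
      0
    ring
  · change (((-p 1) * 0 + p 1 * 0 + p 5 * 0 + 0 * 0 + (-p 3) * 0 + (-p 8) * (-1) + (-p 13) * 0 + (-p 9) * 0) +
      (0 * p 3 + 0 * (-p 3) + 0 * p 12 + (-1) * p 8 + 0 * p 10 + 0 * 0 + 0 * p 2 + 0 * (-p 1)) : ℝ) =
      0
    ring
  · change (((-p 1) * 0 + p 1 * 0 + p 5 * 0 + 0 * 0 + (-p 3) * 0 + (-p 8) * 0 + (-p 13) * (-1) + (-p 9) * 0) +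
      (0 * p 4 + 0 * (-p 4) + 0 * p 6 + (-1) * p 13 + 0 * p 11 + 0 * (-p 2) + 0 * 0 + 0 * p 0) : ℝ) =
      0
    ring
  · change (((-p 1) * 0 + p 1 * 0 + p 5 * 0 + 0 * 0 + (-p 3) * 0 + (-p 8) * 0 + (-p 13) * 0 + (-p 9) * (-1)) +
      (0 * p 5 + 0 * (-p 5) + 0 * p 7 + (-1) * p 9 + 0 * (-p 12 - p 13) + 0 * p 1 + 0 * (-p 0) + 0 * 0) : ℝ) =
      0
    ring
  · change (((-p 1) * 0 + p 1 * 0 + p 5 * (-1) + 0 * 0 + (-p 3) * 0 + (-p 8) * 0 + (-p 13) * 0 + (-p 9) * 0) +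
      (0 * (-p 0) + 0 * p 0 + 0 * 0 + (-1) * (-p 5) + 0 * p 4 + 0 * (-p 12) + 0 * (-p 6) + 0 * (-p 7)) : ℝ) =
      0
    ring
  · change (((-p 1) * 0 + p 1 * 0 + p 5 * 0 + 0 * (-1) + (-p 3) * 0 + (-p 8) * 0 + (-p 13) * 0 + (-p 9) * 0) +
      (0 * (-p 1) + 0 * p 1 + 0 * p 5 + (-1) * 0 + 0 * (-p 3) + 0 * (-p 8) + 0 * (-p 13) + 0 * (-p 9)) : ℝ) =
      0
    ring
  · change (((-p 1) * 0 + p 1 * 0 + p 5 * 0 + 0 * 0 + (-p 3) * (-1) + (-p 8) * 0 + (-p 13) * 0 + (-p 9) * 0) +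
      (0 * (-p 2) + 0 * p 2 + 0 * (-p 4) + (-1) * p 3 + 0 * 0 + 0 * (-p 10) + 0 * (-p 11) + 0 * (p 12 + p 13)) : ℝ) =
      0
    ring
  · change (((-p 2) * 0 + p 2 * 1 + (-p 4) * 0 + p 3 * 0 + 0 * 0 + (-p 10) * 0 + (-p 11) * 0 + (p 12 + p 13) * 0) +
      (0 * 0 + 0 * 0 + 0 * p 0 + 0 * p 1 + (-1) * p 2 + 0 * (-p 3) + 0 * (-p 4) + 0 * (-p 5)) : ℝ) =
      0
    ring
  · change (((-p 2) * 1 + p 2 * 0 + (-p 4) * 0 + p 3 * 0 + 0 * 0 + (-p 10) * 0 + (-p 11) * 0 + (p 12 + p 13) * 0) +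
      (0 * 0 + 0 * 0 + 0 * (-p 0) + 0 * (-p 1) + (-1) * (-p 2) + 0 * p 3 + 0 * p 4 + 0 * p 5) : ℝ) =
      0
    ring
  · change (((-p 2) * 0 + p 2 * 0 + (-p 4) * 0 + p 3 * 0 + 0 * 0 + (-p 10) * (-1) + (-p 11) * 0 + (p 12 + p 13) * 0) +
      (0 * p 3 + 0 * (-p 3) + 0 * p 12 + 0 * p 8 + (-1) * p 10 + 0 * 0 + 0 * p 2 + 0 * (-p 1)) : ℝ) =
      0
    ring
  · change (((-p 2) * 0 + p 2 * 0 + (-p 4) * 0 + p 3 * 0 + 0 * 0 + (-p 10) * 0 + (-p 11) * (-1) + (p 12 + p 13) * 0) +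
      (0 * p 4 + 0 * (-p 4) + 0 * p 6 + 0 * p 13 + (-1) * p 11 + 0 * (-p 2) + 0 * 0 + 0 * p 0) : ℝ) =
      0
    ring
  · change (((-p 2) * 0 + p 2 * 0 + (-p 4) * 0 + p 3 * 0 + 0 * 0 + (-p 10) * 0 + (-p 11) * 0 + (p 12 + p 13) * (-1)) +
      (0 * p 5 + 0 * (-p 5) + 0 * p 7 + 0 * p 9 + (-1) * (-p 12 - p 13) + 0 * p 1 + 0 * (-p 0) + 0 * 0) : ℝ) =
      0
    ring
  · change (((-p 2) * 0 + p 2 * 0 + (-p 4) * (-1) + p 3 * 0 + 0 * 0 + (-p 10) * 0 + (-p 11) * 0 + (p 12 + p 13) * 0) +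
      (0 * (-p 0) + 0 * p 0 + 0 * 0 + 0 * (-p 5) + (-1) * p 4 + 0 * (-p 12) + 0 * (-p 6) + 0 * (-p 7)) : ℝ) =
      0
    ring
  · change (((-p 2) * 0 + p 2 * 0 + (-p 4) * 0 + p 3 * (-1) + 0 * 0 + (-p 10) * 0 + (-p 11) * 0 + (p 12 + p 13) * 0) +
      (0 * (-p 1) + 0 * p 1 + 0 * p 5 + 0 * 0 + (-1) * (-p 3) + 0 * (-p 8) + 0 * (-p 13) + 0 * (-p 9)) : ℝ) =
      0
    ring
  · change (((-p 2) * 0 + p 2 * 0 + (-p 4) * 0 + p 3 * 0 + 0 * (-1) + (-p 10) * 0 + (-p 11) * 0 + (p 12 + p 13) * 0) +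
      (0 * (-p 2) + 0 * p 2 + 0 * (-p 4) + 0 * p 3 + (-1) * 0 + 0 * (-p 10) + 0 * (-p 11) + 0 * (p 12 + p 13)) : ℝ) =
      0
    ring

theorem tr_om (x : Fin 8 → ℝ) : (om x).trace = 4 * (x 0 + x 1) := by
  rw [Matrix.trace, Fin.sum_univ_eight]
  change (x 0 + x 1 + x 0 + x 0 + x 0 + x 1 + x 1 + x 1 : ℝ) = 4 * (x 0 + x 1)
  ring

theorem tr_mul (x y : Fin 8 → ℝ) : (om x * om y).trace = 4 * (x 0 * y 0 + x 1 * y 1 + x 2 * y 5 +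
    x 3 * y 6 + x 4 * y 7 + x 5 * y 2 + x 6 * y 3 + x 7 * y 4) := by
  rw [Matrix.trace, Fin.sum_univ_eight]
  simp only [Matrix.diag_apply, Matrix.mul_apply, Fin.sum_univ_eight]
  change ((x 0 * y 0 + 0 * 0 + 0 * 0 + 0 * 0 + 0 * 0 + x 2 * y 5 + x 3 * y 6 + x 4 * y 7) +
    (0 * 0 + x 1 * y 1 + x 5 * y 2 + x 6 * y 3 + x 7 * y 4 + 0 * 0 + 0 * 0 + 0 * 0) +
    (0 * 0 + x 2 * y 5 + x 0 * y 0 + 0 * 0 + 0 * 0 + 0 * 0 + x 7 * y 4 + (-x 6) * (-y 3)) +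
    (0 * 0 + x 3 * y 6 + 0 * 0 + x 0 * y 0 + 0 * 0 + (-x 7) * (-y 4) + 0 * 0 + x 5 * y 2) +
    (0 * 0 + x 4 * y 7 + 0 * 0 + 0 * 0 + x 0 * y 0 + x 6 * y 3 + (-x 5) * (-y 2) + 0 * 0) +
    (x 5 * y 2 + 0 * 0 + 0 * 0 + (-x 4) * (-y 7) + x 3 * y 6 + x 1 * y 1 + 0 * 0 + 0 * 0) +
    (x 6 * y 3 + 0 * 0 + x 4 * y 7 + 0 * 0 + (-x 2) * (-y 5) + 0 * 0 + x 1 * y 1 + 0 * 0) +
    (x 7 * y 4 + 0 * 0 + (-x 3) * (-y 6) + x 2 * y 5 + 0 * 0 + 0 * 0 + 0 * 0 + x 1 * y 1) : ℝ) = 4 * (x 0 * y 0 + x 1 * y 1 + x 2 * y 5 +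
    x 3 * y 6 + x 4 * y 7 + x 5 * y 2 + x 6 * y 3 + x 7 * y 4)
  ring

theorem bil (x y : Fin 8 → ℝ) : x ⬝ᵥ (Bm *ᵥ y) =
    (om x).trace * (om y).trace / 16 - (om x * om y).trace / 4 := by
  rw [tr_om, tr_om, tr_mul, Bm_mulVec, dotProduct, Fin.sum_univ_eight]
  change (x 0 * y 1 + x 1 * y 0 + x 2 * (-y 5) + x 3 * (-y 6) + x 4 * (-y 7) + x 5 * (-y 2) +
    x 6 * (-y 3) + x 7 * (-y 4) : ℝ) = _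
  ring

theorem inv_mul_coe (g : SLn 8) : (g⁻¹).1 * g.1 = 1 := by
  have : (g⁻¹ * g).1 = (1 : SLn 8).1 := by rw [inv_mul_cancel]
  rwa [Matrix.SpecialLinearGroup.coe_mul] at this

theorem om_eq {g : SLn 8} (hg : g ∈ autL oct) (x : Fin 8 → ℝ) :
    om (g.1 *ᵥ x) = g.1 * om x * (g⁻¹).1 := by
  have h1 : g.1 * om x = om (g.1 *ᵥ x) * g.1 := hg x
  rw [h1, Matrix.mul_assoc, mul_eq_one_comm.1 (inv_mul_coe g), mul_one]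

/-- automorphisms preserve the norm form -/
theorem aut_form {g : SLn 8} (hg : g ∈ autL oct) : g.1ᵀ * Bm * g.1 = Bm := by
  have key : ∀ x y : Fin 8 → ℝ, x ⬝ᵥ ((g.1ᵀ * Bm * g.1) *ᵥ y) = x ⬝ᵥ (Bm *ᵥ y) := by
    intro x y
    have h1 : x ⬝ᵥ ((g.1ᵀ * Bm * g.1) *ᵥ y) = (g.1 *ᵥ x) ⬝ᵥ (Bm *ᵥ (g.1 *ᵥ y)) := by
      rw [← Matrix.mulVec_mulVec, ← Matrix.mulVec_mulVec, Matrix.dotProduct_mulVec,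
        Matrix.vecMul_transpose]
    rw [h1, bil, bil, om_eq hg, om_eq hg]
    have h2 : ∀ M : Mat 8, (g.1 * M * (g⁻¹).1).trace = M.trace := by
      intro M
      rw [Matrix.trace_mul_comm, ← Matrix.mul_assoc, inv_mul_coe, one_mul]
    have h3 : g.1 * om x * (g⁻¹).1 * (g.1 * om y * (g⁻¹).1) = g.1 * (om x * om y) * (g⁻¹).1 := by
      calc g.1 * om x * (g⁻¹).1 * (g.1 * om y * (g⁻¹).1)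
          = g.1 * om x * ((g⁻¹).1 * g.1) * om y * (g⁻¹).1 := by simp only [Matrix.mul_assoc]
        _ = g.1 * (om x * om y) * (g⁻¹).1 := by
            rw [inv_mul_coe, mul_one]; simp only [Matrix.mul_assoc]
    rw [h3, h2, h2, h2]
  ext i j
  have h4 := key (Pi.single i 1) (Pi.single j 1)
  rw [single_one_dotProduct, single_one_dotProduct, Matrix.mulVec_single_one,
    Matrix.mulVec_single_one] at h4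
  exact h4

theorem aut_transpose {g : SLn 8} (hg : g ∈ autL oct) : ∃ b ∈ autL oct, b.1 = g.1ᵀ := by
  have h1 := aut_form hg
  have h2 : g.1ᵀ = Bm * (g⁻¹).1 * Bm := by
    calc g.1ᵀ = g.1ᵀ * (Bm * Bm) := by rw [Bm_sq, mul_one]
      _ = (g.1ᵀ * Bm * (g.1 * (g⁻¹).1)) * Bm := by
          rw [mul_eq_one_comm.1 (inv_mul_coe g), mul_one, Matrix.mul_assoc]
      _ = (g.1ᵀ * Bm * g.1) * (g⁻¹).1 * Bm := by simp only [Matrix.mul_assoc]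
      _ = _ := by rw [h1]
  refine ⟨⟨g.1ᵀ, by rw [Matrix.det_transpose]; exact g.2⟩, ?_, rfl⟩
  intro x
  show g.1ᵀ * om x = om (g.1ᵀ *ᵥ x) * g.1ᵀ
  have h3 : ∀ y, (g⁻¹).1 * om y = om ((g⁻¹).1 *ᵥ y) * (g⁻¹).1 := (autL oct).inv_mem hg
  rw [h2]
  calc Bm * (g⁻¹).1 * Bm * om x = Bm * (g⁻¹).1 * (Bm * om x) := by simp only [Matrix.mul_assoc]
    _ = Bm * ((g⁻¹).1 * om (Bm *ᵥ x)) * Bm := by rw [Bm_om]; simp only [Matrix.mul_assoc]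
    _ = (Bm * om ((g⁻¹).1 *ᵥ (Bm *ᵥ x))) * (g⁻¹).1 * Bm := by
        rw [h3]; simp only [Matrix.mul_assoc]
    _ = om (Bm *ᵥ ((g⁻¹).1 *ᵥ (Bm *ᵥ x))) * Bm * (g⁻¹).1 * Bm := by rw [Bm_om]
    _ = _ := by
        rw [Matrix.mulVec_mulVec, Matrix.mulVec_mulVec]
        simp only [Matrix.mul_assoc]

/-- the Lie algebra of the automorphism group of the split octonions -/
theorem la_aut {X : Mat 8} : LA (autL oct) X ↔ ∃ p, X = gm p := by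
  rw [la_autL]
  constructor
  · rintro ⟨-, h⟩
    exact ⟨_, gm_of_der h⟩
  · rintro ⟨p, rfl⟩
    exact ⟨fun t => (det_exp_of_skew Bm_sq (gm_skew p) t).1, gm_der p⟩

end Vale.Agent.P092.H41.Re.G2
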