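import Vale.Agent.P092.H41.Re.Sq
import Mathlib.Topology.Algebra.OpenSubgroup

/-!
P092, project RE, row [RE-EX] (helper41), part 1: a closed connected linear group whose Lie algebra
has no proper invariant subspace is simple modulo its centre, as an abstract group.
-/

set_option linter.all false

open Matrix Filter Topology

namespace Vale.Agent.P092.H41.Re

open Vale.Agent.P092.H793.Re

attribute [local instance] Matrix.linftyOpNormedRing Matrix.linftyOpNormedAlgebra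

variable {n : ℕ} {G : Type} [Group G] [TopologicalSpace G] {ρ : G →* SLn n}

/-- a neighbourhood of `1` generates a connected group -/
theorem top_of_nhds (he : IsClosedEmbedding ρ) (hc : PreconnectedSpace G) (H : Subgroup G)
    (h : (H : Set G) ∈ 𝓝 (1 : G)) : H = ⊤ := by
  haveI := topGroup he
  have h1 : IsOpen (H : Set G) := H.isOpen_of_mem_nhds h
  have h2 : IsClopen (H : Set G) := ⟨H.isClosed_of_isOpen h1, h1⟩
  have h3 := h2.eq_univ ⟨1, H.one_mem⟩
  exact SetLike.coe_injective (by rw [h3]; rfl)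

theorem near_one (he : IsClosedEmbedding ρ) : ∀ᶠ g in 𝓝 (1 : G), ∃ X, Lie ρ X ∧
    (ρ g).1 = NormedSpace.exp X := by
  obtain ⟨V, hV, h⟩ := H736.Re.log_nhds he (lieS he) (fun X => mem_lieS) Filter.univ_mem
  have h1 : Tendsto (fun g : G => (ρ g).1) (𝓝 1) (𝓝 1) := by
    have := (emb_mat he).continuous.tendsto 1
    rw [map_one] at this
    exact this
  filter_upwards [h1.eventually hV] with g hg
  obtain ⟨X, -, hX, hX'⟩ := h g hg
  exact ⟨X, hX, hX'⟩

/-- **(T1)** a closed connected linear group is generated by the exponentials -/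
theorem gen0 (he : IsClosedEmbedding ρ) (hc : PreconnectedSpace G) :
    Subgroup.closure {g : G | ∃ X, Lie ρ X ∧ (ρ g).1 = NormedSpace.exp X} = ⊤ := by
  refine top_of_nhds he hc _ ?_
  filter_upwards [near_one he] with g hg
  exact Subgroup.subset_closure hg

/-- tangent vectors of a subgroup: derivatives of curves in it -/
def Tan (ρ : G →* SLn n) (N : Subgroup G) (Y : Mat n) : Prop :=
  ∃ c : ℝ → G, (∀ t, c t ∈ N) ∧ c 0 = 1 ∧ HasStrictDerivAt (fun t => (ρ (c t)).1) Y 0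

theorem Tan.zero (N : Subgroup G) : Tan ρ N 0 :=
  ⟨fun _ => 1, fun _ => N.one_mem, rfl, hasStrictDerivAt_const _ _⟩

theorem Tan.add {N : Subgroup G} {Y Z : Mat n} (hY : Tan ρ N Y) (hZ : Tan ρ N Z) :
    Tan ρ N (Y + Z) := by
  obtain ⟨c, hc, hc0, hcd⟩ := hY
  obtain ⟨d, hd, hd0, hdd⟩ := hZ
  refine ⟨fun t => c t * d t, fun t => N.mul_mem (hc t) (hd t), by simp [hc0, hd0], ?_⟩
  have h1 := hcd.mul hdd
  have e1 : (ρ (c 0)).1 = 1 := by rw [hc0, map_one]; rfl
  have e2 : (ρ (d 0)).1 = 1 := by rw [hd0, map_one]; rfl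
  rw [e1, e2, mul_one, one_mul] at h1
  have e3 : (fun t => (ρ (c t * d t)).1) = fun t => (ρ (c t)).1 * (ρ (d t)).1 := by
    funext t
    rw [map_mul, Matrix.SpecialLinearGroup.coe_mul]
  rw [e3]
  exact h1

theorem Tan.smul {N : Subgroup G} {Y : Mat n} (a : ℝ) (hY : Tan ρ N Y) : Tan ρ N (a • Y) := by
  obtain ⟨c, hc, hc0, hcd⟩ := hY
  refine ⟨fun t => c (a * t), fun t => hc _, by simp [hc0], ?_⟩
  have h1 : HasStrictDerivAt (fun t : ℝ => a * t) a 0 := by
    simpa using (hasStrictDerivAt_id (0 : ℝ)).const_mul a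
  have h2 : HasStrictDerivAt (fun t => (ρ (c t)).1) Y (a * 0) := by rw [mul_zero]; exact hcd
  exact HasStrictDerivAt.scomp (0 : ℝ) h2 h1

theorem Tan.conj {N : Subgroup G} [N.Normal] {Y : Mat n} (g : G) (hY : Tan ρ N Y) :
    Tan ρ N ((ρ g).1 * Y * (ρ g⁻¹).1) := by
  obtain ⟨c, hc, hc0, hcd⟩ := hY
  refine ⟨fun t => g * c t * g⁻¹, fun t => Subgroup.Normal.conj_mem inferInstance _ (hc t) g,
    by simp [hc0], ?_⟩
  have h1 := (hcd.const_mul (ρ g).1).mul_const (ρ g⁻¹).1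
  have e3 : (fun t => (ρ (g * c t * g⁻¹)).1) = fun t => (ρ g).1 * (ρ (c t)).1 * (ρ g⁻¹).1 := by
    funext t
    rw [map_mul, map_mul, Matrix.SpecialLinearGroup.coe_mul, Matrix.SpecialLinearGroup.coe_mul]
  rw [e3]
  exact h1

/-- commutator curves -/
theorem Tan.comm {N : Subgroup G} [hN : N.Normal] {z : G} (hz : z ∈ N) {X : Mat n}
    (hX : Lie ρ X) : Tan ρ N ((ρ z).1 * X * (ρ z⁻¹).1 - X) := by
  choose e he using hX
  have h0 : (ρ (e 0)).1 = 1 := by rw [he, zero_smul, NormedSpace.exp_zero]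
  -- normalise the curve at 0
  obtain ⟨f, hf, hf0⟩ : ∃ f : ℝ → G, (∀ t, (ρ (f t)).1 = NormedSpace.exp (t • X)) ∧ f 0 = 1 := by
    refine ⟨fun t => if t = 0 then 1 else e t, fun t => ?_, by simp⟩
    by_cases ht : t = 0
    · simp [ht]
    · simp [ht, he]
  have hfi : ∀ t, (ρ (f t)⁻¹).1 = NormedSpace.exp ((-t) • X) := by
    intro t
    rw [coe_inv, hf, neg_smul, Matrix.exp_neg]
  refine ⟨fun t => z * f t * z⁻¹ * (f t)⁻¹, fun t => ?_, by simp [hf0], ?_⟩
  · have h1 : z * f t * z⁻¹ * (f t)⁻¹ = z * (f t * z⁻¹ * (f t)⁻¹) := by group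
    show z * f t * z⁻¹ * (f t)⁻¹ ∈ N
    rw [h1]
    exact N.mul_mem hz (hN.conj_mem _ (N.inv_mem hz) _)
  · have d1 := hasStrictDerivAt_exp_smul_const (𝕂 := ℝ) X (0 : ℝ)
    have d2 := hasStrictDerivAt_exp_smul_const (𝕂 := ℝ) (-X) (0 : ℝ)
    have d3 := ((d1.const_mul (ρ z).1).mul_const (ρ z⁻¹).1).mul d2
    simp only [zero_smul, NormedSpace.exp_zero, one_mul, mul_one] at d3
    have e3 : (fun t => (ρ (z * f t * z⁻¹ * (f t)⁻¹)).1) =
        (fun t : ℝ => (ρ z).1 * NormedSpace.exp (t • X) * (ρ z⁻¹).1) *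
          fun t : ℝ => NormedSpace.exp (t • -X) := by
      funext t
      simp only [Pi.mul_apply]
      rw [map_mul, map_mul, map_mul, Matrix.SpecialLinearGroup.coe_mul,
        Matrix.SpecialLinearGroup.coe_mul, Matrix.SpecialLinearGroup.coe_mul, hf, hfi, smul_neg,
        neg_smul]
    rw [e3]
    have e4 : (ρ z).1 * X * (ρ z⁻¹).1 - X =
        (ρ z).1 * X * (ρ z⁻¹).1 + (ρ z).1 * (ρ z⁻¹).1 * -X := by
      rw [coe_mul_inv, one_mul, sub_eq_add_neg]
    rw [e4]
    exact d3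

/-- the tangent space of a normal subgroup -/
def tanS (he : IsClosedEmbedding ρ) (N : Subgroup G) : Submodule ℝ (Mat n) where
  carrier := {Y | Tan ρ N Y ∧ Lie ρ Y}
  zero_mem' := ⟨Tan.zero N, lie_zero⟩
  add_mem' := by
    rintro X Y ⟨hX, hX'⟩ ⟨hY, hY'⟩
    exact ⟨hX.add hY, lie_add he hX' hY'⟩
  smul_mem' := by
    rintro c X ⟨hX, hX'⟩
    exact ⟨hX.smul c, lie_smul c hX'⟩

theorem tanS_bracket (he : IsClosedEmbedding ρ) (N : Subgroup G) [N.Normal] {X Y : Mat n}
    (hX : X ∈ tanS he N) (hY : Lie ρ Y) : Y * X - X * Y ∈ tanS he N := by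
  haveI : CompleteSpace (Mat n) := FiniteDimensional.complete ℝ _
  have hcl : IsClosed (tanS he N : Set (Mat n)) := (tanS he N).closed_of_finiteDimensional
  have hd := (hasDerivAt_conj Y X).tendsto_slope_zero
  simp only [zero_add, zero_smul, NormedSpace.exp_zero, one_mul, mul_one, neg_zero] at hd
  refine hcl.mem_of_tendsto hd (Eventually.of_forall fun s => ?_)
  refine (tanS he N).smul_mem _ ((tanS he N).sub_mem ?_ hX)
  obtain ⟨g, hg⟩ := hY s
  have h1 : (ρ g⁻¹).1 = NormedSpace.exp (-(s • Y)) := by rw [coe_inv, hg, Matrix.exp_neg]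
  rw [← hg, ← h1]
  exact ⟨hX.1.conj g, lie_conj g hX.2⟩

/-- products of curves -/
theorem prod_deriv {E : Type*} [NormedAddCommGroup E] [NormedSpace ℝ E] {ι : Type*}
    (f : ι → E → Mat n) (f' : ι → E →L[ℝ] Mat n) (x : E) (l : List ι)
    (h1 : ∀ i, f i x = 1) (h : ∀ i, HasStrictFDerivAt (f i) (f' i) x) :
    HasStrictFDerivAt (fun y => (l.map fun i => f i y).prod) ((l.map f').sum) x ∧
      (l.map fun i => f i x).prod = 1 := by
  induction l with
  | nil =>
    refine ⟨?_, rfl⟩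
    simp only [List.map_nil, List.prod_nil, List.sum_nil]
    exact hasStrictFDerivAt_const _ _
  | cons i l ih =>
    obtain ⟨ih1, ih2⟩ := ih
    refine ⟨?_, ?_⟩
    · have h2 := HasStrictFDerivAt.fun_mul' (h i) ih1
      simp only [List.map_cons, List.prod_cons, List.sum_cons]
      refine h2.congr_fderiv ?_
      rw [h1, ih2]
      apply ContinuousLinearMap.ext
      intro y
      show (1 : Mat n) * ((l.map f').sum y) + (f' i y) * (1 : Mat n) =
        f' i y + (l.map f').sum y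
      rw [one_mul, mul_one, add_comm]
    · simp only [List.map_cons, List.prod_cons]
      rw [h1, ih2, one_mul]

theorem near_L (he : IsClosedEmbedding ρ) {L : Mat n → Mat n}
    (hL : ∀ᶠ X in 𝓝 (0 : Mat n), L (NormedSpace.exp X) = X) :
    ∀ᶠ P in 𝓝 (1 : Mat n), P ∈ im ρ → Lie ρ (L P) ∧ NormedSpace.exp (L P) = P := by
  obtain ⟨V, hV, h⟩ := H736.Re.log_nhds he (lieS he) (fun X => mem_lieS) hL
  filter_upwards [hV] with P hP
  rintro ⟨g, rfl⟩
  obtain ⟨X, hX1, hXl, hX⟩ := h g hP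
  have e1 : L (ρ g).1 = X := by rw [hX]; exact hX1
  refine ⟨?_, ?_⟩
  · show Lie ρ (L (ρ g).1)
    rw [e1]; exact hXl
  · show NormedSpace.exp (L (ρ g).1) = (ρ g).1
    rw [e1, hX]

/-- a subgroup to which all elements of the Lie algebra are tangent is a neighbourhood of `1` -/
theorem nhds_of_tan (he : IsClosedEmbedding ρ) (N : Subgroup G) (h : ∀ X, Lie ρ X → Tan ρ N X) :
    (N : Set G) ∈ 𝓝 (1 : G) := by
  haveI : CompleteSpace (Mat n) := FiniteDimensional.complete ℝ _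
  obtain ⟨L, hL1, hL0, hL⟩ := exists_L (n := n)
  obtain ⟨d, ι, π, hι, hιπ, hιi⟩ := exists_chart (lieS he)
  have hπι : ∀ x, π (ι x) = x := fun x => hιi (hιπ _ (hι x))
  have h1 : ∀ i : Fin d, Tan ρ N (ι (Pi.single i 1)) := fun i => h _ (hι _)
  choose c hcN hc0 hcd using h1
  obtain ⟨f, hf⟩ : ∃ f : Fin d → (Fin d → ℝ) → Mat n, f = fun i y => (ρ (c i (y i))).1 := ⟨_, rfl⟩
  obtain ⟨f', hf'⟩ : ∃ f' : Fin d → (Fin d → ℝ) →L[ℝ] Mat n, f' = fun i =>
    (ContinuousLinearMap.proj (R := ℝ) (φ := fun _ : Fin d => ℝ) i).smulRight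
      (ι (Pi.single i 1)) := ⟨_, rfl⟩
  have hf0 : ∀ i, f i 0 = 1 := by
    intro i
    rw [hf]
    show (ρ (c i 0)).1 = 1
    rw [hc0, map_one]
    rfl
  have hfd : ∀ i, HasStrictFDerivAt (f i) (f' i) 0 := by
    intro i
    have h2 := HasStrictFDerivAt.comp (𝕜 := ℝ) (0 : Fin d → ℝ)
      (g := fun t : ℝ => (ρ (c i t)).1)
      (f := fun y : Fin d → ℝ => y i) (hcd i).hasStrictFDerivAt
      (ContinuousLinearMap.proj (R := ℝ) (φ := fun _ : Fin d => ℝ) i).hasStrictFDerivAt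
    rw [hf, hf']
    refine h2.congr_fderiv ?_
    apply ContinuousLinearMap.ext
    intro y
    rfl
  obtain ⟨hF, hF0⟩ := prod_deriv f f' 0 (List.finRange d) hf0 hfd
  have hsum : ((List.finRange d).map f').sum = ι := by
    rw [← List.ofFn_eq_map, List.sum_ofFn, hf']
    ext y
    have h3 : y = ∑ i, y i • (Pi.single i (1 : ℝ) : Fin d → ℝ) := by
      funext j
      simp [Finset.sum_apply, Pi.single_apply]
    conv_rhs => rw [h3]
    simp
  rw [hsum] at hF
  obtain ⟨F, hFe⟩ : ∃ F : (Fin d → ℝ) → Mat n,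
    F = fun y => ((List.finRange d).map fun i => f i y).prod := ⟨_, rfl⟩
  rw [← hFe] at hF
  have hF1 : F 0 = 1 := by rw [hFe]; exact hF0
  have hFN : ∀ y, ∃ g ∈ N, (ρ g).1 = F y := by
    intro y
    rw [hFe]
    show ∃ g ∈ N, (ρ g).1 = ((List.finRange d).map fun i => f i y).prod
    generalize List.finRange d = l
    induction l with
    | nil => exact ⟨1, N.one_mem, by simp⟩
    | cons i l ih =>
      obtain ⟨g, hg, hge⟩ := ih
      refine ⟨c i (y i) * g, N.mul_mem (hcN i _) hg, ?_⟩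
      rw [map_mul, Matrix.SpecialLinearGroup.coe_mul, hge, List.map_cons, List.prod_cons]
      congr 1
      rw [hf]
  have s4 : HasStrictFDerivAt (fun y => L (F y)) ι 0 := by
    have h4 : HasStrictFDerivAt L (1 : Mat n →L[ℝ] Mat n) (F 0) := by rw [hF1]; exact hL1
    exact HasStrictFDerivAt.comp (0 : Fin d → ℝ) h4 hF
  have s5 : HasStrictFDerivAt (fun y => π (L (F y))) (π.comp ι) 0 :=
    HasStrictFDerivAt.comp (0 : Fin d → ℝ) π.hasStrictFDerivAt s4
  have hsurj : (π.comp ι).range = ⊤ := by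
    have h2 : Function.Surjective
        ((π.comp ι : (Fin d → ℝ) →L[ℝ] (Fin d → ℝ)) : (Fin d → ℝ) →ₗ[ℝ] (Fin d → ℝ)) :=
      fun x => ⟨x, hπι x⟩
    exact LinearMap.range_eq_top.2 h2
  have hmap := s5.map_nhds_eq_of_surj hsurj
  rw [hF1, hL0, map_zero] at hmap
  have hW : {y | Lie ρ (L (F y)) ∧ NormedSpace.exp (L (F y)) = F y} ∈ 𝓝 (0 : Fin d → ℝ) := by
    have c1 : Tendsto F (𝓝 0) (𝓝 1) := by
      have := hF.hasFDerivAt.continuousAt.tendsto
      rwa [hF1] at this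
    filter_upwards [c1.eventually (near_L he hL)] with y hy
    obtain ⟨g, hg, hge⟩ := hFN y
    exact hy ⟨g, hge⟩
  have hW' : (fun y => π (L (F y))) '' {y | Lie ρ (L (F y)) ∧ NormedSpace.exp (L (F y)) = F y} ∈
      𝓝 (0 : Fin d → ℝ) := by
    rw [← hmap]
    exact Filter.image_mem_map hW
  have c2 : Tendsto (fun g : G => (ρ g).1) (𝓝 1) (𝓝 1) := by
    have := (emb_mat he).continuous.tendsto 1
    rw [map_one] at this
    exact this
  have c3 : Tendsto L (𝓝 1) (𝓝 0) := by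
    have := hL1.hasFDerivAt.continuousAt.tendsto
    rwa [hL0] at this
  have c4 : Tendsto (fun g : G => π (L (ρ g).1)) (𝓝 1) (𝓝 0) := by
    have h1 := (π.continuous.tendsto 0).comp (c3.comp c2)
    rw [map_zero] at h1
    exact h1
  filter_upwards [c2.eventually (near_L he hL), c4.eventually hW'] with g hg1 hg2
  obtain ⟨h5, h6⟩ := hg1 ⟨g, rfl⟩
  obtain ⟨y, ⟨hy1, hy2⟩, hy3⟩ := hg2
  have e1 : L (ρ g).1 = L (F y) := by
    have h7 : ι (π (L (ρ g).1)) = L (ρ g).1 := hιπ _ h5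
    have h8 : ι (π (L (F y))) = L (F y) := hιπ _ hy1
    rw [← h7, ← h8]
    exact congrArg ι hy3.symm
  obtain ⟨g', hg', hge'⟩ := hFN y
  have e2 : (ρ g).1 = (ρ g').1 := by
    rw [← h6, e1, hy2, hge']
  rw [ρ_inj he e2]
  exact hg'

/-- the Lie algebra has no proper nonzero ideal -/
def IrrLie (ρ : G →* SLn n) : Prop :=
  ∀ S : Submodule ℝ (Mat n), (∀ X ∈ S, Lie ρ X) →
    (∀ X ∈ S, ∀ Y, Lie ρ Y → Y * X - X * Y ∈ S) → S = ⊥ ∨ ∀ X, Lie ρ X → X ∈ S

/-- **(T2)** a closed connected linear group with simple Lie algebra is simple modulo its centre -/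
theorem simple_of (he : IsClosedEmbedding ρ) (hc : PreconnectedSpace G) (hs : IrrLie ρ)
    (N : Subgroup G) (hN : N.Normal) : N ≤ Subgroup.center G ∨ N = ⊤ := by
  by_cases hcen : N ≤ Subgroup.center G
  · exact Or.inl hcen
  right
  obtain ⟨z, hz, hzc⟩ := Set.not_subset.1 hcen
  -- an element of the Lie algebra not commuting with `z`
  have h1 : ∃ X, Lie ρ X ∧ (ρ z).1 * X * (ρ z⁻¹).1 - X ≠ 0 := by
    by_contra hne
    push Not at hne
    apply hzc
    have h2 : ∀ X, Lie ρ X → (ρ z).1 * X = X * (ρ z).1 := by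
      intro X hX
      have h3 := sub_eq_zero.1 (hne X hX)
      calc (ρ z).1 * X = (ρ z).1 * X * ((ρ z⁻¹).1 * (ρ z).1) := by rw [coe_inv_mul, mul_one]
        _ = ((ρ z).1 * X * (ρ z⁻¹).1) * (ρ z).1 := by simp only [Matrix.mul_assoc]
        _ = X * (ρ z).1 := by rw [h3]
    have h4 : Subgroup.closure {g : G | ∃ X, Lie ρ X ∧ (ρ g).1 = NormedSpace.exp X} ≤
        Subgroup.centralizer {z} := by
      rw [Subgroup.closure_le]
      rintro g ⟨X, hX, hg⟩
      rw [SetLike.mem_coe, Subgroup.mem_centralizer_singleton_iff]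
      apply ρ_inj he
      rw [map_mul, map_mul, Matrix.SpecialLinearGroup.coe_mul, Matrix.SpecialLinearGroup.coe_mul,
        hg]
      have h5 : Commute (ρ z).1 X := h2 X hX
      exact h5.exp_right.eq.symm
    rw [gen0 he hc] at h4
    have h5 : z ∈ Subgroup.center G := by
      rw [Subgroup.mem_center_iff]
      intro g
      exact Subgroup.mem_centralizer_singleton_iff.1 (h4 (Subgroup.mem_top g))
    exact h5
  obtain ⟨X, hX, hne⟩ := h1
  have h6 : (ρ z).1 * X * (ρ z⁻¹).1 - X ∈ tanS he N :=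
    ⟨Tan.comm hz hX, lie_sub he (lie_conj z hX) hX⟩
  rcases hs (tanS he N) (fun X hX => hX.2) (fun X hX Y hY => tanS_bracket he N hX hY) with h7 | h7
  · rw [h7] at h6
    exact absurd ((Submodule.mem_bot ℝ).1 h6) hne
  · exact top_of_nhds he hc N (nhds_of_tan he N fun X hX => (h7 X hX).1)

end Vale.Agent.P092.H41.Re
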