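import Vale.Agent.P092.H35.RePol
import Vale.Agent.P092.H736.ReLog
import Vale.Agent.P092.H793.Re.L3
import Mathlib.Analysis.Calculus.ContDiff.Basic

/-!
P092, project RE, row [RE-SQ] (helper41): a closed connected subgroup of `SL_n(ℝ)` which is stable
under transposition contains the square roots of its positive definite elements.
-/

set_option linter.all false

open Matrix Filter Topology

namespace Vale.Agent.P092.H41.Re

open Vale.Agent.P092.H793.Re

attribute [local instance] Matrix.linftyOpNormedRing Matrix.linftyOpNormedAlgebra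

variable {n : ℕ}

theorem strict (X : Mat n) : HasStrictFDerivAt (NormedSpace.exp : Mat n → Mat n)
    (fderiv ℝ (NormedSpace.exp : Mat n → Mat n) X) X := by
  haveI : CompleteSpace (Mat n) := FiniteDimensional.complete ℝ _
  exact (NormedSpace.exp_analytic (𝕂 := ℝ) X).hasStrictFDerivAt

theorem der_zero : fderiv ℝ (NormedSpace.exp : Mat n → Mat n) 0 = 1 := by
  haveI : CompleteSpace (Mat n) := FiniteDimensional.complete ℝ _
  exact (hasStrictFDerivAt_exp_zero (𝕂 := ℝ) (𝔸 := Mat n)).hasFDerivAt.fderiv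

theorem der_cont : Continuous (fderiv ℝ (NormedSpace.exp : Mat n → Mat n)) := by
  haveI : CompleteSpace (Mat n) := FiniteDimensional.complete ℝ _
  have h : ContDiff ℝ 1 (NormedSpace.exp : Mat n → Mat n) :=
    contDiff_iff_contDiffAt.2 fun X => (NormedSpace.exp_analytic (𝕂 := ℝ) X).contDiffAt
  exact h.continuous_fderiv (by norm_num)

/-- transposition -/
noncomputable def tr : Mat n →L[ℝ] Mat n :=
  LinearMap.toContinuousLinearMap (Matrix.transposeLinearEquiv (Fin n) (Fin n) ℝ ℝ).toLinearMap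

theorem tr_apply (A : Mat n) : tr A = Aᵀ := rfl

theorem der_transpose {X : Mat n} (hX : Xᵀ = X) (A : Mat n) :
    fderiv ℝ (NormedSpace.exp : Mat n → Mat n) X Aᵀ =
      (fderiv ℝ (NormedSpace.exp : Mat n → Mat n) X A)ᵀ := by
  have h1 : HasFDerivAt (fun Z : Mat n => NormedSpace.exp (tr Z))
      ((fderiv ℝ (NormedSpace.exp : Mat n → Mat n) X).comp tr) X := by
    have h0 : HasFDerivAt (NormedSpace.exp : Mat n → Mat n)
        (fderiv ℝ (NormedSpace.exp : Mat n → Mat n) X) (tr X) := by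
      rw [tr_apply, hX]; exact (strict X).hasFDerivAt
    exact HasFDerivAt.comp X h0 tr.hasFDerivAt
  have h2 : HasFDerivAt (fun Z : Mat n => tr (NormedSpace.exp Z))
      (tr.comp (fderiv ℝ (NormedSpace.exp : Mat n → Mat n) X)) X :=
    HasFDerivAt.comp X tr.hasFDerivAt (strict X).hasFDerivAt
  have h3 : (fun Z : Mat n => NormedSpace.exp (tr Z)) = fun Z => tr (NormedSpace.exp Z) := by
    funext Z
    rw [tr_apply, tr_apply, Matrix.exp_transpose]
  rw [h3] at h1
  have h4 := h1.unique h2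
  have h5 := congrArg (fun T : Mat n →L[ℝ] Mat n => T A) h4
  exact h5

theorem exp_two (Z : Mat n) :
    NormedSpace.exp ((2 : ℝ) • Z) = NormedSpace.exp Z * NormedSpace.exp Z := by
  rw [two_smul]
  exact Matrix.exp_add_of_commute _ _ (Commute.refl Z)

theorem der_two (Z B : Mat n) :
    fderiv ℝ (NormedSpace.exp : Mat n → Mat n) ((2 : ℝ) • Z) ((2 : ℝ) • B) =
      NormedSpace.exp Z * fderiv ℝ (NormedSpace.exp : Mat n → Mat n) Z B +
        fderiv ℝ (NormedSpace.exp : Mat n → Mat n) Z B * NormedSpace.exp Z := by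
  have h1 : HasFDerivAt (fun Y : Mat n => NormedSpace.exp ((2 : ℝ) • Y))
      ((fderiv ℝ (NormedSpace.exp : Mat n → Mat n) ((2 : ℝ) • Z)).comp
        ((2 : ℝ) • ContinuousLinearMap.id ℝ (Mat n))) Z :=
    HasFDerivAt.comp Z (strict ((2 : ℝ) • Z)).hasFDerivAt ((hasFDerivAt_id Z).const_smul (2 : ℝ))
  have h2 := HasFDerivAt.fun_mul' (strict Z).hasFDerivAt (strict Z).hasFDerivAt
  have h3 : (fun Y : Mat n => NormedSpace.exp ((2 : ℝ) • Y)) =
      fun Y => NormedSpace.exp Y * NormedSpace.exp Y := by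
    funext Y; exact exp_two Y
  rw [h3] at h1
  have h4 := h1.unique h2
  have h5 := congrArg (fun T : Mat n →L[ℝ] Mat n => T B) h4
  exact h5

/-- the Sylvester equation -/
theorem sylv {T F : Mat n} (hT : Tᵀ = T) (hF : Fᵀ = F) (hu : IsUnit F)
    (h : (F * F) * T + T * (F * F) = 0) : T = 0 := by
  have h1 : ((T * F) * (T * F)ᵀ).trace = 0 := by
    have h2 : (T * ((F * F) * T + T * (F * F))).trace = 0 := by rw [h]; simp
    have h3 : (T * (T * (F * F))).trace = ((T * F) * (T * F)ᵀ).trace := by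
      rw [Matrix.transpose_mul, hT, hF, Matrix.trace_mul_comm T (T * (F * F))]
      congr 1
      noncomm_ring
    have h4 : (T * ((F * F) * T)).trace = ((T * F) * (T * F)ᵀ).trace := by
      rw [Matrix.transpose_mul, hT, hF]
      congr 1
      noncomm_ring
    rw [mul_add, Matrix.trace_add, h3, h4] at h2
    linarith
  have h2 := H35.ReK.eq_zero_of_trace h1
  exact (hu.mul_left_eq_zero).1 h2

/-- The derivative of `exp` at a symmetric matrix is injective on symmetric matrices. -/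
theorem der_inj {X A : Mat n} (hX : Xᵀ = X) (hA : Aᵀ = A)
    (h : fderiv ℝ (NormedSpace.exp : Mat n → Mat n) X A = 0) : A = 0 := by
  have key : ∀ (Z : Mat n), Zᵀ = Z →
      fderiv ℝ (NormedSpace.exp : Mat n → Mat n) ((2 : ℝ) • Z) A = 0 →
      fderiv ℝ (NormedSpace.exp : Mat n → Mat n) Z A = 0 := by
    intro Z hZ h0
    obtain ⟨T, hT⟩ : ∃ T, T = fderiv ℝ (NormedSpace.exp : Mat n → Mat n) Z A := ⟨_, rfl⟩
    obtain ⟨F, hF⟩ : ∃ F, F = NormedSpace.exp ((1 / 2 : ℝ) • Z) := ⟨_, rfl⟩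
    have e1 : F * F = NormedSpace.exp Z := by
      rw [hF, ← exp_two, smul_smul]; norm_num
    have h1 := der_two Z A
    rw [map_smul, h0, smul_zero, ← hT, ← e1] at h1
    rw [← hT]
    refine sylv ?_ ?_ ?_ h1.symm
    · rw [hT, ← der_transpose hZ, hA]
    · rw [hF, ← Matrix.exp_transpose, Matrix.transpose_smul, hZ]
    · rw [hF]; exact Matrix.isUnit_exp _
  have h1 : ∀ m : ℕ, fderiv ℝ (NormedSpace.exp : Mat n → Mat n) ((1 / 2 ^ m : ℝ) • X) A = 0 := by
    intro m
    induction m with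
    | zero => simpa using h
    | succ m ih =>
      apply key
      · rw [Matrix.transpose_smul, hX]
      · rw [smul_smul]
        have e : (2 : ℝ) * (1 / 2 ^ (m + 1)) = 1 / 2 ^ m := by
          rw [pow_succ]; field_simp
        rw [e]; exact ih
  have h2 : Tendsto (fun m : ℕ => (1 / 2 ^ m : ℝ) • X) atTop (𝓝 ((0 : ℝ) • X)) := by
    refine Tendsto.smul_const ?_ X
    have := tendsto_pow_atTop_nhds_zero_of_lt_one (r := (1 / 2 : ℝ)) (by norm_num) (by norm_num)
    refine this.congr fun m => ?_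
    rw [_root_.one_div_pow]
  rw [zero_smul] at h2
  have h3 : Tendsto (fun m : ℕ => fderiv ℝ (NormedSpace.exp : Mat n → Mat n)
      ((1 / 2 ^ m : ℝ) • X) A) atTop
      (𝓝 (fderiv ℝ (NormedSpace.exp : Mat n → Mat n) 0 A)) := by
    have h4 := (der_cont (n := n)).tendsto 0
    have h5 := h4.comp h2
    exact ((ContinuousLinearMap.apply ℝ (Mat n) A).continuous.tendsto _).comp h5
  rw [der_zero] at h3
  have h6 : Tendsto (fun m : ℕ => fderiv ℝ (NormedSpace.exp : Mat n → Mat n)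
      ((1 / 2 ^ m : ℝ) • X) A) atTop (𝓝 0) := by
    simp only [h1]
    exact tendsto_const_nhds
  simpa using tendsto_nhds_unique h3 h6

/-- the local logarithm -/
theorem exists_L : ∃ L : Mat n → Mat n, HasStrictFDerivAt L (1 : Mat n →L[ℝ] Mat n) 1 ∧ L 1 = 0 ∧
    (∀ᶠ X in 𝓝 (0 : Mat n), L (NormedSpace.exp X) = X) := by
  haveI : CompleteSpace (Mat n) := FiniteDimensional.complete ℝ _
  have h : HasStrictFDerivAt (NormedSpace.exp : Mat n → Mat n)
      ((ContinuousLinearEquiv.refl ℝ (Mat n) : Mat n ≃L[ℝ] Mat n) : Mat n →L[ℝ] Mat n) 0 :=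
    hasStrictFDerivAt_exp_zero
  have h1 := h.to_localInverse
  have h2 := h.localInverse_apply_image
  rw [NormedSpace.exp_zero] at h1 h2
  exact ⟨h.localInverse, h1, h2, h.eventually_left_inverse⟩

variable {G : Type} [Group G] [TopologicalSpace G] {ρ : G →* SLn n}

/-- the symmetric elements of the Lie algebra -/
def pS (he : IsClosedEmbedding ρ) : Submodule ℝ (Mat n) where
  carrier := {X | Xᵀ = X ∧ Lie ρ X}
  zero_mem' := ⟨by simp, lie_zero⟩
  add_mem' := by
    rintro X Y ⟨hX, hX'⟩ ⟨hY, hY'⟩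
    exact ⟨by rw [Matrix.transpose_add, hX, hY], lie_add he hX' hY'⟩
  smul_mem' := by
    rintro c X ⟨hX, hX'⟩
    exact ⟨by rw [Matrix.transpose_smul, hX], lie_smul c hX'⟩

theorem mem_pS {he : IsClosedEmbedding ρ} {X : Mat n} : X ∈ pS he ↔ Xᵀ = X ∧ Lie ρ X := Iff.rfl

theorem exists_LS (he : IsClosedEmbedding ρ) {L : Mat n → Mat n}
    (hL : ∀ᶠ X in 𝓝 (0 : Mat n), L (NormedSpace.exp X) = X) :
    ∀ᶠ P in 𝓝 (1 : Mat n), P ∈ im ρ → Pᵀ = P → L P ∈ pS he ∧ NormedSpace.exp (L P) = P := by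
  have hU : {X : Mat n | L (NormedSpace.exp X) = X ∧ L (NormedSpace.exp Xᵀ) = Xᵀ} ∈
      𝓝 (0 : Mat n) := by
    have h1 : Tendsto (fun X : Mat n => Xᵀ) (𝓝 0) (𝓝 0) := by
      have := (tr (n := n)).continuous.tendsto 0
      rw [map_zero] at this
      exact this
    exact hL.and (h1.eventually hL)
  obtain ⟨V, hV, h⟩ := H736.Re.log_nhds he (lieS he) (fun X => mem_lieS) hU
  filter_upwards [hV] with P hP
  rintro ⟨g, rfl⟩ hs
  obtain ⟨X, ⟨hX1, hX2⟩, hXl, hX⟩ := h g hP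
  have e1 : L (ρ g).1 = X := by rw [hX]; exact hX1
  have e2 : Xᵀ = X := by
    rw [← hX2, Matrix.exp_transpose, ← hX]
    show L ((ρ g).1ᵀ) = X
    rw [show (ρ g).1ᵀ = (ρ g).1 from hs, e1]
  refine ⟨?_, ?_⟩
  · show L (ρ g).1 ∈ pS he
    rw [e1]; exact ⟨e2, hXl⟩
  · show NormedSpace.exp (L (ρ g).1) = (ρ g).1
    rw [e1, hX]

/-- two sided multiplication -/
noncomputable def ch (h : Mat n) : Mat n →L[ℝ] Mat n :=
  LinearMap.toContinuousLinearMap ((LinearMap.mulLeft ℝ h).comp (LinearMap.mulRight ℝ h))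

theorem ch_apply (h M : Mat n) : ch h M = h * (M * h) := rfl

theorem im_sym_conj {h P : Mat n} (hh : h ∈ im ρ) (hs : hᵀ = h) (hP : P ∈ im ρ) (hPs : Pᵀ = P) :
    ch h P ∈ im ρ ∧ (ch h P)ᵀ = ch h P := by
  refine ⟨im_mul _ hh _ (im_mul _ hP _ hh), ?_⟩
  rw [ch_apply, Matrix.transpose_mul, Matrix.transpose_mul, hs, hPs, Matrix.mul_assoc]

/-- a chart of a subspace -/
theorem exists_chart (S : Submodule ℝ (Mat n)) : ∃ (d : ℕ) (ι : (Fin d → ℝ) →L[ℝ] Mat n)
    (π : Mat n →L[ℝ] (Fin d → ℝ)), (∀ x, ι x ∈ S) ∧ (∀ X ∈ S, ι (π X) = X) ∧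
      Function.Injective ι := by
  obtain ⟨d, hd⟩ : ∃ d, d = Module.finrank ℝ S := ⟨_, rfl⟩
  obtain ⟨b⟩ : Nonempty (Module.Basis (Fin d) ℝ S) := by rw [hd]; exact ⟨Module.finBasis ℝ S⟩
  have hinj : Function.Injective (S.subtype.comp b.equivFun.symm.toLinearMap) := by
    intro x y hxy
    exact b.equivFun.symm.injective (Subtype.ext hxy)
  obtain ⟨π₀, hπ₀⟩ := (S.subtype.comp b.equivFun.symm.toLinearMap).exists_leftInverse_of_injective
    (LinearMap.ker_eq_bot.2 hinj)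
  refine ⟨d, LinearMap.toContinuousLinearMap (S.subtype.comp b.equivFun.symm.toLinearMap),
    LinearMap.toContinuousLinearMap π₀, fun x => (b.equivFun.symm x).2, fun X hX => ?_, hinj⟩
  obtain ⟨x, hx⟩ : ∃ x, b.equivFun.symm x = ⟨X, hX⟩ := ⟨b.equivFun ⟨X, hX⟩, by simp⟩
  have h1 : π₀ X = x := by
    have h2 := congrArg (fun T : (Fin d → ℝ) →ₗ[ℝ] (Fin d → ℝ) => T x) hπ₀
    have h3 : (S.subtype.comp b.equivFun.symm.toLinearMap) x = X := by
      show ((b.equivFun.symm x : S) : Mat n) = X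
      rw [hx]
    have h4 : π₀ ((S.subtype.comp b.equivFun.symm.toLinearMap) x) = x := h2
    rwa [h3] at h4
  show ((b.equivFun.symm (π₀ X) : S) : Mat n) = X
  rw [h1, hx]

/-- Near `exp X₀` the symmetric elements of the group are exponentials of symmetric elements of
the Lie algebra. -/
theorem loc (he : IsClosedEmbedding ρ) {X₀ : Mat n} (hX₀ : X₀ ∈ pS he) :
    ∀ᶠ P in 𝓝 (NormedSpace.exp X₀), P ∈ im ρ → Pᵀ = P →
      ∃ X ∈ pS he, P = NormedSpace.exp X := by
  haveI : CompleteSpace (Mat n) := FiniteDimensional.complete ℝ _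
  obtain ⟨L, hL1, hL0, hL⟩ := exists_L (n := n)
  obtain ⟨h, hh⟩ : ∃ h, h = NormedSpace.exp ((-(1 / 2) : ℝ) • X₀) := ⟨_, rfl⟩
  obtain ⟨h', hh'⟩ : ∃ h', h' = NormedSpace.exp ((1 / 2 : ℝ) • X₀) := ⟨_, rfl⟩
  have hhh : h * h' = 1 := by
    rw [hh, hh', ← H35.RePol.exp_smul_add]; norm_num
  have hhh' : h' * h = 1 := by
    rw [hh, hh', ← H35.RePol.exp_smul_add]; norm_num
  have hexp : NormedSpace.exp X₀ = h' * h' := by
    rw [hh', ← H35.RePol.exp_smul_add]; norm_num
  have hhi : h ∈ im ρ := by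
    obtain ⟨g, hg⟩ := hX₀.2 (-(1 / 2))
    exact ⟨g, by rw [hh]; exact hg⟩
  have hhs : hᵀ = h := by
    rw [hh, ← Matrix.exp_transpose, Matrix.transpose_smul, hX₀.1]
  have hchi : ∀ P Q, ch h P = ch h Q → P = Q := by
    intro P Q hPQ
    rw [ch_apply, ch_apply] at hPQ
    have h1 : h' * (h * (P * h)) * h' = h' * (h * (Q * h)) * h' := by rw [hPQ]
    have h2 : ∀ P, h' * (h * (P * h)) * h' = P := by
      intro P
      calc h' * (h * (P * h)) * h' = (h' * h) * P * (h * h') := by noncomm_ring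
        _ = P := by rw [hhh, hhh', one_mul, mul_one]
    rw [h2, h2] at h1
    exact h1
  have hch0 : ch h (NormedSpace.exp X₀) = 1 := by
    rw [ch_apply, hexp]
    calc h * (h' * h' * h) = (h * h') * (h' * h) := by noncomm_ring
      _ = 1 := by rw [hhh, hhh', one_mul]
  have hLS := exists_LS he hL
  obtain ⟨d, ι, π, hι, hιπ, hιi⟩ := exists_chart (pS he)
  have hπι : ∀ x, π (ι x) = x := fun x => hιi (hιπ _ (hι x))
  obtain ⟨x₀, hx₀⟩ : ∃ x₀, ι x₀ = X₀ := ⟨π X₀, hιπ _ hX₀⟩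
  obtain ⟨Ψ, hΨ⟩ : ∃ Ψ : (Fin d → ℝ) → Mat n, Ψ = fun x => L (ch h (NormedSpace.exp (ι x))) :=
    ⟨_, rfl⟩
  obtain ⟨Ψ', hΨ'⟩ : ∃ Ψ' : (Fin d → ℝ) →L[ℝ] Mat n, Ψ' = ((ch h).comp
    ((fderiv ℝ (NormedSpace.exp : Mat n → Mat n) X₀).comp ι)) := ⟨_, rfl⟩
  have s2 : HasStrictFDerivAt (fun x => NormedSpace.exp (ι x))
      ((fderiv ℝ (NormedSpace.exp : Mat n → Mat n) X₀).comp ι) x₀ := by
    have h1 : HasStrictFDerivAt (NormedSpace.exp : Mat n → Mat n)
        (fderiv ℝ (NormedSpace.exp : Mat n → Mat n) X₀) (ι x₀) := by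
      rw [hx₀]; exact strict X₀
    exact HasStrictFDerivAt.comp x₀ h1 ι.hasStrictFDerivAt
  have s3 : HasStrictFDerivAt (fun x => ch h (NormedSpace.exp (ι x))) Ψ' x₀ := by
    rw [hΨ']
    exact HasStrictFDerivAt.comp x₀ (ch h).hasStrictFDerivAt s2
  have s4 : HasStrictFDerivAt Ψ Ψ' x₀ := by
    have h1 : HasStrictFDerivAt L (1 : Mat n →L[ℝ] Mat n)
        ((fun x => ch h (NormedSpace.exp (ι x))) x₀) := by
      show HasStrictFDerivAt L (1 : Mat n →L[ℝ] Mat n) (ch h (NormedSpace.exp (ι x₀)))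
      rw [hx₀, hch0]; exact hL1
    have h2 := HasStrictFDerivAt.comp x₀ h1 s3
    rw [hΨ]
    exact h2
  have s5 : HasStrictFDerivAt (fun x => π (Ψ x)) (π.comp Ψ') x₀ :=
    HasStrictFDerivAt.comp x₀ π.hasStrictFDerivAt s4
  have hΨ0 : Ψ x₀ = 0 := by
    rw [hΨ]
    show L (ch h (NormedSpace.exp (ι x₀))) = 0
    rw [hx₀, hch0, hL0]
  have hW : ∀ᶠ x in 𝓝 x₀, ι (π (Ψ x)) = Ψ x ∧
      NormedSpace.exp (Ψ x) = ch h (NormedSpace.exp (ι x)) := by
    have c1 : Tendsto (fun x => ch h (NormedSpace.exp (ι x))) (𝓝 x₀) (𝓝 1) := by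
      have := s3.hasFDerivAt.continuousAt.tendsto
      simp only [hx₀, hch0] at this
      exact this
    filter_upwards [c1.eventually hLS] with x hx
    have h1 : NormedSpace.exp (ι x) ∈ im ρ := by
      obtain ⟨g, hg⟩ := exp_mem (hι x).2
      exact ⟨g, hg⟩
    have h2 : (NormedSpace.exp (ι x))ᵀ = NormedSpace.exp (ι x) := by
      rw [← Matrix.exp_transpose, (hι x).1]
    obtain ⟨h3, h4⟩ := im_sym_conj hhi hhs h1 h2
    obtain ⟨h5, h6⟩ := hx h3 h4
    have e : Ψ x = L (ch h (NormedSpace.exp (ι x))) := by rw [hΨ]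
    rw [e]
    exact ⟨hιπ _ h5, h6⟩
  -- the derivative takes values in the subspace
  have hD : ∀ A, ι (π (Ψ' A)) = Ψ' A := by
    have h1 : HasFDerivAt (fun x => ι (π (Ψ x))) (ι.comp (π.comp Ψ')) x₀ :=
      HasFDerivAt.comp x₀ ι.hasFDerivAt s5.hasFDerivAt
    have h2 : HasFDerivAt (fun x => ι (π (Ψ x))) Ψ' x₀ :=
      s4.hasFDerivAt.congr_of_eventuallyEq (hW.mono fun x hx => hx.1)
    have h3 := h1.unique h2
    intro A
    exact congrArg (fun T : (Fin d → ℝ) →L[ℝ] Mat n => T A) h3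
  have hinj : Function.Injective (π.comp Ψ') := by
    rw [injective_iff_map_eq_zero]
    intro A hA
    have h1 := hD A
    have h2 : π (Ψ' A) = 0 := hA
    rw [h2, map_zero] at h1
    have h3 : ch h (fderiv ℝ (NormedSpace.exp : Mat n → Mat n) X₀ (ι A)) = 0 := by
      have h4 : Ψ' A = ch h (fderiv ℝ (NormedSpace.exp : Mat n → Mat n) X₀ (ι A)) := by
        rw [hΨ']; rfl
      rw [← h4, ← h1]
    have h5 : fderiv ℝ (NormedSpace.exp : Mat n → Mat n) X₀ (ι A) = 0 :=
      hchi _ _ (by rw [h3, map_zero])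
    exact hιi (by rw [der_inj hX₀.1 (hι A).1 h5, map_zero])
  have hsurj : (π.comp Ψ').range = ⊤ := by
    have h1 : Function.Injective
        ((π.comp Ψ' : (Fin d → ℝ) →L[ℝ] (Fin d → ℝ)) : (Fin d → ℝ) →ₗ[ℝ] (Fin d → ℝ)) := hinj
    have h2 := LinearMap.injective_iff_surjective.1 h1
    exact LinearMap.range_eq_top.2 h2
  have hmap := s5.map_nhds_eq_of_surj hsurj
  have h0 : π (Ψ x₀) = 0 := by rw [hΨ0, map_zero]
  rw [h0] at hmap
  have hW' : (fun x => π (Ψ x)) '' {x | ι (π (Ψ x)) = Ψ x ∧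
      NormedSpace.exp (Ψ x) = ch h (NormedSpace.exp (ι x))} ∈ 𝓝 (0 : Fin d → ℝ) := by
    rw [← hmap]
    exact Filter.image_mem_map hW
  have c2 : Tendsto (fun P : Mat n => ch h P) (𝓝 (NormedSpace.exp X₀)) (𝓝 1) := by
    have := (ch h).continuous.tendsto (NormedSpace.exp X₀)
    rwa [hch0] at this
  have c3 : Tendsto L (𝓝 1) (𝓝 0) := by
    have := hL1.hasFDerivAt.continuousAt.tendsto
    rwa [hL0] at this
  have c4 : Tendsto (fun P => π (L (ch h P))) (𝓝 (NormedSpace.exp X₀)) (𝓝 0) := by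
    have h1 := (π.continuous.tendsto 0).comp (c3.comp c2)
    rw [map_zero] at h1
    exact h1
  filter_upwards [c2.eventually hLS, c4.eventually hW'] with P hP1 hP2 hPi hPs
  obtain ⟨h3, h4⟩ := im_sym_conj hhi hhs hPi hPs
  obtain ⟨h5, h6⟩ := hP1 h3 h4
  obtain ⟨x, ⟨hX1, hX2⟩, hX3⟩ := hP2
  refine ⟨ι x, hι x, hchi _ _ ?_⟩
  have e1 : L (ch h P) = Ψ x := by
    have h7 : ι (π (L (ch h P))) = L (ch h P) := hιπ _ h5
    rw [← hX1, ← h7]
    exact congrArg ι hX3.symm
  rw [← hX2, ← e1, h6]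

theorem spec_sym {X : Mat n} (hX : Xᵀ = X) : ∃ (U : Mat n) (e : Fin n → ℝ), Uᵀ * U = 1 ∧
    U * Uᵀ = 1 ∧ X = U * diagonal e * Uᵀ ∧
    NormedSpace.exp X = U * diagonal (fun i => Real.exp (e i)) * Uᵀ ∧
    NormedSpace.exp (-X) = U * diagonal (fun i => Real.exp (-e i)) * Uᵀ := by
  have hH : X.IsHermitian := by
    show Xᴴ = X
    rw [Matrix.conjTranspose_eq_transpose_of_trivial, hX]
  obtain ⟨U, hU1, hU2, hU⟩ := spec hH
  obtain ⟨e, he⟩ : ∃ e : Fin n → ℝ, e = hH.eigenvalues := ⟨_, rfl⟩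
  rw [← he] at hU
  have hU' : X = U * diagonal e * Uᴴ := hU
  have hexp : ∀ f : Fin n → ℝ, NormedSpace.exp (U * diagonal f * Uᴴ) =
      U * diagonal (fun i => Real.exp (f i)) * Uᴴ := by
    intro f
    rw [exp_conj_unit hU1 hU2, Matrix.exp_diagonal]
    congr 3
    funext i
    rw [Pi.coe_exp, Real.exp_eq_exp_ℝ]
  refine ⟨U, e, ?_, ?_, ?_, ?_, ?_⟩
  · rw [← Matrix.conjTranspose_eq_transpose_of_trivial]; exact hU2
  · rw [← Matrix.conjTranspose_eq_transpose_of_trivial]; exact hU1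
  · rw [← Matrix.conjTranspose_eq_transpose_of_trivial]; exact hU'
  · rw [← Matrix.conjTranspose_eq_transpose_of_trivial, ← hexp, ← hU']
  · rw [← Matrix.conjTranspose_eq_transpose_of_trivial, ← hexp (fun i => -e i)]
    congr 1
    have h1 : diagonal (fun i => -e i) = -diagonal e := by
      rw [← Matrix.diagonal_neg]
    rw [h1]
    conv_lhs => rw [hU']
    noncomm_ring

theorem trace_conj {U : Mat n} (hU : Uᵀ * U = 1) (D : Mat n) : (U * D * Uᵀ).trace = D.trace := by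
  rw [Matrix.trace_mul_comm, ← Matrix.mul_assoc, hU, Matrix.one_mul]

theorem entry_sq_le {X : Mat n} (a b : Fin n) : X a b ^ 2 ≤ (X * Xᵀ).trace := by
  have h1 : (X * Xᵀ).trace = ∑ a, ∑ b, X a b ^ 2 := by
    rw [Matrix.trace]
    refine Finset.sum_congr rfl fun a _ => ?_
    rw [Matrix.diag_apply, Matrix.mul_apply]
    refine Finset.sum_congr rfl fun b _ => ?_
    rw [Matrix.transpose_apply, sq]
  rw [h1]
  calc X a b ^ 2 ≤ ∑ b, X a b ^ 2 :=
        Finset.single_le_sum (f := fun b => X a b ^ 2) (fun _ _ => sq_nonneg _) (Finset.mem_univ b)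
    _ ≤ ∑ a, ∑ b, X a b ^ 2 :=
        Finset.single_le_sum (f := fun a => ∑ b, X a b ^ 2)
          (fun _ _ => Finset.sum_nonneg fun _ _ => sq_nonneg _) (Finset.mem_univ a)

theorem sq_le_exp (x : ℝ) : x ^ 2 ≤ 2 * (Real.exp x + Real.exp (-x)) := by
  have h : ∀ y : ℝ, 0 ≤ y → y ^ 2 ≤ 2 * (Real.exp y + Real.exp (-y)) := by
    intro y hy
    have h1 := Real.quadratic_le_exp_of_nonneg hy
    have h2 : (0:ℝ) < Real.exp (-y) := Real.exp_pos _
    nlinarith
  rcases le_total 0 x with hx | hx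
  · exact h x hx
  · have := h (-x) (by linarith)
    rw [neg_neg] at this
    nlinarith

/-- the entries of a symmetric matrix are bounded by the traces of its exponentials -/
theorem bound_exp {X : Mat n} (hX : Xᵀ = X) (a b : Fin n) :
    X a b ^ 2 ≤ 2 * ((NormedSpace.exp X).trace + (NormedSpace.exp (-X)).trace) := by
  obtain ⟨U, e, h1, h2, h3, h4, h5⟩ := spec_sym hX
  refine (entry_sq_le a b).trans ?_
  have h6 : X * Xᵀ = U * diagonal (fun i => e i * e i) * Uᵀ := by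
    rw [hX]
    have h7 : diagonal (fun i => e i * e i) = diagonal e * diagonal e := by
      rw [Matrix.diagonal_mul_diagonal]
    rw [h7]
    calc X * X = (U * diagonal e * Uᵀ) * (U * diagonal e * Uᵀ) := by rw [← h3]
      _ = U * diagonal e * (Uᵀ * U) * diagonal e * Uᵀ := by noncomm_ring
      _ = U * (diagonal e * diagonal e) * Uᵀ := by rw [h1]; noncomm_ring
  rw [h6, h4, h5, trace_conj h1, trace_conj h1, trace_conj h1, Matrix.trace_diagonal,
    Matrix.trace_diagonal, Matrix.trace_diagonal, ← Finset.sum_add_distrib, Finset.mul_sum]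
  refine Finset.sum_le_sum fun i _ => ?_
  have := sq_le_exp (e i)
  nlinarith

theorem exp_sym_eq_one {Z : Mat n} (hZ : Zᵀ = Z) (h : NormedSpace.exp Z = 1) : Z = 0 := by
  obtain ⟨U, e, h1, h2, h3, h4, h5⟩ := spec_sym hZ
  rw [h] at h4
  have h6 : diagonal (fun i => Real.exp (e i)) = (1 : Mat n) := by
    calc diagonal (fun i => Real.exp (e i)) =
        (Uᵀ * U) * diagonal (fun i => Real.exp (e i)) * (Uᵀ * U) := by
          rw [h1, one_mul, mul_one]
      _ = Uᵀ * (U * diagonal (fun i => Real.exp (e i)) * Uᵀ) * U := by noncomm_ring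
      _ = 1 := by rw [← h4, mul_one, h1]
  have h7 : ∀ i, e i = 0 := by
    intro i
    have h8 := congrFun (congrFun h6 i) i
    rw [Matrix.diagonal_apply_eq, Matrix.one_apply_eq] at h8
    exact (Real.exp_eq_one_iff _).1 h8
  have h9 : e = 0 := funext h7
  rw [h3, h9]
  have h10 : diagonal (0 : Fin n → ℝ) = (0 : Mat n) := Matrix.diagonal_zero
  rw [h10, mul_zero, zero_mul]

/-- `exp` is injective on symmetric matrices -/
theorem exp_sym_inj {X Y : Mat n} (hX : Xᵀ = X) (hY : Yᵀ = Y)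
    (h : NormedSpace.exp X = NormedSpace.exp Y) : X = Y := by
  have h1 : X * Y = Y * X := by
    refine comm_exp_sym hX ?_
    rw [h]
    exact ((Commute.refl Y).exp_left).eq
  have h2 : NormedSpace.exp (X - Y) = 1 := by
    rw [sub_eq_add_neg, Matrix.exp_add_of_commute _ _ (Commute.neg_right h1), h]
    have := H736.ExpLoc.exp_mul_neg (𝔸 := Mat n) Y
    exact this
  have h3 := exp_sym_eq_one (by rw [Matrix.transpose_sub, hX, hY]) h2
  exact sub_eq_zero.1 h3

/-- the positive definite part of a group element -/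
def sqm (ρ : G →* SLn n) (g : G) : Mat n := (ρ g).1ᵀ * (ρ g).1

theorem sqm_cont (he : IsClosedEmbedding ρ) : Continuous (sqm ρ) := by
  have h1 : Continuous fun g : G => (ρ g).1 := (emb_mat he).continuous
  exact h1.matrix_transpose.matrix_mul h1

theorem sqm_im (ha : ∀ g, ∃ g', (ρ g').1 = (ρ g).1ᵀ) (g : G) : sqm ρ g ∈ im ρ := by
  obtain ⟨g', hg'⟩ := ha g
  refine ⟨g' * g, ?_⟩
  show (ρ (g' * g)).1 = (ρ g).1ᵀ * (ρ g).1
  rw [map_mul, Matrix.SpecialLinearGroup.coe_mul, hg']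

theorem sqm_sym (g : G) : (sqm ρ g)ᵀ = sqm ρ g := by
  show ((ρ g).1ᵀ * (ρ g).1)ᵀ = (ρ g).1ᵀ * (ρ g).1
  rw [Matrix.transpose_mul, Matrix.transpose_transpose]

/-- the group elements with a logarithm in the Lie algebra -/
def QQ (he : IsClosedEmbedding ρ) : Set G := {g | ∃ X ∈ pS he, sqm ρ g = NormedSpace.exp X}

theorem isOpen_QQ (he : IsClosedEmbedding ρ) (ha : ∀ g, ∃ g', (ρ g').1 = (ρ g).1ᵀ) :
    IsOpen (QQ he) := by
  rw [isOpen_iff_mem_nhds]
  rintro g ⟨X, hX, hg⟩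
  have h1 := loc he hX
  rw [← hg] at h1
  have h2 := (sqm_cont he).tendsto g
  filter_upwards [h2.eventually h1] with g' hg'
  exact hg' (sqm_im ha g') (sqm_sym g')

/-- the sum of the traces of a matrix of determinant one and of its inverse -/
def vv (P : Mat n) : ℝ := P.trace + P.adjugate.trace

theorem vv_cont : Continuous (vv : Mat n → ℝ) := by
  have h1 : Continuous fun P : Mat n => P.trace := continuous_id.matrix_trace
  have h2 : Continuous fun P : Mat n => P.adjugate.trace :=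
    (continuous_id.matrix_adjugate).matrix_trace
  exact h1.add h2

theorem vv_exp {X : Mat n} (hd : (NormedSpace.exp X).det = 1) :
    vv (NormedSpace.exp X) = (NormedSpace.exp X).trace + (NormedSpace.exp (-X)).trace := by
  have h1 : (NormedSpace.exp X).adjugate = NormedSpace.exp (-X) := by
    have h2 : NormedSpace.exp X * (NormedSpace.exp X).adjugate = 1 := by
      rw [Matrix.mul_adjugate, hd, one_smul]
    have h3 : NormedSpace.exp (-X) * NormedSpace.exp X = 1 :=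
      H736.ExpLoc.exp_neg_mul (𝔸 := Mat n) X
    calc (NormedSpace.exp X).adjugate
        = (NormedSpace.exp (-X) * NormedSpace.exp X) * (NormedSpace.exp X).adjugate := by
          rw [h3, one_mul]
      _ = NormedSpace.exp (-X) * (NormedSpace.exp X * (NormedSpace.exp X).adjugate) := by
          rw [mul_assoc]
      _ = _ := by rw [h2, mul_one]
  rw [vv, h1]

/-- a compact piece -/
def KK (he : IsClosedEmbedding ρ) (C : ℝ) : Set (Mat n) :=
  {X | X ∈ pS he ∧ vv (NormedSpace.exp X) ≤ C}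

theorem det_of_im {P : Mat n} (h : P ∈ im ρ) : P.det = 1 := by
  obtain ⟨g, rfl⟩ := h
  exact (ρ g).2

theorem isCompact_KK (he : IsClosedEmbedding ρ) (C : ℝ) : IsCompact (KK he C) := by
  haveI : ProperSpace (Mat n) := FiniteDimensional.proper ℝ _
  apply Metric.isCompact_of_isClosed_isBounded
  · have h1 : IsClosed {X : Mat n | Xᵀ = X} :=
      isClosed_eq (continuous_id.matrix_transpose) continuous_id
    have h2 : IsClosed {X : Mat n | Lie ρ X} := lie_closed he
    have h3 : IsClosed {X : Mat n | vv (NormedSpace.exp X) ≤ C} :=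
      isClosed_le (vv_cont.comp continuous_exp) continuous_const
    exact (h1.inter h2).inter h3
  · rw [isBounded_iff_forall_norm_le]
    refine ⟨n * (2 * |C| + 1), ?_⟩
    rintro X ⟨hX, hC⟩
    refine H736.Re.norm_le_entry (by positivity) fun a b => ?_
    have hd : (NormedSpace.exp X).det = 1 := by
      obtain ⟨g, hg⟩ := exp_mem hX.2
      rw [← hg]; exact (ρ g).2
    rw [vv_exp hd] at hC
    have h1 := bound_exp hX.1 a b
    have h2 : X a b ^ 2 ≤ 2 * |C| := by
      have := le_abs_self C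
      linarith
    rw [← sq_abs] at h2
    nlinarith [abs_nonneg (X a b), abs_nonneg C]

theorem isClosed_QQ (he : IsClosedEmbedding ρ) : IsClosed (QQ he) := by
  rw [← closure_subset_iff_isClosed]
  intro g hg
  rw [mem_closure_iff_frequently] at hg
  obtain ⟨C, hC⟩ : ∃ C, C = vv (sqm ρ g) + 1 := ⟨_, rfl⟩
  have h1 : ∀ᶠ g' in 𝓝 g, vv (sqm ρ g') < C := by
    have h2 := (vv_cont.comp (sqm_cont he)).tendsto g
    exact h2.eventually (gt_mem_nhds (by show vv (sqm ρ g) < C; rw [hC]; linarith))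
  have h3 : ∃ᶠ g' in 𝓝 g, sqm ρ g' ∈ NormedSpace.exp '' (KK he C) := by
    refine (hg.and_eventually h1).mono ?_
    rintro g' ⟨⟨X, hX, hXg⟩, hlt⟩
    refine ⟨X, ⟨hX, ?_⟩, hXg.symm⟩
    rw [← hXg]; exact hlt.le
  have h4 : ∃ᶠ P in 𝓝 (sqm ρ g), P ∈ NormedSpace.exp '' (KK he C) :=
    ((sqm_cont he).tendsto g).frequently h3
  have h5 := mem_closure_iff_frequently.2 h4
  rw [((isCompact_KK he C).image continuous_exp).isClosed.closure_eq] at h5
  obtain ⟨X, hX, hXg⟩ := h5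
  exact ⟨X, hX.1, hXg.symm⟩

/-- **[RE-SQ]** in a closed connected group stable under transposition, all `gᵀ g` are
exponentials of symmetric elements of the Lie algebra -/
theorem exists_log_lie (he : IsClosedEmbedding ρ) (hc : PreconnectedSpace G)
    (ha : ∀ g, ∃ g', (ρ g').1 = (ρ g).1ᵀ) (g : G) :
    ∃ X : Mat n, Xᵀ = X ∧ Lie ρ X ∧ (ρ g).1ᵀ * (ρ g).1 = NormedSpace.exp X := by
  have h1 : IsClopen (QQ he) := ⟨isClosed_QQ he, isOpen_QQ he ha⟩
  have h2 : (QQ he).Nonempty := by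
    refine ⟨1, 0, (pS he).zero_mem, ?_⟩
    rw [NormedSpace.exp_zero]
    show (ρ 1).1ᵀ * (ρ 1).1 = 1
    rw [map_one]
    show (1 : Mat n)ᵀ * (1 : Mat n) = 1
    rw [Matrix.transpose_one, mul_one]
  have h3 := h1.eq_univ h2
  have h4 : g ∈ QQ he := by rw [h3]; trivial
  obtain ⟨X, hX, hXg⟩ := h4
  exact ⟨X, hX.1, hX.2, hXg⟩

/-- **[RE-SQ]** the field `sqrt` of `RS` is automatic -/
theorem sqrt_auto (he : IsClosedEmbedding ρ) (hc : PreconnectedSpace G)
    (ha : ∀ g, ∃ g', (ρ g').1 = (ρ g).1ᵀ) (h : SLn n) (hp : h.1.PosDef)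
    (hg : ∃ g, ρ g = h * h) : ∃ g, ρ g = h := by
  obtain ⟨g, hg⟩ := hg
  obtain ⟨X, hX, hXl, hXg⟩ := exists_log_lie he hc ha g
  obtain ⟨Y, hY, hYh⟩ := H35.RePol.exists_log hp
  have hh : (ρ g).1 = NormedSpace.exp ((2 : ℝ) • Y) := by
    rw [hg, Matrix.SpecialLinearGroup.coe_mul, exp_two, hYh]
  have hht : (ρ g).1ᵀ = (ρ g).1 := by
    rw [hh, ← Matrix.exp_transpose, Matrix.transpose_smul, hY]
  have e1 : NormedSpace.exp ((2 : ℝ) • ((2 : ℝ) • Y)) = NormedSpace.exp X := by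
    rw [exp_two, ← hh, ← hXg, hht]
  have e2 : (2 : ℝ) • ((2 : ℝ) • Y) = X :=
    exp_sym_inj (by rw [Matrix.transpose_smul, Matrix.transpose_smul, hY]) hX e1
  have e3 : Y = (1 / 4 : ℝ) • X := by
    rw [← e2, smul_smul, smul_smul]; norm_num
  obtain ⟨g', hg'⟩ := exp_mem (lie_smul (1 / 4 : ℝ) hXl)
  refine ⟨g', Subtype.ext ?_⟩
  rw [hg', ← e3, hYh]

/-- `ρ` identifies the topological group `G` with a closed, connected, noncompact subgroup of
`SL_n(ℝ)`, stable under transposition, nonabelian and simple modulo its centre. -/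
structure RS0 (ρ : G →* SLn n) : Prop where
  emb : IsClosedEmbedding ρ
  conn : PreconnectedSpace G
  adj : ∀ g, ∃ g', (ρ g').1 = (ρ g).1ᵀ
  nc : ¬ CompactSpace G
  nab : ∃ g h : G, g * h ≠ h * g
  simple : ∀ N : Subgroup G, N.Normal → N ≤ Subgroup.center G ∨ N = ⊤

theorem rs_of (h : RS0 ρ) : RS ρ where
  emb := h.emb
  conn := h.conn
  adj := h.adj
  sqrt := sqrt_auto h.emb h.conn h.adj
  nc := h.nc
  nab := h.nab
  simple := h.simple

theorem rs_iff : RS ρ ↔ RS0 ρ :=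
  ⟨fun h => ⟨h.emb, h.conn, h.adj, h.nc, h.nab, h.simple⟩, rs_of⟩

end Vale.Agent.P092.H41.Re
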